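import Crest.Agent.N222.T.Cov
import Crest.Agent.N222.F.Res
import Crest.Agent.N222.F.Bump
import Crest.Agent.N222.A.Fib
import Crest.Agent.N222.T.Defs
import Crest.Agent.N222.B.Pic

-- ▼ part N222/T/Lab
section

/-!
# Row 222, glue (helper55): labels on the universal covering
(SKELETON: fill in place, statements frozen; add lemmas freely)
-/

set_option autoImplicit false
set_option linter.dupNamespace false
open Set Filter Topology Function
open scoped ContDiff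

noncomputable section

namespace Crest.Agent.N222.T

/-- a proper word length -/
theorem exists_len_nat (Γ : Type) [Group Γ] [Countable Γ] : ∃ n : Γ → ℕ, (∀ g, n g⁻¹ = n g) ∧
    (∀ g h, n (g * h) ≤ n g + n h) ∧ ∀ R : ℕ, {g | n g ≤ R}.Finite := by
  obtain ⟨e, he⟩ := exists_injective_nat Γ
  let wt : Γ → ℕ := fun g => e g + e g⁻¹ + 1
  have wi : ∀ g, wt g⁻¹ = wt g := fun g => by simp only [wt, inv_inv]; omega
  let P : Γ → Set ℕ := fun g => {k | ∃ L : List Γ, L.prod = g ∧ (L.map wt).sum = k}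
  have mem : ∀ g, sInf (P g) ∈ P g := fun g => Nat.sInf_mem ⟨_, [g], by simp, rfl⟩
  have inv : ∀ g, P g ⊆ P g⁻¹ := by
    rintro _ _ ⟨L, rfl, rfl⟩
    refine ⟨(L.map fun x => x⁻¹).reverse, (List.prod_inv_reverse L).symm, ?_⟩
    rw [List.map_reverse, List.sum_reverse, List.map_map]
    exact congrArg (fun f => (L.map f).sum) (funext wi)
  refine ⟨fun g => sInf (P g), fun g => le_antisymm (Nat.sInf_le (inv g (mem g)))
    (Nat.sInf_le (by simpa using inv g⁻¹ (mem g⁻¹))), fun g h => Nat.sInf_le ?_, fun R => ?_⟩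
  · obtain ⟨L, h1, h2⟩ := mem g
    obtain ⟨L', h3, h4⟩ := mem h
    exact ⟨L ++ L', by rw [List.prod_append, h1, h3],
      by rw [List.map_append, List.sum_append, h2, h4]⟩
  · have key : ∀ R : ℕ, {g | ∃ k ≤ R, k ∈ P g}.Finite := by
      intro R
      induction R with
      | zero =>
        refine (finite_singleton 1).subset ?_
        rintro _ ⟨_, hk, L, rfl, rfl⟩
        cases L with
        | nil => rfl
        | cons a L => simp [wt] at hk
      | succ R ih =>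
        have h1 : {a | wt a ≤ R + 1}.Finite :=
          ((finite_Iic (R + 1)).preimage he.injOn).subset fun a ha => by
            simp only [wt, mem_ofPred_eq, mem_preimage, mem_Iic] at ha ⊢; omega
        refine ((finite_singleton 1).union (h1.image2 (· * ·) ih)).subset ?_
        rintro _ ⟨_, hk, L, rfl, rfl⟩
        cases L with
        | nil => exact Or.inl rfl
        | cons a L =>
          rw [List.map_cons, List.sum_cons] at hk
          have : 1 ≤ wt a := Nat.le_add_left _ _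
          exact Or.inr ⟨a, by simp only [mem_ofPred_eq]; omega, L.prod,
            ⟨_, by omega, L, rfl, rfl⟩, List.prod_cons.symm⟩
    exact (key R).subset fun g hg => ⟨_, hg, mem g⟩

/-- a proper length function on a countable group -/
theorem exists_len (Γ : Type) [Group Γ] [Countable Γ] {A : Set Γ} (hA : A.Finite) :
    ∃ l : Γ → ℝ, (∀ g, 0 ≤ l g) ∧ (∀ g, l g⁻¹ = l g) ∧ (∀ g h, l (g * h) ≤ l g + l h) ∧
      (∀ g ∈ A, l g ≤ 1) ∧ ∀ R : ℝ, {g | l g ≤ R}.Finite := by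
  obtain ⟨n, h1, h2, h3⟩ := exists_len_nat Γ
  obtain ⟨C, hC⟩ := (hA.image n).bddAbove
  have h0 : (0 : ℝ) < C + 1 := by positivity
  refine ⟨fun g => n g / (C + 1), fun g => by positivity, fun g => by simp only [h1],
    fun g h => ?_, fun g hg => ?_, fun R => (h3 ⌈R * (C + 1)⌉₊).subset fun g hg => ?_⟩
  · rw [← add_div]
    exact div_le_div_of_nonneg_right (by exact_mod_cast h2 g h) h0.le
  · have : (n g : ℝ) ≤ C := by exact_mod_cast hC ⟨g, hg, rfl⟩
    rw [div_le_one h0]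
    linarith
  · have := ((div_le_iff₀ h0).1 hg).trans (Nat.le_ceil _)
    exact_mod_cast this

/-- an equivariant partition of unity by squares, a distance to the base region and a distance
between labels -/
structure Lab (Γ : Type) {T ι : Type} [Group Γ] [MulAction Γ T] [TopologicalSpace T] [Fintype ι]
    [DecidableEq ι] {n : ℕ} (N : Imm n ι T) (K0 : ℝ) where
  w : T → ℝ
  d : T → ℝ
  l : Γ → ℝ
  w_sm : N.Tst w
  d_sm : N.Sm d
  sum : ∀ x (s : Finset Γ), (∀ g : Γ, w (g⁻¹ • x) ≠ 0 → g ∈ s) → ∑ g ∈ s, w (g⁻¹ • x) ^ 2 = 1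
  le_one : ∀ x, w x ^ 2 ≤ 1
  cover : ∀ x, ∃ g : Γ, w (g⁻¹ • x) ≠ 0
  fis : ∀ x (s : Finset Γ), 4 * ∑ g ∈ s, N.pre.gam w w (g⁻¹ • x) + 1 ≤ K0
  d_gam : ∀ x, N.pre.gam d d x + 1 ≤ K0
  d_one : ∀ x, w x ≠ 0 → d x ≤ 1
  d_sub : ∀ (g g' : Γ) x, d (g⁻¹ • x) - d (g'⁻¹ • x) ≤ l (g⁻¹ * g')
  d_add : ∀ (g g' : Γ) x, l (g⁻¹ * g') ≤ d (g⁻¹ • x) + d (g'⁻¹ • x)
  cpt : ∀ ρ : ℝ, IsCompact {x | d x ≤ ρ}

namespace Lb

variable {Γ T ι : Type} [Group Γ] [MulAction Γ T] [TopologicalSpace T] [Fintype ι] {n : ℕ}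
  {N : Imm n ι T}

/-- sum over the translates -/
def sm (f : T → ℝ) (c : Γ → ℝ) (x : T) : ℝ := ∑ᶠ g, f (g⁻¹ • x) * c g

omit [TopologicalSpace T] in
theorem sm_eq {f : T → ℝ} (c : Γ → ℝ) {x : T} {s : Finset Γ} (h : ∀ g : Γ, f (g⁻¹ • x) ≠ 0 → g ∈ s) :
    sm f c x = ∑ g ∈ s, f (g⁻¹ • x) * c g :=
  finsum_eq_sum_of_support_subset _ fun g hg => h g (left_ne_zero_of_mul hg)

omit [TopologicalSpace T] in
theorem sm_smul (f : T → ℝ) (c : Γ → ℝ) (h : Γ) (x : T) :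
    sm f c (h⁻¹ • x) = sm f (fun k => c (h⁻¹ * k)) x := by
  rw [sm, sm, ← finsum_comp_equiv (Equiv.mulLeft h) (f := fun g => f (g⁻¹ • x) * c (h⁻¹ * g))]
  simp [mul_smul]

/-- a properly discontinuous isometric action -/
structure Act (Γ : Type) [Group Γ] [MulAction Γ T] (N : Imm n ι T) : Prop where
  loc : ∀ (g : Γ) x, Loc N N (fun y => g • y) x
  fin : ∀ {A B : Set T}, IsCompact A → IsCompact B → {g : Γ | ∃ x ∈ A, g • x ∈ B}.Finite
  lc : LocallyCompactSpace T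

theorem Act.locfin (H : Act Γ N) {B : Set T} (hB : IsCompact B) (x₀ : T) :
    ∃ s : Finset Γ, ∀ᶠ x in 𝓝 x₀, ∀ g : Γ, g⁻¹ • x ∈ B → g ∈ s := by
  have := H.lc
  obtain ⟨W, hW, hx⟩ := exists_compact_mem_nhds x₀
  refine ⟨(H.fin hW hB).inv.toFinset, ?_⟩
  filter_upwards [hx] with x hx g hg
  exact (Finite.mem_toFinset _).2 ⟨x, hx, hg⟩

theorem Act.res (H : Act Γ N) {f : T → ℝ} (hf : N.Sm f) (g : Γ) : N.Sm fun x => f (g • x) :=
  hf.res (H.loc g)

theorem Act.sm_sm (H : Act Γ N) {f : T → ℝ} (hf : N.Tst f) (c : Γ → ℝ) : N.Sm (sm f c) := by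
  refine Imm.sm_of_local fun x₀ => ?_
  obtain ⟨s, hs⟩ := H.locfin hf.cs x₀
  exact ⟨_, Imm.sm_sum s fun g _ => (H.res hf.sm g⁻¹).mul (Imm.sm_const (c g)),
    hs.mono fun x hx => sm_eq c fun g hg => hx g (subset_tsupport _ hg)⟩

theorem tsupport_sq (f : T → ℝ) : tsupport (fun x => f x ^ 2) ⊆ tsupport f :=
  closure_mono (s := support fun x => f x ^ 2) (t := support f)
    fun _ hx h => hx (by simp only [h]; simp)

theorem tst_sq {f : T → ℝ} (hf : N.Tst f) : N.Tst fun x => f x ^ 2 :=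
  ⟨hf.sm.pow 2, hf.cs.mono fun _ hx => fun h => hx (by simp only [h]; simp)⟩

theorem Act.exists_w [T2Space T] [SecondCountableTopology T] (H : Act Γ N) {K : Set T}
    (hK : IsCompact K) (hc : ∀ x, ∃ g : Γ, g • x ∈ K) :
    ∃ w, N.Tst w ∧ ∀ x, sm (fun y => w y ^ 2) (fun _ : Γ => 1) x = 1 := by
  obtain ⟨v, hv, -, -, h1⟩ := N.exists_bump hK isOpen_univ (subset_univ _)
  set B := sm (fun y => v y ^ 2) (fun _ : Γ => 1) with hB
  have hs : ∀ x, ∃ s : Finset Γ, ∀ g : Γ, v (g⁻¹ • x) ≠ 0 → g ∈ s := fun x =>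
    (H.locfin hv.cs x).imp fun _ hs g hg => hs.self_of_nhds g (subset_tsupport _ hg)
  have hB0 : ∀ x, 0 < B x := fun x => by
    obtain ⟨s, hs⟩ := hs x
    obtain ⟨g, hg⟩ := hc x
    have h2 : v (g⁻¹⁻¹ • x) = 1 := by rw [inv_inv]; exact h1.self_of_nhdsSet _ hg
    rw [hB, sm_eq _ fun g hg => hs g (pow_ne_zero_iff two_ne_zero |>.1 hg)]
    exact Finset.sum_pos' (fun _ _ => by positivity)
      ⟨g⁻¹, hs _ (by rw [h2]; exact one_ne_zero), by rw [h2]; norm_num⟩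
  have hBs : N.Sm B := H.sm_sm (tst_sq hv) _
  refine ⟨fun x => v x / √(B x), ⟨hv.sm.div (hBs.sqrt fun x => (hB0 x).ne')
    fun x => (Real.sqrt_pos.2 (hB0 x)).ne', hv.cs.mono fun _ hx h => hx (by simp only [h]; simp)⟩,
    fun x => ?_⟩
  obtain ⟨s, hs⟩ := hs x
  have hi : ∀ g : Γ, B (g⁻¹ • x) = B x := fun g => sm_smul _ _ g x
  rw [sm_eq _ fun g hg => hs g fun h => hg (by simp only [h]; simp)]
  simp only [div_pow, hi, Real.sq_sqrt (hB0 x).le, mul_one]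
  rw [← Finset.sum_div, div_eq_one_iff_eq (hB0 x).ne', hB,
    sm_eq _ fun g hg => hs g (pow_ne_zero_iff two_ne_zero |>.1 hg)]
  simp only [mul_one]

omit [TopologicalSpace T] in
/-- bounded multiplicity -/
theorem sum_le_card {B : Set T} {A : Finset Γ} (hA : ∀ a : Γ, ∀ x ∈ B, a⁻¹ • x ∈ B → a ∈ A) (x : T)
    (s : Finset Γ) {φ : Γ → ℝ} {C : ℝ} (hC : 0 ≤ C) (h1 : ∀ g, φ g ≤ C)
    (h2 : ∀ g, φ g ≠ 0 → g⁻¹ • x ∈ B) : ∑ g ∈ s, φ g ≤ A.card * C := by
  classical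
  rw [← Finset.sum_filter_ne_zero]
  refine (Finset.sum_le_card_nsmul _ _ C fun g _ => h1 g).trans ?_
  rw [nsmul_eq_mul]
  refine mul_le_mul_of_nonneg_right (Nat.cast_le.2 ?_) hC
  rcases (s.filter fun g => φ g ≠ 0).eq_empty_or_nonempty with h | ⟨g₀, h₀⟩
  · rw [h]; exact Nat.zero_le _
  · refine Finset.card_le_card_of_injOn (fun g => g₀⁻¹ * g) (fun g hg => ?_)
      (mul_right_injective _).injOn
    refine hA _ _ (h2 g₀ (Finset.mem_filter.1 h₀).2) ?_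
    rw [← mul_smul, mul_inv_rev, inv_inv, mul_inv_cancel_right]
    exact h2 g (Finset.mem_filter.1 hg).2

theorem Act.exists_lab [DecidableEq ι] [T2Space T] [Countable Γ] [ContinuousConstSMul Γ T]
    (H : Act Γ N) {w : T → ℝ} (hw : N.Tst w)
    (h1 : ∀ x, sm (fun y => w y ^ 2) (fun _ : Γ => 1) x = 1) :
    ∃ K0 : ℝ, 1 ≤ K0 ∧ Nonempty (Lab Γ N K0) := by
  have hq := tst_sq hw
  have eq : ∀ (c : Γ → ℝ) {x} {s : Finset Γ}, (∀ g : Γ, w (g⁻¹ • x) ≠ 0 → g ∈ s) →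
      sm (fun y => w y ^ 2) c x = ∑ g ∈ s, w (g⁻¹ • x) ^ 2 * c g := fun c x s hs =>
    sm_eq _ fun g hg => hs g (pow_ne_zero_iff two_ne_zero |>.1 hg)
  have hsum : ∀ x (s : Finset Γ), (∀ g : Γ, w (g⁻¹ • x) ≠ 0 → g ∈ s) →
      ∑ g ∈ s, w (g⁻¹ • x) ^ 2 = 1 := fun x s hs => by
    simpa only [mul_one] using (eq _ hs).symm.trans (h1 x)
  have hs : ∀ x, ∃ s : Finset Γ, ∀ g : Γ, w (g⁻¹ • x) ≠ 0 → g ∈ s := fun x =>
    (H.locfin hw.cs x).imp fun _ hs g hg => hs.self_of_nhds g (subset_tsupport _ hg)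
  have cover : ∀ x, ∃ g : Γ, w (g⁻¹ • x) ≠ 0 := fun x => by
    by_contra! h
    simpa using hsum x ∅ fun g hg => absurd (h g) hg
  have avg : ∀ (c c' : Γ → ℝ) (r : ℝ) x, (∀ g : Γ, w (g⁻¹ • x) ≠ 0 → c g + c' g ≤ r) →
      sm (fun y => w y ^ 2) c x + sm (fun y => w y ^ 2) c' x ≤ r := fun c c' r x h => by
    obtain ⟨s, hs⟩ := hs x
    rw [eq c hs, eq c' hs, ← Finset.sum_add_distrib, ← one_mul r, ← hsum x s hs, Finset.sum_mul]
    refine Finset.sum_le_sum fun g _ => ?_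
    rw [← mul_add]
    by_cases hg : w (g⁻¹ • x) = 0
    · simp [hg]
    · exact mul_le_mul_of_nonneg_left (h g hg) (sq_nonneg _)
  have neg : ∀ (c : Γ → ℝ) x, sm (fun y => w y ^ 2) (fun g => -c g) x =
      -sm (fun y => w y ^ 2) c x := fun c x => by
    obtain ⟨s, hs⟩ := hs x
    simp only [eq _ hs, mul_neg, Finset.sum_neg_distrib]
  have hA := (H.fin hw.cs hw.cs).inv
  have hA' : ∀ a : Γ, ∀ x ∈ tsupport w, a⁻¹ • x ∈ tsupport w → a ∈ hA.toFinset :=
    fun a x hx ha => (Finite.mem_toFinset _).2 ⟨x, hx, ha⟩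
  obtain ⟨l, l0, li, lm, l1, lf⟩ := exists_len Γ hA
  have l1' : ∀ a : Γ, ∀ x ∈ tsupport w, a⁻¹ • x ∈ tsupport w → l a ≤ 1 :=
    fun a x hx ha => l1 a ⟨x, hx, ha⟩
  have hg0 : ∀ x ∉ tsupport w, N.pre.gam w w x = 0 := fun x hx => by
    simp only [Imm.gam_apply, Imm.D_eq_zero_of_notMem hx, mul_zero, Finset.sum_const_zero]
  obtain ⟨C₁, hC₁⟩ := (hw.sm.gam hw.sm).continuous.bounded_above_of_compact_support
    (HasCompactSupport.intro hw.cs hg0)
  choose C hC using fun a : ι =>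
    (hq.D a).sm.continuous.bounded_above_of_compact_support (hq.D a).cs
  have hd : N.Sm (sm (fun y => w y ^ 2) l) := H.sm_sm hq l
  have hD : ∀ a x, |N.pre.D a (sm (fun y => w y ^ 2) l) x| ≤ hA.toFinset.card * C a := by
    intro a x
    obtain ⟨s, hs⟩ := H.locfin hw.cs x
    obtain ⟨g₀, h₀⟩ := cover x
    have e : sm (fun y => w y ^ 2) l =ᶠ[𝓝 x]
        fun y => (∑ g ∈ s, (l g - l g₀) * w (g⁻¹ • y) ^ 2) + l g₀ := hs.mono fun y hy => by
      have hy' : ∀ g : Γ, w (g⁻¹ • y) ≠ 0 → g ∈ s := fun g hg => hy g (subset_tsupport _ hg)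
      simp only [eq l hy', sub_mul, Finset.sum_sub_distrib, ← Finset.mul_sum, hsum y s hy',
        mul_comm]
      ring
    have d1 : ∀ g : Γ, N.Sm fun y => w (g⁻¹ • y) ^ 2 := fun g => H.res hq.sm g⁻¹
    have d2 : ∀ g ∈ s, N.Sm fun y => (l g - l g₀) * w (g⁻¹ • y) ^ 2 :=
      fun g _ => (Imm.sm_const _).mul (d1 g)
    rw [Imm.D_congr e, Imm.D_add ((Imm.sm_sum s d2).diffAt x) ((Imm.sm_const _).diffAt x),
      Imm.D_const, add_zero, Imm.D_sum s fun g hg => (d2 g hg).diffAt x]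
    refine (Finset.abs_sum_le_sum_abs _ _).trans ?_
    have e2 : ∀ g : Γ, N.pre.D a (fun y => (l g - l g₀) * w (g⁻¹ • y) ^ 2) x =
        (l g - l g₀) * N.pre.D a (fun y => w y ^ 2) (g⁻¹ • x) := fun g => by
      rw [Imm.D_const_mul _ ((d1 g).diffAt x), (H.loc g⁻¹ x).D_iso fun y => w y ^ 2]
    have e3 : ∀ g : Γ, g⁻¹ • x ∉ tsupport w → N.pre.D a (fun y => w y ^ 2) (g⁻¹ • x) = 0 :=
      fun g hg => Imm.D_eq_zero_of_notMem (fun h => hg (tsupport_sq w h)) a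
    have hC0 : 0 ≤ C a := (norm_nonneg _).trans (hC a x)
    refine sum_le_card hA' x s hC0 (fun g => ?_) fun g hg => ?_
    · rw [e2]
      by_cases hg : g⁻¹ • x ∈ tsupport w
      · have h3 : l (g₀⁻¹ * g) ≤ 1 := l1' _ _ (subset_tsupport _ h₀) (by
          rwa [← mul_smul, mul_inv_rev, inv_inv, mul_inv_cancel_right])
        have h4 := lm g₀ (g₀⁻¹ * g)
        have h5 := lm g (g₀⁻¹ * g)⁻¹
        rw [mul_inv_cancel_left] at h4
        rw [li, mul_inv_rev, inv_inv, mul_inv_cancel_left] at h5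
        rw [abs_mul, ← one_mul (C a)]
        exact mul_le_mul (abs_le.2 ⟨by linarith, by linarith⟩) (hC a _) (abs_nonneg _) zero_le_one
      · rwa [e3 g hg, mul_zero, abs_zero]
    · by_contra h
      exact hg (by rw [e2, e3 g h, mul_zero, abs_zero])
  refine ⟨max 1 (max (4 * (hA.toFinset.card * C₁) + 1) (∑ a, (hA.toFinset.card * C a) ^ 2 + 1)),
    le_max_left _ _, ⟨⟨w, sm (fun y => w y ^ 2) l, l, hw, hd, hsum, fun x => ?_, cover,
      fun x s => ?_, fun x => ?_, fun x hx => ?_, fun g g' x => ?_, fun g g' x => ?_, fun ρ => ?_⟩⟩⟩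
  · obtain ⟨s, hs⟩ := hs x
    by_cases h : w x = 0
    · simp [h]
    · have := Finset.single_le_sum (f := fun g : Γ => w (g⁻¹ • x) ^ 2) (fun _ _ => sq_nonneg _)
        (hs 1 (by simpa using h))
      simpa [hsum x s hs] using this
  · have := sum_le_card hA' x s (φ := fun g => N.pre.gam w w (g⁻¹ • x))
      ((norm_nonneg _).trans (hC₁ x)) (fun g => (le_abs_self _).trans (hC₁ _))
      fun g hg => by_contra fun h => hg (hg0 _ h)
    exact le_max_of_le_right (le_max_of_le_left (by linarith))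
  · refine le_max_of_le_right (le_max_of_le_right ?_)
    rw [Imm.gam_apply]
    refine add_le_add_left (Finset.sum_le_sum fun a _ => ?_) _
    rw [← sq, ← sq_abs]
    exact pow_le_pow_left₀ (abs_nonneg _) (hD a x) 2
  · have := avg l (fun _ => 0) 1 x fun g hg => by
      rw [add_zero]; exact l1' g x (subset_tsupport _ hx) (subset_tsupport _ hg)
    simpa [sm] using this
  · rw [sm_smul, sm_smul, sub_eq_add_neg, ← neg]
    refine avg _ _ _ x fun k _ => ?_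
    have := lm (g⁻¹ * g') (g'⁻¹ * k)
    rw [mul_assoc, mul_inv_cancel_left] at this
    linarith
  · have := avg (fun k => -l (g⁻¹ * k)) (fun k => -l (g'⁻¹ * k)) (-l (g⁻¹ * g')) x fun k _ => by
      have := lm (g⁻¹ * k) (g'⁻¹ * k)⁻¹
      rw [li, mul_inv_rev, inv_inv, mul_assoc, mul_inv_cancel_left] at this
      linarith
    rw [neg, neg] at this
    rw [sm_smul, sm_smul]
    linarith
  · refine ((lf ρ).isCompact_biUnion fun g _ => hw.cs.isCompact.image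
      (continuous_const_smul g)).of_isClosed_subset (isClosed_le hd.continuous continuous_const)
      fun x hx => ?_
    by_contra h
    have h2 : ∀ g : Γ, w (g⁻¹ • x) ≠ 0 → ρ < l g := fun g hg => not_le.1 fun hl =>
      h (mem_iUnion₂.2 ⟨g, hl, _, subset_tsupport _ hg, smul_inv_smul g x⟩)
    obtain ⟨s, hs⟩ := hs x
    obtain ⟨g₀, h₀⟩ := cover x
    refine not_lt.2 (mem_ofPred.1 hx) ?_
    rw [eq l hs, ← one_mul ρ, ← hsum x s hs, Finset.sum_mul]
    refine Finset.sum_lt_sum (fun g _ => ?_)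
      ⟨g₀, hs _ h₀, mul_lt_mul_of_pos_left (h2 _ h₀) (by positivity)⟩
    by_cases hg : w (g⁻¹ • x) = 0
    · simp [hg]
    · exact mul_le_mul_of_nonneg_left (h2 g hg).le (sq_nonneg _)

end Lb

variable {S ι : Type} [TopologicalSpace S] [Fintype ι] {n : ℕ} (U : C.Cov S) (M : Imm n ι S)

/-- the universal covering as an immersed manifold -/
def cN : Imm n ι U.T := M.comap U.p U.loc

theorem cN_x (x : U.T) : (cN U M).x x = M.x (U.p x) := rfl

theorem loc_p (x : U.T) : Loc (cN U M) M U.p x := M.loc_comap U.p U.loc x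

/-- deck transformations are isometries -/
theorem loc_smul (g : U.Γ) (x : U.T) : Loc (cN U M) (cN U M) (fun y => g • y) x :=
  Loc.of_cont (continuous_const_smul g) (fun y => by rw [cN_x, cN_x, U.p_smul]) x

theorem exists_lab [DecidableEq ι] [T2Space S] [SecondCountableTopology S] [CompactSpace S] :
    ∃ K0 : ℝ, 1 ≤ K0 ∧ Nonempty (Lab U.Γ (cN U M) K0) := by
  have : LocallyCompactSpace S := by
    let := M.chartedSpace
    exact ChartedSpace.locallyCompactSpace (E (Fin n)) S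
  have := U.cnt
  have H : Lb.Act U.Γ (cN U M) := ⟨loc_smul U M, U.fin, inferInstance⟩
  obtain ⟨K, hK, hc⟩ := U.cocpt
  obtain ⟨w, hw, h1⟩ := H.exists_w hK hc
  exact H.exists_lab hw h1

end Crest.Agent.N222.T

end
end

-- ▼ part N222/T/Quot
section

/-!
# Row 222, glue (helper55): the quotient `(T × Y) / Γ` and its trivialisations
(SKELETON: fill in place, statements frozen; add lemmas freely)
-/

set_option autoImplicit false
set_option linter.dupNamespace false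
open Set Filter Topology Function

noncomputable section

namespace Crest.Agent.N222

namespace C.Par

variable {Γ κ : Type} [Group Γ] [Fintype κ] (Y : C.Par Γ κ)

instance ccs : ContinuousConstSMul Γ Y.Y := Y.cont

instance t2' : T2Space Y.Y := Y.t2

/-- every point has a translate in a chart -/
theorem exists_chart (η : Y.Y) : ∃ w, ∃ g : Γ, g • η ∈ (Y.ch w).source ∧ Y.t w (Y.π η) ≠ 0 := by
  obtain ⟨w, -, hw⟩ := Finset.exists_ne_zero_of_sum_ne_zero ((Y.t_sum η).trans_ne one_ne_zero)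
  obtain ⟨⟨g, hg⟩, h⟩ := Set.indicator_apply_ne_zero.1 hw
  exact ⟨w, g, hg, h⟩

theorem uniq {w : Y.W} {g g' : Γ} {η : Y.Y} (h : g • η ∈ (Y.ch w).source)
    (h' : g' • η ∈ (Y.ch w).source) : g = g' := by
  have := Y.disj w (g' * g⁻¹) (g • η) h (by rwa [mul_smul, inv_smul_smul])
  exact (mul_inv_eq_one.1 this).symm

theorem continuous_π : Continuous Y.π := by
  refine continuous_iff_continuousAt.2 fun η => ?_
  obtain ⟨w, g, hg, -⟩ := Y.exists_chart η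
  have e : Y.π = fun ζ => Y.ch w (g • ζ) := funext fun ζ => by rw [Y.ch_eq, Y.π_smul]
  rw [e]
  exact ContinuousAt.comp (f := fun ζ => g • ζ) ((Y.ch w).continuousAt hg)
    (continuous_const_smul g).continuousAt

theorem π_symm (w : Y.W) {ξ : κ → ℝ} (hξ : ξ ∈ (Y.ch w).target) : Y.π ((Y.ch w).symm ξ) = ξ := by
  rw [← Y.ch_eq w, (Y.ch w).right_inv hξ]

theorem π_mem {w : Y.W} {g : Γ} {η : Y.Y} (h : g • η ∈ (Y.ch w).source) :
    Y.π η ∈ (Y.ch w).target := by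
  rw [← Y.π_smul g, ← Y.ch_eq w]; exact (Y.ch w).map_source h

theorem symm_π {w : Y.W} {g : Γ} {η : Y.Y} (h : g • η ∈ (Y.ch w).source) :
    (Y.ch w).symm (Y.π η) = g • η := by
  rw [← Y.π_smul g, ← Y.ch_eq w, (Y.ch w).left_inv h]

instance lc : LocallyCompactSpace Y.Y := by
  refine ⟨fun η V hV => ?_⟩
  obtain ⟨w, g, hg, -⟩ := Y.exists_chart η
  let e := (Homeomorph.smul g).transOpenPartialHomeomorph (Y.ch w)
  have hx : η ∈ e.source := hg
  have h1 : e.target ∩ e.symm ⁻¹' V ∈ 𝓝 (e η) :=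
    inter_mem (e.open_target.mem_nhds (e.map_source hx))
      ((e.continuousAt_symm (e.map_source hx)).preimage_mem_nhds (by rwa [e.left_inv hx]))
  obtain ⟨K, hK, hKV, hKc⟩ := LocallyCompactSpace.local_compact_nhds _ _ h1
  refine ⟨e.symm '' K, ?_, by rintro _ ⟨y, hy, rfl⟩; exact (hKV hy).2,
    hKc.image_of_continuousOn (e.continuousOn_symm.mono fun y hy => (hKV hy).1)⟩
  filter_upwards [e.open_source.mem_nhds hx, (e.continuousAt hx).preimage_mem_nhds hK] with y hy hy'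
  exact ⟨e y, hy', e.left_inv hy⟩

/-- the saturation of a compact set is closed -/
theorem isClosed_sat {K : Set Y.Y} (hK : IsCompact K) : IsClosed (C.sat Γ K) := by
  refine isOpen_compl_iff.1 (isOpen_iff_mem_nhds.2 fun η hη => ?_)
  obtain ⟨N, hN, hN'⟩ := exists_compact_mem_nhds η
  have h1 : IsClosed (⋃ g ∈ {g : Γ | ∃ η ∈ N, g • η ∈ K}, (g • ·) ⁻¹' K) :=
    (Y.prop N K hN hK).isClosed_biUnion fun g _ => hK.isClosed.preimage (continuous_const_smul g)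
  filter_upwards [hN', h1.isOpen_compl.mem_nhds fun h => by
    obtain ⟨g, -, hg⟩ := mem_iUnion₂.1 h
    exact hη ⟨g, hg⟩] with ζ h2 h3 ⟨g, hg⟩
  exact h3 (mem_iUnion₂.2 ⟨g, ⟨ζ, h2, hg⟩, hg⟩)

end C.Par

namespace T

variable {S : Type} [TopologicalSpace S] (U : C.Cov S) {κ : Type} [Fintype κ] (Y : C.Par U.Γ κ)

/-- the quotient -/
def ZZ : Type := MulAction.orbitRel.Quotient U.Γ (U.T × Y.Y)

instance : TopologicalSpace (ZZ U Y) :=
  inferInstanceAs (TopologicalSpace (Quotient (MulAction.orbitRel U.Γ (U.T × Y.Y))))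

variable {U Y}

/-- the quotient map -/
def mk (z : U.T × Y.Y) : ZZ U Y := Quotient.mk (MulAction.orbitRel U.Γ (U.T × Y.Y)) z

theorem mk_eq {z z' : U.T × Y.Y} : mk z = mk z' ↔ ∃ g : U.Γ, g • z' = z :=
  Quotient.eq

theorem mk_smul (g : U.Γ) (z : U.T × Y.Y) : mk (g • z) = mk z := mk_eq.2 ⟨g, rfl⟩

theorem mk_surj : Surjective (mk : U.T × Y.Y → ZZ U Y) := Quotient.mk_surjective

theorem continuous_mk : Continuous (mk : U.T × Y.Y → ZZ U Y) := continuous_quotient_mk'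

theorem isOpenMap_mk : IsOpenMap (mk : U.T × Y.Y → ZZ U Y) := isOpenMap_quotient_mk'_mul

theorem isQuotientMap_mk : IsQuotientMap (mk : U.T × Y.Y → ZZ U Y) :=
  isOpenMap_mk.isQuotientMap continuous_mk mk_surj

instance t2Z [T2Space S] [LocallyCompactSpace S] : T2Space (ZZ U Y) := by
  have : ProperlyDiscontinuousSMul U.Γ (U.T × Y.Y) := ⟨fun {K L} hK hL =>
    (U.fin (hK.image continuous_fst) (hL.image continuous_fst)).subset (by
      rintro g ⟨_, ⟨z, hz, rfl⟩, h⟩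
      exact ⟨z.1, mem_image_of_mem _ hz, mem_image_of_mem Prod.fst h⟩)⟩
  exact t2Space_of_properlyDiscontinuousSMul_of_t2Space

theorem scZ [SecondCountableTopology S] [SecondCountableTopology Y.Y] :
    SecondCountableTopology (ZZ U Y) :=
  isQuotientMap_mk.secondCountableTopology isOpenMap_mk

/-- descent of an invariant function -/
def desc {α : Type} (f : U.T × Y.Y → α) (hf : ∀ (g : U.Γ) z, f (g • z) = f z) : ZZ U Y → α :=
  Quotient.lift f fun a b ⟨g, h⟩ => by rw [← hf g b]; exact congrArg f h.symm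

@[simp] theorem desc_mk {α : Type} (f : U.T × Y.Y → α) (hf : ∀ (g : U.Γ) z, f (g • z) = f z)
    (z : U.T × Y.Y) : desc f hf (mk z) = f z := rfl

/-- the projection to `S` -/
def qS : ZZ U Y → S := desc (fun z => U.p z.1) fun g z => U.p_smul g z.1

/-- the parameter -/
def pZ : ZZ U Y → κ → ℝ := desc (fun z => Y.π z.2) fun g z => Y.π_smul g z.2

@[simp] theorem qS_mk (z : U.T × Y.Y) : qS (mk z) = U.p z.1 := rfl

@[simp] theorem pZ_mk (z : U.T × Y.Y) : pZ (mk z) = Y.π z.2 := rfl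

theorem exists_phi (w : Y.W) : ∃ e : OpenPartialHomeomorph ((κ → ℝ) × U.T) (ZZ U Y),
    (∀ q, e q = mk (q.2, (Y.ch w).symm q.1)) ∧ e.source = (Y.ch w).target ×ˢ univ ∧
      e.target = mk '' (univ ×ˢ (Y.ch w).source) := by
  have : Nonempty Y.Y := ⟨(Y.ch w).symm 0⟩
  have hinj : InjOn (mk : U.T × Y.Y → ZZ U Y) (univ ×ˢ (Y.ch w).source) := fun z hz z' hz' h => by
    obtain ⟨g, rfl⟩ := mk_eq.1 h
    rw [Y.disj w g z'.2 hz'.2 hz.2, one_smul]
  let e1 := OpenPartialHomeomorph.ofContinuousOpen (hinj.toPartialEquiv _ _)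
    continuous_mk.continuousOn isOpenMap_mk (isOpen_univ.prod (Y.ch w).open_source)
  let e0 := ((Y.ch w).symm.prod (OpenPartialHomeomorph.refl U.T)).transHomeomorph
    (Homeomorph.prodComm _ _)
  have hs : (e0.trans e1).source = (Y.ch w).target ×ˢ univ :=
    Set.ext fun q => ⟨fun h => h.1, fun h => ⟨h, mem_univ _, (Y.ch w).map_target h.1⟩⟩
  refine ⟨e0.trans e1, fun q => rfl, hs, ?_⟩
  rw [← (e0.trans e1).image_source_eq_target, hs]
  refine Subset.antisymm ?_ ?_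
  · rintro _ ⟨q, hq, rfl⟩
    exact ⟨(q.2, (Y.ch w).symm q.1), ⟨mem_univ _, (Y.ch w).map_target hq.1⟩, rfl⟩
  · rintro _ ⟨z, hz, rfl⟩
    refine ⟨(Y.ch w z.2, z.1), ⟨(Y.ch w).map_source hz.2, mem_univ _⟩, ?_⟩
    change mk (z.1, (Y.ch w).symm (Y.ch w z.2)) = mk z
    rw [(Y.ch w).left_inv hz.2]

/-- the trivialisations -/
def phi (w : Y.W) : OpenPartialHomeomorph ((κ → ℝ) × U.T) (ZZ U Y) := (exists_phi w).choose

theorem phi_apply (w : Y.W) (q : (κ → ℝ) × U.T) : phi w q = mk (q.2, (Y.ch w).symm q.1) :=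
  (exists_phi w).choose_spec.1 q

theorem phi_source (w : Y.W) : (phi (U := U) w).source = (Y.ch w).target ×ˢ univ :=
  (exists_phi w).choose_spec.2.1

theorem phi_target (w : Y.W) : (phi (U := U) w).target = mk '' (univ ×ˢ (Y.ch w).source) :=
  (exists_phi w).choose_spec.2.2

theorem mem_phi_source {w : Y.W} {q : (κ → ℝ) × U.T} :
    q ∈ (phi w).source ↔ q.1 ∈ (Y.ch w).target := by
  rw [phi_source]; exact ⟨fun h => h.1, fun h => ⟨h, mem_univ _⟩⟩

theorem qS_phi (w : Y.W) (q : (κ → ℝ) × U.T) : qS (phi w q) = U.p q.2 := by rw [phi_apply]; rfl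

theorem pZ_phi {w : Y.W} {q : (κ → ℝ) × U.T} (hq : q ∈ (phi w).source) : pZ (phi w q) = q.1 := by
  rw [phi_apply, pZ_mk, Y.π_symm w (mem_phi_source.1 hq)]

theorem phi_symm_fst {w : Y.W} {z : ZZ U Y} (hz : z ∈ (phi w).target) :
    ((phi w).symm z).1 = pZ z := by
  rw [← pZ_phi ((phi w).map_target hz), (phi w).right_inv hz]

theorem mk_mem_target {w : Y.W} {x : U.T} {η : Y.Y} :
    mk (x, η) ∈ (phi w).target ↔ ∃ g : U.Γ, g • η ∈ (Y.ch w).source := by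
  rw [phi_target]
  refine ⟨?_, fun ⟨g, hg⟩ => ⟨g • (x, η), ⟨mem_univ _, hg⟩, mk_smul g _⟩⟩
  rintro ⟨z, hz, h⟩
  obtain ⟨g, rfl⟩ := mk_eq.1 h
  exact ⟨g, hz.2⟩

theorem phi_symm_mk {w : Y.W} {g : U.Γ} {η : Y.Y} (h : g • η ∈ (Y.ch w).source) (x : U.T) :
    (phi w).symm (mk (x, η)) = (Y.π η, g • x) := by
  have e : mk (x, η) = phi w (Y.π η, g • x) := by
    rw [phi_apply, Y.symm_π h]
    exact (mk_smul g (x, η)).symm
  rw [e, (phi w).left_inv (mem_phi_source.2 (Y.π_mem h))]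

theorem phi_cover (z : ZZ U Y) : ∃ w, z ∈ (phi w).target := by
  obtain ⟨⟨x, η⟩, rfl⟩ := mk_surj z
  obtain ⟨w, g, hg, -⟩ := Y.exists_chart η
  exact ⟨w, mk_mem_target.2 ⟨g, hg⟩⟩

theorem phi_closed (w : Y.W) {K : Set (κ → ℝ)} (hK : IsCompact K) (h : K ⊆ (Y.ch w).target) :
    IsClosed (phi (U := U) w '' (K ×ˢ univ)) := by
  rw [← isQuotientMap_mk.isClosed_preimage]
  convert (Y.isClosed_sat (hK.image_of_continuousOn
    ((Y.ch w).continuousOn_symm.mono h))).preimage (continuous_snd (X := U.T)) using 1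
  refine Set.ext fun z => ⟨?_, ?_⟩
  · rintro ⟨q, hq, e⟩
    rw [phi_apply] at e
    obtain ⟨g, hg⟩ := mk_eq.1 e
    exact ⟨g, q.1, hq.1, (congrArg Prod.snd hg).symm⟩
  · rintro ⟨g, ξ, hξ, e⟩
    refine ⟨(ξ, g • z.1), ⟨hξ, mem_univ _⟩, ?_⟩
    rw [phi_apply, e]
    exact mk_smul g z

/-- the transition maps are locally given by one deck transformation -/
theorem phi_trans {w w' : Y.W} {z : ZZ U Y} (h : z ∈ (phi w).target) (h' : z ∈ (phi w').target) :
    ∃ g : U.Γ, ∀ᶠ z' in 𝓝 z, ((phi w').symm z').2 = g • ((phi w).symm z').2 := by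
  obtain ⟨⟨x, η⟩, rfl⟩ := mk_surj z
  obtain ⟨g, hg⟩ := mk_mem_target.1 h
  obtain ⟨g', hg'⟩ := mk_mem_target.1 h'
  have ho : IsOpen {q : U.T × Y.Y | g • q.2 ∈ (Y.ch w).source ∧ g' • q.2 ∈ (Y.ch w').source} :=
    ((Y.ch w).open_source.preimage ((continuous_const_smul g).comp continuous_snd)).inter
      ((Y.ch w').open_source.preimage ((continuous_const_smul g').comp continuous_snd))
  refine ⟨g' * g⁻¹, mem_of_superset
    (isOpenMap_mk.image_mem_nhds (ho.mem_nhds (show (x, η) ∈ _ from ⟨hg, hg'⟩))) ?_⟩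
  rintro _ ⟨⟨y, ζ⟩, hq, rfl⟩
  change ((phi w').symm (mk (y, ζ))).2 = (g' * g⁻¹) • ((phi w).symm (mk (y, ζ))).2
  rw [phi_symm_mk hq.1, phi_symm_mk hq.2, mul_smul, inv_smul_smul]

end T

end Crest.Agent.N222

end
end

-- ▼ part N222/T/G0
section

/-!
# Row 222, glue (helper55): group-free estimates
(statements by helper55, proofs by helper64)
-/

set_option autoImplicit false
set_option linter.dupNamespace false
set_option linter.unusedSectionVars false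
open Set Filter Topology Function
open scoped ContDiff

noncomputable section

namespace Crest.Agent.N222

namespace A.Fib

variable {n : ℕ} {ι κ : Type} [Fintype ι] [Fintype κ] [DecidableEq ι] [DecidableEq κ] {T Z : Type}
  [TopologicalSpace T] [TopologicalSpace Z] (F : A.Fib n ι κ T Z)

theorem G0_nonneg (s : ℝ) (f : Z → ℝ) (p : Z) : 0 ≤ F.G0 s f f p := by
  exact add_nonneg (Finset.sum_nonneg fun _ _ => mul_self_nonneg _)
    (mul_nonneg (sq_nonneg _) (Finset.sum_nonneg fun _ _ => mul_self_nonneg _))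

theorem G0_congr (s : ℝ) {f g : Z → ℝ} {p : Z} (h : f =ᶠ[𝓝 p] g) :
    F.G0 s f f p = F.G0 s g g p := by
  simp only [G0, Imm.D_congr h]

theorem G0_const (s c : ℝ) (p : Z) : F.G0 s (fun _ => c) (fun _ => c) p = 0 := by
  simp [G0, Imm.D_const]

theorem G0_sq (s : ℝ) {f : Z → ℝ} (hf : F.M.Sm f) (p : Z) :
    F.G0 s (fun z => f z ^ 2) (fun z => f z ^ 2) p = 4 * F.G0 s f f p * f p ^ 2 := by
  have h : ∀ c, F.M.pre.D c (fun z => f z ^ 2) p = 2 * f p * F.M.pre.D c f p := fun c => by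
    simpa using Imm.D_comp (hf.diffAt p) (hasDerivAt_pow 2 (f p)) c
  have e : ∀ x : ℝ, 2 * f p * x * (2 * f p * x) = 4 * f p ^ 2 * (x * x) := fun x => by ring
  simp only [G0, h, e, ← Finset.mul_sum]
  ring

/-- at scale `0` only the fibre derivatives count -/
theorem G0_zero {w : F.W} {q : (κ → ℝ) × T} (hq : q ∈ (F.φ w).source)
    {f : Z → ℝ} (hf : F.M.Sm f) {c : ℝ} {h : T → ℝ}
    (hh : F.MT.Sm h) (e : ∀ x, f (F.φ w (q.1, x)) = c * h x) :
    F.G0 0 f f (F.φ w q) = c ^ 2 * F.MT.pre.gam h h q.2 := by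
  have e' : (fun x => f (F.φ w (q.1, x))) = fun x => c * h x := funext e
  simp only [G0, F.D_inl hq hf, e', Imm.D_const_mul c (hh.diffAt _), Imm.gam_apply, Finset.mul_sum]
  simp only [ne_eq, OfNat.ofNat_ne_zero, not_false_eq_true, zero_pow, zero_mul,
    Finset.sum_const_zero, add_zero]
  exact Finset.sum_congr rfl fun a _ => by ring

theorem G0_ev {f : Z → ℝ} (hf : F.M.Sm f) {ε : ℝ} (hε : 0 < ε) :
    ∀ᶠ s in 𝓝[≠] (0 : ℝ), ∀ p ∈ F.Om, F.G0 s f f p ≤ F.G0 0 f f p + ε := by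
  have hc : Continuous fun p => ∑ j, F.M.pre.D (Sum.inr j) f p * F.M.pre.D (Sum.inr j) f p :=
    continuous_finsetSum _ fun j _ => (hf.D _).continuous.mul (hf.D _).continuous
  obtain ⟨C, hC⟩ := F.Om_cpt.exists_bound_of_continuousOn hc.continuousOn
  have h1 : Tendsto (fun s : ℝ => s ^ 2 * C) (𝓝 0) (𝓝 0) := by
    have h0 : Continuous fun s : ℝ => s ^ 2 * C := by fun_prop
    simpa using h0.tendsto 0
  filter_upwards [mem_nhdsWithin_of_mem_nhds (h1.eventually (gt_mem_nhds hε))] with s hs p hp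
  have h2 := mul_le_mul_of_nonneg_left ((le_abs_self _).trans (hC p hp)) (sq_nonneg s)
  simp only [G0]
  nlinarith

theorem G0_bdd {f : Z → ℝ} (hf : F.M.Sm f) : ∃ C : ℝ, 0 ≤ C ∧
    ∀ᶠ s in 𝓝[≠] (0 : ℝ), ∀ p ∈ F.Om, F.G0 s f f p ≤ C ^ 2 := by
  have hc : Continuous (F.G0 0 f f) :=
    (continuous_finsetSum _ fun j _ => (hf.D _).continuous.mul (hf.D _).continuous).add
      (continuous_const.mul
        (continuous_finsetSum _ fun j _ => (hf.D _).continuous.mul (hf.D _).continuous))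
  obtain ⟨C, hC⟩ := F.Om_cpt.exists_bound_of_continuousOn hc.continuousOn
  refine ⟨|C| + 1, by positivity, (F.G0_ev hf one_pos).mono fun s hs p hp => ?_⟩
  have h1 := (le_abs_self _).trans (hC p hp)
  nlinarith [hs p hp, le_abs_self C, abs_nonneg C]

end A.Fib

namespace T

variable {d : ℕ} {ι X : Type} [Fintype ι] [DecidableEq ι] [TopologicalSpace X] (M : Imm d ι X)

theorem cost_le [MeasurableSpace X] (om a : X → ℝ) (p : X) : M.cost om a p ≤
    2 * (om p ^ 2 * √(M.pre.gam a a p) +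
      |a p| * √(M.pre.gam (fun q => om q ^ 2) (fun q => om q ^ 2) p)) := by
  have e1 : ∀ v : E ι, √(∑ c, v c ^ 2) = ‖v‖ := fun v => by
    simp [EuclideanSpace.norm_eq]
  have e2 := e1 (om p ^ 2 • M.grad a p - a p • M.grad (fun p => om p ^ 2) p)
  have e3 := norm_sub_le (om p ^ 2 • M.grad a p) (a p • M.grad (fun p => om p ^ 2) p)
  rw [← e2, norm_smul, norm_smul, Real.norm_eq_abs, Real.norm_eq_abs,
    abs_of_nonneg (sq_nonneg _)] at e3
  rw [Imm.gam_self_eq, Imm.gam_self_eq, Real.sqrt_sq (norm_nonneg _), Real.sqrt_sq (norm_nonneg _)]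
  exact mul_le_mul_of_nonneg_left e3 zero_le_two

/-- the gradient of `m * (coloured sums of a probability vector) + h` -/
theorem grad_le {G τ : Type} [Fintype G] [Fintype τ] {P : G → X → ℝ} (hP : ∀ g, M.Sm (P g))
    {h : τ → X → ℝ} (hh : ∀ c, M.Sm (h c)) {A : τ → Finset G}
    (hA : ∀ c c' g, g ∈ A c → g ∈ A c' → c = c') {p : X} (h0 : ∀ g, 0 ≤ P g p)
    (h1 : ∑ g, P g p = 1) {j : G → ℝ}
    (hj : ∀ g, 0 ≤ j g ∧ M.pre.gam (P g) (P g) p ≤ j g * P g p) (m : ℝ) {a : τ → X → ℝ}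
    (ha : ∀ c, a c =ᶠ[𝓝 p] fun q => m * ∑ g ∈ A c, P g q + h c q) :
    ∑ c, M.pre.gam (a c) (a c) p ≤ 2 * m ^ 2 * ∑ g, j g + 2 * ∑ c, M.pre.gam (h c) (h c) p := by
  classical
  have g1 : ∀ c, M.grad (a c) p = m • ∑ g ∈ A c, M.grad (P g) p + M.grad (h c) p := fun c => by
    have s1 : M.Sm fun q => ∑ g ∈ A c, P g q := Imm.sm_sum _ fun g _ => hP g
    ext b
    change M.pre.D b (a c) p = _
    rw [Imm.D_congr (ha c), Imm.D_add (((Imm.sm_const m).mul s1).diffAt p) ((hh c).diffAt p),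
      Imm.D_const_mul m (s1.diffAt p), Imm.D_sum _ fun g _ => (hP g).diffAt p]
    simp [Imm.grad]
  have g2 : ∀ c, ‖∑ g ∈ A c, M.grad (P g) p‖ ^ 2 ≤ ∑ g ∈ A c, j g := fun c => by
    have a1 := Finset.sum_sq_le_sum_mul_sum_of_sq_le_mul (A c) (r := fun g => ‖M.grad (P g) p‖)
      (f := j) (g := fun g => P g p) (fun g _ => (hj g).1) (fun g _ => h0 g)
      fun g _ => by rw [← Imm.gam_self_eq]; exact (hj g).2
    have a2 : ∑ g ∈ A c, P g p ≤ 1 :=
      h1 ▸ Finset.sum_le_sum_of_subset_of_nonneg (Finset.subset_univ _) fun g _ _ => h0 g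
    exact ((pow_le_pow_left₀ (norm_nonneg _) (norm_sum_le _ _) 2).trans a1).trans
      (mul_le_of_le_one_right (Finset.sum_nonneg fun g _ => (hj g).1) a2)
  have g3 : ∑ c, ∑ g ∈ A c, j g ≤ ∑ g, j g := by
    rw [← Finset.sum_biUnion fun c _ c' _ hne =>
      Finset.disjoint_left.2 fun g hg hg' => hne (hA c c' g hg hg')]
    exact Finset.sum_le_sum_of_subset_of_nonneg (Finset.subset_univ _) fun g _ _ => (hj g).1
  have g4 : ∀ c, M.pre.gam (a c) (a c) p ≤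
      2 * m ^ 2 * ∑ g ∈ A c, j g + 2 * M.pre.gam (h c) (h c) p := fun c => by
    rw [Imm.gam_self_eq, Imm.gam_self_eq, g1]
    have b1 := pow_le_pow_left₀ (norm_nonneg _)
      (norm_add_le (m • ∑ g ∈ A c, M.grad (P g) p) (M.grad (h c) p)) 2
    have b2 : ‖m • ∑ g ∈ A c, M.grad (P g) p‖ ^ 2 ≤ m ^ 2 * ∑ g ∈ A c, j g := by
      rw [norm_smul, mul_pow, Real.norm_eq_abs, sq_abs]
      exact mul_le_mul_of_nonneg_left (g2 c) (sq_nonneg m)
    nlinarith [sq_nonneg (‖m • ∑ g ∈ A c, M.grad (P g) p‖ - ‖M.grad (h c) p‖)]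
  refine (Finset.sum_le_sum fun c _ => g4 c).trans ?_
  rw [Finset.sum_add_distrib, ← Finset.mul_sum, ← Finset.mul_sum]
  have := mul_le_mul_of_nonneg_left g3 (by positivity : 0 ≤ 2 * m ^ 2)
  linarith

/-- the constants -/
theorem exists_const (s0 C m : ℝ) (D : ℕ) (hs : 0 < s0) (hC : 0 ≤ C) :
    ∃ lam Λ e s' : ℝ, 0 < lam ∧ 0 ≤ Λ ∧ 0 < e ∧ 0 < s' ∧ ∀ (ψ gψ I V : ℝ) (a r : Fin D → ℝ),
      0 ≤ ψ → ψ ≤ 1 → 0 ≤ gψ → gψ ≤ C → 0 ≤ I → s0 / 4 + Λ * I ≤ V → (∀ c, 0 ≤ r c) →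
      ∑ c, r c ^ 2 ≤ 2 * m ^ 2 * I + 2 * e → (ψ = 1 ∧ gψ = 0) ∨ 1 ≤ ∑ c, a c ^ 2 →
      s' + ∑ c, 2 * (ψ * (lam * r c) + |lam * a c| * gψ) ≤ V * ψ ^ 2 + ∑ c, (lam * a c) ^ 2 := by
  obtain ⟨θ, hθ, hθs⟩ : ∃ θ : ℝ, 0 < θ ∧ s0 / 4 = 4 * θ := ⟨s0 / 16, by positivity, by ring⟩
  obtain ⟨lam, hlam⟩ : ∃ lam : ℝ, lam = 1 + 3 * θ + C * (D + 1) := ⟨_, rfl⟩
  have hCD : 0 ≤ C * (D + 1) := by positivity
  have hl1 : 1 ≤ lam := by linarith
  refine ⟨lam, 2 * lam ^ 2 * D * m ^ 2 / θ, θ ^ 2 / (2 * lam ^ 2 * D + 1), θ, by linarith,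
    by positivity, by positivity, hθ, fun ψ gψ I V a r h0 h1 g0 g1 hI hV hr hr2 hc => ?_⟩
  set Λ := 2 * lam ^ 2 * D * m ^ 2 / θ with hΛ
  have hΛI : 0 ≤ Λ * I := by positivity
  have k1 : (∑ c, r c) ^ 2 ≤ D * ∑ c, r c ^ 2 := by
    simpa using sq_sum_le_card_mul_sum_sq (s := Finset.univ) (f := r)
  have k2 : 2 * lam ^ 2 * D * (θ ^ 2 / (2 * lam ^ 2 * D + 1)) ≤ θ ^ 2 := by
    rw [← mul_div_assoc, div_le_iff₀ (by positivity)]
    nlinarith [sq_nonneg θ]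
  have k3 : lam ^ 2 * (∑ c, r c) ^ 2 ≤ θ * (Λ * I) + θ ^ 2 := by
    have e : θ * (Λ * I) = lam ^ 2 * (D * (2 * m ^ 2 * I)) := by
      rw [hΛ]; field_simp
    have := mul_le_mul_of_nonneg_left (k1.trans (mul_le_mul_of_nonneg_left hr2 D.cast_nonneg))
      (sq_nonneg lam)
    rw [e]; linarith
  have k4 : 2 * (ψ * (lam * ∑ c, r c)) ≤ 2 * θ + ψ ^ 2 * (Λ * I) := by
    refine le_of_mul_le_mul_left ?_ hθ
    have b1 := mul_le_mul_of_nonneg_left k3 (sq_nonneg ψ)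
    have b2 : ψ ^ 2 * θ ^ 2 ≤ θ ^ 2 :=
      mul_le_of_le_one_left (sq_nonneg θ) (pow_le_one₀ h0 h1)
    nlinarith [sq_nonneg (θ - ψ * (lam * ∑ c, r c))]
  have e1 : ∑ c, 2 * (ψ * (lam * r c) + |lam * a c| * gψ) =
      2 * (ψ * (lam * ∑ c, r c)) + lam * gψ * ∑ c, 2 * |a c| := by
    simp only [Finset.mul_sum, ← Finset.sum_add_distrib, abs_mul, abs_of_nonneg (by linarith : 0 ≤ lam)]
    exact Finset.sum_congr rfl fun c _ => by ring
  have e2 : ∑ c, (lam * a c) ^ 2 = lam ^ 2 * ∑ c, a c ^ 2 := by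
    simp only [mul_pow, Finset.mul_sum]
  have a0 : 0 ≤ ∑ c, a c ^ 2 := Finset.sum_nonneg fun _ _ => sq_nonneg _
  rw [e1, e2]
  rcases hc with ⟨rfl, rfl⟩ | hc
  · nlinarith [mul_nonneg (sq_nonneg lam) a0]
  · have c1 : ∑ c, 2 * |a c| ≤ D + ∑ c, a c ^ 2 := by
      have : ∑ c, 2 * |a c| ≤ ∑ c, (1 + a c ^ 2) := Finset.sum_le_sum fun c _ => by
        nlinarith [sq_nonneg (|a c| - 1), sq_abs (a c)]
      simpa [Finset.sum_add_distrib] using this
    have c2 : ∑ c, 2 * |a c| ≤ (D + 1) * ∑ c, a c ^ 2 := by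
      nlinarith [mul_le_mul_of_nonneg_left hc (D.cast_nonneg (α := ℝ))]
    have c3 : gψ * ∑ c, 2 * |a c| ≤ C * ((D + 1) * ∑ c, a c ^ 2) :=
      mul_le_mul g1 c2 (Finset.sum_nonneg fun _ _ => by positivity) hC
    have c4 := mul_le_mul_of_nonneg_left c3 (by linarith : 0 ≤ lam)
    have c5 : ψ ^ 2 * (Λ * I) ≤ ψ ^ 2 * V := mul_le_mul_of_nonneg_left (by linarith) (sq_nonneg ψ)
    have c6 : lam ^ 2 * ∑ c, a c ^ 2 =
        lam * (C * ((D + 1) * ∑ c, a c ^ 2)) + (1 + 3 * θ) * (lam * ∑ c, a c ^ 2) := by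
      rw [sq lam]; nth_rewrite 2 [hlam]; ring
    have c7 : 1 ≤ lam * ∑ c, a c ^ 2 := one_le_mul_of_one_le_of_one_le hl1 hc
    nlinarith

end T

end Crest.Agent.N222

end
end

-- ▼ part N222/T/GFib
section

/-!
# Row 222, glue (helper55): the fibred setting on `(T × Y) / Γ`
(statements by helper55, proofs by helper64)
-/

set_option autoImplicit false
set_option linter.dupNamespace false
set_option linter.unusedSectionVars false
open Set Filter Topology Function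
open scoped ContDiff

noncomputable section

namespace Crest.Agent.N222.T

variable {S ι κ : Type} [TopologicalSpace S] [Fintype ι] [Fintype κ] {n : ℕ} {U : C.Cov S}
  (M : Imm n ι S) (Y : C.Par U.Γ κ)

theorem comb_phi (w : Y.W) (q : (κ → ℝ) × U.T) (hq : q ∈ (phi w).source) :
    comb (pZ (phi w q), M.x (qS (phi w q))) = comb (q.1, (cN U M).x q.2) := by
  rw [pZ_phi hq, qS_phi]; rfl

/-- the total space as an immersed manifold -/
def zM : Imm (n + Fintype.card κ) (ι ⊕ κ) (ZZ U Y) where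
  x z := comb (pZ z, M.x (qS z))
  ch z := (phi (phi_cover z).choose).symm.trans
    (((cN U M).par κ).ch ((phi (phi_cover z).choose).symm z))
  mem z := ⟨(phi_cover z).choose_spec, ((cN U M).par κ).mem _⟩
  isChart z := (((cN U M).par κ).isChart _).of_eqOn (fun _ h => h.1) fun _ h =>
    comb_phi M Y _ _ h.2

theorem zM_phi (w : Y.W) (q : (κ → ℝ) × U.T) (hq : q ∈ (phi w).source) :
    (zM M Y).x (phi w q) = comb (q.1, (cN U M).x q.2) := comb_phi M Y w q hq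

/-- functions of the parameter are smooth -/
theorem sm_pZ {r : (κ → ℝ) → ℝ} (hr : ContDiff ℝ ∞ r) : (zM M Y).Sm fun z => r (pZ z) :=
  ((zM M Y).sm_x.comp (prR (ι := ι) (κ := κ)).contDiff).comp hr

variable {Y}

theorem push_su {w : Y.W} {f : (κ → ℝ) × U.T → ℝ} {K : Set (κ → ℝ)}
    (hf : ∀ q, f q ≠ 0 → q.1 ∈ K) {z : ZZ U Y} (hz : push (phi w) f z ≠ 0) :
    z ∈ phi w '' (K ×ˢ univ) := by
  by_cases h : z ∈ (phi w).target
  · rw [push, indicator_of_mem h] at hz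
    exact ⟨_, ⟨hf _ hz, mem_univ _⟩, (phi w).right_inv h⟩
  · exact absurd (indicator_of_notMem h _) hz

theorem push_ev {w : Y.W} {f : (κ → ℝ) × U.T → ℝ} {K : Set (κ → ℝ)} (hK : IsCompact K)
    (hs : K ⊆ (Y.ch w).target) (hf : ∀ q, f q ≠ 0 → q.1 ∈ K) {z : ZZ U Y}
    (hz : z ∉ (phi w).target) : push (phi w) f =ᶠ[𝓝 z] 0 := by
  have h1 : z ∉ phi (U := U) w '' (K ×ˢ univ) := by
    rintro ⟨q, hq, rfl⟩
    exact hz ((phi w).map_source (mem_phi_source.2 (hs hq.1)))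
  filter_upwards [(phi_closed w hK hs).isOpen_compl.mem_nhds h1] with y hy
  by_contra h
  exact hy (push_su hf h)

/-- extension by zero -/
theorem sm_push {w : Y.W} {f : (κ → ℝ) × U.T → ℝ} (h : ((cN U M).par κ).Sm f) {K : Set (κ → ℝ)}
    (hK : IsCompact K) (hs : K ⊆ (Y.ch w).target) (hf : ∀ q, f q ≠ 0 → q.1 ∈ K) :
    (zM M Y).Sm (push (phi w) f) := by
  refine Imm.sm_of_charts fun z => ⟨(zM M Y).ch z, (zM M Y).isChart z, (zM M Y).mem z, ?_⟩
  by_cases hz : z ∈ (phi w).target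
  · have h2 : Loc (zM M Y) ((cN U M).par κ) (phi w).symm z := loc_of_mem (e := (phi w).symm)
      (fun y hy => by
        conv_rhs => rw [← (phi w).right_inv hy]
        exact (zM_phi M Y w _ ((phi w).map_target hy)).symm) hz
    refine (h2.contDiffAt h).congr_of_eventuallyEq (symm_eventuallyEq ((zM M Y).mem z) ?_)
    filter_upwards [(phi w).open_target.mem_nhds hz] with y hy
    exact indicator_of_mem hy _
  · exact (contDiffAt_const (c := 0)).congr_of_eventuallyEq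
      (symm_eventuallyEq ((zM M Y).mem z) (push_ev hK hs hf hz))

variable (Y) in
/-- compact pieces of the charts and the finite set of labels -/
structure Gen (Q : Set (U.T × Y.Y)) (supp : Set U.T) where
  V : Y.W → Set (κ → ℝ)
  lam : Y.W → (κ → ℝ) → ℝ
  mu : Y.W → (κ → ℝ) → ℝ
  D : Set U.T
  L : Finset U.Γ
  V_open : ∀ w, IsOpen (V w)
  V_sub : ∀ w, V w ⊆ (Y.ch w).target
  lam_sm : ∀ w, ContDiff ℝ ∞ (lam w)
  lam_cpt : ∀ w, IsCompact (tsupport (lam w))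
  lam_sub : ∀ w, tsupport (lam w) ⊆ V w
  lam_one : ∀ w, ∀ z ∈ mk '' Q, z ∈ (phi w).target → Y.t w (pZ z) ≠ 0 → lam w (pZ z) = 1
  mu_sm : ∀ w, ContDiff ℝ ∞ (mu w)
  mu_cpt : ∀ w, IsCompact (tsupport (mu w))
  mu_sub : ∀ w, tsupport (mu w) ⊆ (Y.ch w).target
  mu_le : ∀ w ξ, mu w ξ ^ 2 ≤ 1
  mu_one : ∀ w, ∀ ξ ∈ V w, mu w ξ = 1
  D_cpt : IsCompact D
  D_loc : ∀ w x, ∀ ξ ∈ V w, phi w (ξ, x) ∈ mk '' Q → x ∈ D
  one_mem : (1 : U.Γ) ∈ L
  L_mem : ∀ x ∈ D, ∀ g : U.Γ, g⁻¹ • x ∈ supp → g ∈ L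

open scoped Manifold in
theorem exists_pbump {K O : Set (κ → ℝ)} (hK : IsCompact K) (hO : IsOpen O) (h : K ⊆ O) :
    ∃ f : (κ → ℝ) → ℝ, ContDiff ℝ ∞ f ∧ IsCompact (tsupport f) ∧ tsupport f ⊆ O ∧
      (∀ ξ, f ξ ^ 2 ≤ 1) ∧ ∀ ξ ∈ K, f ξ = 1 := by
  obtain ⟨L, hL, h1, h2⟩ := exists_compact_between hK hO h
  obtain ⟨f, f0, f1, f2⟩ := exists_contMDiffMap_zero_one_of_isClosed (n := ⊤) 𝓘(ℝ, κ → ℝ)
    isOpen_interior.isClosed_compl hK.isClosed (disjoint_compl_left_iff_subset.2 h1)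
  have h3 : tsupport f ⊆ L := closure_minimal
    (fun ξ hξ => interior_subset (by_contra fun h' => hξ (f0 h'))) hL.isClosed
  exact ⟨f, f.contMDiff.contDiff, hL.of_isClosed_subset (isClosed_tsupport _) h3, h3.trans h2,
    fun ξ => pow_le_one₀ (f2 ξ).1 (f2 ξ).2, fun ξ hξ => f1 hξ⟩

theorem exists_gen [T2Space S] {Q : Set (U.T × Y.Y)} (hQ : IsCompact Q) {supp : Set U.T}
    (hs : IsCompact supp) : Nonempty (Gen Y Q supp) := by
  classical
  have hC : IsCompact (Prod.snd '' Q) := hQ.image continuous_snd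
  let K : Y.W → Set (κ → ℝ) := fun w => Y.π '' (Prod.snd '' Q ∩
    {ζ : Y.Y | (∃ g : U.Γ, g • ζ ∈ (Y.ch w).source) ∧ Y.π ζ ∈ tsupport (Y.t w)})
  have hK : ∀ w, IsCompact (K w) := fun w => (hC.inter_right (Y.cls w)).image Y.continuous_π
  have hKs : ∀ w, K w ⊆ (Y.ch w).target := by
    rintro w _ ⟨ζ, ⟨-, ⟨g, hg⟩, -⟩, rfl⟩
    exact Y.π_mem hg
  choose V V1 V2 V3 V4 using fun w =>
    exists_open_between_and_isCompact_closure (hK w) (Y.ch w).open_target (hKs w)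
  choose lam l1 l2 l3 _ l5 using fun w => exists_pbump (hK w) (V1 w) (V2 w)
  choose mu m1 m2 m3 m4 m5 using fun w => exists_pbump (V4 w) (Y.ch w).open_target (V3 w)
  have hF : ∀ w, {g : U.Γ | ∃ η ∈ Prod.snd '' Q, g • η ∈ (Y.ch w).symm '' closure (V w)}.Finite :=
    fun w => Y.prop _ _ hC ((V4 w).image_of_continuousOn ((Y.ch w).continuousOn_symm.mono (V3 w)))
  let D : Set U.T := ⋃ w, ⋃ g ∈ {g : U.Γ | ∃ η ∈ Prod.snd '' Q,
    g • η ∈ (Y.ch w).symm '' closure (V w)}, (g • ·) '' (Prod.fst '' Q)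
  have hD : IsCompact D := isCompact_iUnion fun w => (hF w).isCompact_biUnion fun g _ =>
    (hQ.image continuous_fst).image (continuous_const_smul g)
  refine ⟨⟨V, lam, mu, D, insert 1 (U.fin hs hD).toFinset, V1,
    fun w => subset_closure.trans (V3 w), l1, l2, l3, ?_, m1, m2, m3, m4,
    fun w ξ hξ => m5 w ξ (subset_closure hξ), hD, ?_, Finset.mem_insert_self _ _, ?_⟩⟩
  · rintro w _ ⟨q, hq, rfl⟩ hz ht
    exact l5 w _ ⟨q.2, ⟨mem_image_of_mem _ hq, mk_mem_target.1 hz, subset_tsupport _ ht⟩, rfl⟩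
  · rintro w x ξ hξ ⟨q, hq, e⟩
    rw [phi_apply] at e
    obtain ⟨g, hg⟩ := mk_eq.1 e.symm
    exact mem_iUnion.2 ⟨w, mem_iUnion₂.2 ⟨g, ⟨q.2, mem_image_of_mem _ hq, ξ, subset_closure hξ,
      (congrArg Prod.snd hg).symm⟩, q.1, mem_image_of_mem _ hq, congrArg Prod.fst hg⟩⟩
  · intro x hx g hg
    exact Finset.mem_insert_of_mem ((Set.Finite.mem_toFinset _).2
      ⟨_, hg, by rwa [smul_inv_smul]⟩)

open Classical in
/-- the weights add up to one -/
theorem sum_t (z : ZZ U Y) : ∑ w, (if z ∈ (phi w).target then Y.t w (pZ z) else 0) = 1 := by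
  obtain ⟨⟨x, η⟩, rfl⟩ := mk_surj z
  rw [← Y.t_sum η]
  refine Finset.sum_congr rfl fun w _ => ?_
  by_cases h : mk (x, η) ∈ (phi w).target
  · rw [if_pos h, indicator_of_mem (show η ∈ {ζ : Y.Y | ∃ g : U.Γ, g • ζ ∈ (Y.ch w).source} from
      mk_mem_target.1 h)]
    rfl
  · rw [if_neg h, indicator_of_notMem (show η ∉ {ζ : Y.Y | ∃ g : U.Γ, g • ζ ∈ (Y.ch w).source} from
      fun h' => h (mk_mem_target.2 h'))]

theorem Gen.cover {Q : Set (U.T × Y.Y)} {supp : Set U.T} (H : Gen Y Q supp) {z : ZZ U Y}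
    (hz : z ∈ T.mk '' Q) : ∃ w, z ∈ phi w '' (H.V w ×ˢ univ) := by
  classical
  obtain ⟨w, -, hw⟩ := Finset.exists_ne_zero_of_sum_ne_zero ((sum_t z).trans_ne one_ne_zero)
  by_cases h : z ∈ (phi w).target
  · rw [if_pos h] at hw
    refine ⟨w, (phi w).symm z, ⟨?_, mem_univ _⟩, (phi w).right_inv h⟩
    rw [phi_symm_fst h]
    exact H.lam_sub w (subset_tsupport _ ((H.lam_one w z hz h hw).trans_ne one_ne_zero))
  · exact absurd (if_neg h) hw

open Classical in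
/-- the fibred setting -/
def Gen.fib [DecidableEq ι] {Q : Set (U.T × Y.Y)} {supp : Set U.T} (H : Gen Y Q supp)
    (hQ : IsCompact Q) (b : ι → S → ℝ) (hb : ∀ a, M.Sm (b a)) (ht : M.pre.Tan b) :
    A.Fib n ι κ U.T (ZZ U Y) where
  MT := cN U M
  M := zM M Y
  W := Y.W
  φ := phi
  cover := phi_cover
  hx := zM_phi M Y
  bT a x := b a (U.p x)
  bT_sm a := (hb a).res (loc_p U M)
  bT_tan a := funext fun x => by
    have := congrFun (ht a) (U.p x)
    simpa only [Finset.sum_apply, Pi.mul_apply, (loc_p U M x).P_iso] using this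
  b a z := b a (qS z)
  b_φ w q _ a := by rw [qS_phi]
  G := Y.W × H.L
  w := Prod.fst
  U g := H.V g.1
  U_open g := H.V_open g.1
  U_sub g _ hq := mem_phi_source.2 (H.V_sub g.1 hq.1)
  closed g K hK h := phi_closed g.1 hK (h.trans (H.V_sub g.1))
  Om := T.mk '' Q
  Om_cpt := hQ.image continuous_mk
  Om_cover z hz := let ⟨w, hw⟩ := H.cover hz; ⟨(w, ⟨1, H.one_mem⟩), hw⟩
  Om_loc g := ⟨H.D, H.D_cpt, H.D_loc g.1⟩

end Crest.Agent.N222.T

end
end

-- ▼ part N222/T/GDat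
section

/-!
# Row 222, glue (helper55): the initial data `χ, d, δ`
(filled by helper30)
-/

set_option autoImplicit false
set_option linter.dupNamespace false
set_option linter.unusedSectionVars false
open Set Filter Topology Function
open scoped ContDiff

noncomputable section

namespace Crest.Agent.N222.T

variable {S ι κ : Type} [TopologicalSpace S] [Fintype ι] [Fintype κ] [DecidableEq ι] {n : ℕ}
  {U : C.Cov S} {M : Imm n ι S} {Y : C.Par U.Γ κ} {K0 : ℝ} (L : Lab U.Γ (cN U M) K0)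
  {Q : Set (U.T × Y.Y)}

open Classical in
/-- the transition cocycle -/
def tr (w w' : Y.W) (z : ZZ U Y) : U.Γ :=
  if h : ∃ g : U.Γ, ((phi w').symm z).2 = g • ((phi w).symm z).2 then h.choose else 1

theorem tr_eq {w w' : Y.W} {z : ZZ U Y} {g : U.Γ}
    (h : ((phi w').symm z).2 = g • ((phi w).symm z).2) : tr w w' z = g := by
  have h0 : ∃ g : U.Γ, ((phi w').symm z).2 = g • ((phi w).symm z).2 := ⟨g, h⟩
  rw [tr, dif_pos h0]
  have h2 : (g⁻¹ * h0.choose) • ((phi w).symm z).2 = ((phi w).symm z).2 := by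
    rw [mul_smul, h0.choose_spec.symm.trans h, inv_smul_smul]
  exact (inv_mul_eq_one.1 (U.free' h2)).symm

theorem tr_spec {w w' : Y.W} {z : ZZ U Y} (h : z ∈ (phi w).target) (h' : z ∈ (phi w').target) :
    ((phi w').symm z).2 = tr w w' z • ((phi w).symm z).2 ∧
      ∀ᶠ z' in 𝓝 z, tr w w' z' = tr w w' z := by
  obtain ⟨g, hg⟩ := phi_trans h h'
  have h1 := tr_eq hg.self_of_nhds
  exact ⟨by rw [h1]; exact hg.self_of_nhds, hg.mono fun z' hz' => (tr_eq hz').trans h1.symm⟩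

namespace Gen

variable (H : Gen Y Q (tsupport L.w))

/-- the weights of the charts -/
def aw (w : Y.W) : ZZ U Y → ℝ := push (phi w) fun q => H.lam w q.1 * Y.t w q.1

/-- normalised weights -/
def bw (w : Y.W) (z : ZZ U Y) : ℝ :=
  H.aw L w z / √(∑ w', H.aw L w' z ^ 2 + (1 - ∑ w', H.aw L w' z) ^ 2)

/-- square roots of the initial probabilities -/
def psi (g : Y.W × H.L) (z : ZZ U Y) : ℝ :=
  H.bw L g.1 z * push (phi g.1) (fun q => H.mu g.1 q.1 * L.w ((g.2 : U.Γ)⁻¹ • q.2)) z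

/-- distance to the region of the generator -/
def dd (g : Y.W × H.L) : ZZ U Y → ℝ :=
  push (phi g.1) fun q => H.mu g.1 q.1 * L.d ((g.2 : U.Γ)⁻¹ • q.2)

/-- distance of two generators -/
def del (g g' : Y.W × H.L) (z : ZZ U Y) : ℝ :=
  push (phi g.1) (fun q => H.mu g.1 q.1) z * push (phi g'.1) (fun q => H.mu g'.1 q.1) z *
    L.l ((g.2 : U.Γ)⁻¹ * ((tr g.1 g'.1 z)⁻¹ * g'.2))

theorem dd_phi (g : Y.W × H.L) {ξ : κ → ℝ} (hξ : ξ ∈ H.V g.1) (x : U.T) :
    H.dd L g (phi g.1 (ξ, x)) = L.d ((g.2 : U.Γ)⁻¹ • x) := by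
  rw [dd, push_apply _ (mem_phi_source.2 (H.V_sub _ hξ)), H.mu_one _ _ hξ, one_mul]

theorem aw_sm (w : Y.W) : (zM M Y).Sm (H.aw L w) :=
  sm_push M ((Imm.par_sm_fst (H.lam_sm w)).mul (Imm.par_sm_fst (Y.t_smooth w))) (H.lam_cpt w)
    ((H.lam_sub w).trans (H.V_sub w)) fun _ h => subset_tsupport _ (left_ne_zero_of_mul h)

theorem rad_pos (z : ZZ U Y) :
    0 < ∑ w', H.aw L w' z ^ 2 + (1 - ∑ w', H.aw L w' z) ^ 2 := by
  have h1 : 0 ≤ ∑ w', H.aw L w' z ^ 2 := Finset.sum_nonneg fun _ _ => sq_nonneg _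
  rcases h1.eq_or_lt with h | h
  · have h2 : ∀ w', H.aw L w' z = 0 := fun w' => (pow_eq_zero_iff two_ne_zero).1
      ((Finset.sum_eq_zero_iff_of_nonneg fun _ _ => sq_nonneg _).1 h.symm w' (Finset.mem_univ _))
    simp [h2]
  · exact add_pos_of_pos_of_nonneg h (sq_nonneg _)

theorem bw_sm (w : Y.W) : (zM M Y).Sm (H.bw L w) :=
  (H.aw_sm L w).div (Imm.Sm.sqrt ((Imm.sm_sum _ fun w' _ => (H.aw_sm L w').pow 2).add
    (((Imm.sm_const 1).sub (Imm.sm_sum _ fun w' _ => H.aw_sm L w')).pow 2))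
    fun z => (H.rad_pos L z).ne') fun z => (Real.sqrt_pos.2 (H.rad_pos L z)).ne'

theorem sum_bw_eq (z : ZZ U Y) : ∑ w, H.bw L w z ^ 2 = (∑ w, H.aw L w z ^ 2) /
    (∑ w', H.aw L w' z ^ 2 + (1 - ∑ w', H.aw L w' z) ^ 2) := by
  rw [Finset.sum_div]
  exact Finset.sum_congr rfl fun w _ => by rw [bw, div_pow, Real.sq_sqrt (H.rad_pos L z).le]

theorem sum_bw_le (z : ZZ U Y) : ∑ w, H.bw L w z ^ 2 ≤ 1 := by
  rw [sum_bw_eq]
  exact (div_le_one (H.rad_pos L z)).2 (le_add_of_nonneg_right (sq_nonneg _))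

open Classical in
theorem aw_eq (w : Y.W) (z : ZZ U Y) : H.aw L w z =
    if z ∈ (phi w).target then H.lam w (pZ z) * Y.t w (pZ z) else 0 := by
  rw [aw, push]
  split_ifs with h
  · rw [indicator_of_mem h, phi_symm_fst h]
  · rw [indicator_of_notMem h]

theorem sum_aw {z : ZZ U Y} (hz : z ∈ T.mk '' Q) : ∑ w, H.aw L w z = 1 := by
  refine Eq.trans (Finset.sum_congr rfl fun w _ => ?_) (sum_t z)
  rw [aw_eq]
  split_ifs with h
  · by_cases h0 : Y.t w (pZ z) = 0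
    · rw [h0, mul_zero]
    · rw [H.lam_one w z hz h h0, one_mul]
  · rfl

theorem sum_bw {z : ZZ U Y} (hz : z ∈ T.mk '' Q) : ∑ w, H.bw L w z ^ 2 = 1 := by
  have h := H.rad_pos L z
  rw [sum_bw_eq]
  rw [H.sum_aw L hz, sub_self, zero_pow two_ne_zero, add_zero] at h ⊢
  exact div_self h.ne'

theorem aw_fib (w w' : Y.W) (ξ : κ → ℝ) (x x' : U.T) :
    H.aw L w' (phi w (ξ, x)) = H.aw L w' (phi w (ξ, x')) := by
  rw [aw_eq, aw_eq, phi_apply, phi_apply]
  by_cases h : ∃ g : U.Γ, g • (Y.ch w).symm ξ ∈ (Y.ch w').source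
  · rw [if_pos (mk_mem_target.2 h), if_pos (mk_mem_target.2 h)]
    rfl
  · rw [if_neg (mt mk_mem_target.1 h), if_neg (mt mk_mem_target.1 h)]

/-- the weights do not depend on the fibre coordinate -/
theorem bw_fib (w w' : Y.W) (ξ : κ → ℝ) (x x' : U.T) :
    H.bw L w' (phi w (ξ, x)) = H.bw L w' (phi w (ξ, x')) := by
  have h := fun w' => H.aw_fib L w w' ξ x x'
  simp only [bw, h]

theorem bw_su {w : Y.W} {z : ZZ U Y} (h : H.bw L w z ≠ 0) :
    z ∈ phi w '' (tsupport (H.lam w) ×ˢ univ) :=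
  push_su (f := fun q => H.lam w q.1 * Y.t w q.1)
    (fun _ h => subset_tsupport _ (left_ne_zero_of_mul h))
    fun h0 => h (by rw [bw, show H.aw L w z = 0 from h0, zero_div])

theorem pu_sm (w : Y.W) {h : U.T → ℝ} (hh : (cN U M).Sm h) :
    (zM M Y).Sm (push (phi w) fun q => H.mu w q.1 * h q.2) :=
  sm_push M ((Imm.par_sm_fst (H.mu_sm w)).mul (Imm.par_sm_snd hh)) (H.mu_cpt w) (H.mu_sub w)
    fun _ h => subset_tsupport _ (left_ne_zero_of_mul h)

theorem psi_sm (g : Y.W × H.L) : (zM M Y).Sm (H.psi L g) :=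
  (H.bw_sm L g.1).mul (H.pu_sm L g.1 (L.w_sm.sm.res (loc_smul U M (g.2 : U.Γ)⁻¹)))

theorem dd_sm (g : Y.W × H.L) : (zM M Y).Sm (H.dd L g) :=
  H.pu_sm L g.1 (L.d_sm.res (loc_smul U M (g.2 : U.Γ)⁻¹))

theorem mu_sm' (w : Y.W) : (zM M Y).Sm (push (phi w) fun q => H.mu w q.1) :=
  sm_push M (Imm.par_sm_fst (H.mu_sm w)) (H.mu_cpt w) (H.mu_sub w) fun _ h => subset_tsupport _ h

theorem mu_ev {w : Y.W} {z : ZZ U Y} (hz : z ∉ (phi w).target) :
    push (phi w) (fun q => H.mu w q.1) =ᶠ[𝓝 z] 0 :=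
  push_ev (H.mu_cpt w) (H.mu_sub w) (fun _ h => subset_tsupport _ h) hz

theorem mu_one_ev {w : Y.W} {z : ZZ U Y} (hz : z ∈ phi w '' (H.V w ×ˢ univ)) :
    ∀ᶠ z' in 𝓝 z, push (phi w) (fun q => H.mu w q.1) z' = 1 := by
  have hs : H.V w ×ˢ univ ⊆ (phi (U := U) w).source := fun _ hq => mem_phi_source.2 (H.V_sub w hq.1)
  filter_upwards [((phi w).isOpen_image_of_subset_source ((H.V_open w).prod isOpen_univ)
    hs).mem_nhds hz]
  rintro _ ⟨q, hq, rfl⟩
  rw [push_apply _ (hs hq), H.mu_one w _ hq.1]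

theorem del_sm (g g' : Y.W × H.L) : (zM M Y).Sm (H.del L g g') := by
  refine Imm.sm_of_local fun z => ?_
  by_cases h : z ∈ (phi g.1).target
  · by_cases h' : z ∈ (phi g'.1).target
    · refine ⟨_, ((H.mu_sm' L g.1).mul (H.mu_sm' L g'.1)).mul
        (Imm.sm_const (L.l ((g.2 : U.Γ)⁻¹ * ((tr g.1 g'.1 z)⁻¹ * g'.2)))), ?_⟩
      filter_upwards [(tr_spec h h').2] with z' hz'
      rw [del, hz']
    · refine ⟨_, Imm.sm_const 0, ?_⟩
      filter_upwards [H.mu_ev L h'] with z' hz'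
      rw [del, hz', Pi.zero_apply, mul_zero, zero_mul]
  · refine ⟨_, Imm.sm_const 0, ?_⟩
    filter_upwards [H.mu_ev L h] with z' hz'
    rw [del, hz', Pi.zero_apply, zero_mul, zero_mul]

theorem psi_phi (w : Y.W) (y : H.L) {ξ : κ → ℝ} (hξ : ξ ∈ (Y.ch w).target) (x : U.T) :
    H.psi L (w, y) (phi w (ξ, x)) =
      H.bw L w (phi w (ξ, x)) * H.mu w ξ * L.w ((y : U.Γ)⁻¹ • x) := by
  rw [psi, push_apply _ (mem_phi_source.2 hξ), mul_assoc]

theorem sum_psi {z : ZZ U Y} (hz : z ∈ T.mk '' Q) : ∑ g, H.psi L g z ^ 2 = 1 := by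
  refine Eq.trans ?_ (H.sum_bw L hz)
  rw [Fintype.sum_prod_type]
  refine Finset.sum_congr rfl fun w _ => ?_
  by_cases h : H.bw L w z = 0
  · simp [psi, h]
  obtain ⟨⟨ξ, x⟩, ⟨hξ, -⟩, rfl⟩ := H.bw_su L h
  have hV := H.lam_sub w hξ
  have h1 := L.sum x H.L fun g hg => H.L_mem x (H.D_loc w x ξ hV hz) g (subset_tsupport _ hg)
  rw [← Finset.sum_coe_sort] at h1
  rw [← mul_one (H.bw L w _ ^ 2), ← h1, Finset.mul_sum]
  refine Finset.sum_congr rfl fun y _ => ?_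
  rw [H.psi_phi L w y (H.V_sub w hV), H.mu_one w ξ hV]
  ring

theorem psi_le (g : Y.W × H.L) (z : ZZ U Y) : H.psi L g z ^ 2 ≤ 1 := by
  have h1 : H.bw L g.1 z ^ 2 ≤ 1 := (Finset.single_le_sum (f := fun w => H.bw L w z ^ 2)
    (fun _ _ => sq_nonneg _) (Finset.mem_univ _)).trans (H.sum_bw_le L z)
  rw [psi, mul_pow]
  refine mul_le_one₀ h1 (sq_nonneg _) ?_
  rw [push]
  by_cases h : z ∈ (phi g.1).target
  · rw [indicator_of_mem h, mul_pow]
    exact mul_le_one₀ (H.mu_le _ _) (sq_nonneg _) (L.le_one _)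
  · rw [indicator_of_notMem h, zero_pow two_ne_zero]
    exact zero_le_one

section
variable [DecidableEq κ] (hQ : IsCompact Q) (b : ι → S → ℝ) (hb : ∀ a, M.Sm (b a))
  (ht : M.pre.Tan b)

theorem G0_psi (z : ZZ U Y) :
    ∑ g, 4 * (H.fib M hQ b hb ht).G0 0 (H.psi L g) (H.psi L g) z ≤ K0 - 1 := by
  obtain ⟨⟨x0, -⟩, -⟩ := mk_surj z
  have hK : 0 ≤ K0 - 1 := by simpa using L.fis x0 ∅
  refine le_trans ?_ (mul_le_of_le_one_left hK (H.sum_bw_le L z))
  rw [Fintype.sum_prod_type, Finset.sum_mul]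
  refine Finset.sum_le_sum fun w _ => ?_
  by_cases h : z ∈ (phi w).target
  · obtain ⟨⟨ξ, x⟩, hq, rfl⟩ : ∃ q ∈ (phi w).source, phi w q = z :=
      ⟨_, (phi w).map_target h, (phi w).right_inv h⟩
    have e : ∀ y : H.L, (H.fib M hQ b hb ht).G0 0 (H.psi L (w, y)) (H.psi L (w, y)) (phi w (ξ, x)) =
        (H.bw L w (phi w (ξ, x)) * H.mu w ξ) ^ 2 *
          (cN U M).pre.gam L.w L.w ((y : U.Γ)⁻¹ • x) := fun y => by
      rw [← (loc_smul U M (y : U.Γ)⁻¹ x).gam_iso]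
      exact (H.fib M hQ b hb ht).G0_zero (w := w) (q := (ξ, x)) hq (H.psi_sm L (w, y))
        (L.w_sm.sm.res (loc_smul U M (y : U.Γ)⁻¹)) fun x' =>
          (H.psi_phi L w y (mem_phi_source.1 hq) x').trans (by rw [H.bw_fib L w w ξ x' x])
    have h1 := L.fis x H.L
    rw [← Finset.sum_coe_sort] at h1
    have h2 : (H.bw L w (phi w (ξ, x)) * H.mu w ξ) ^ 2 ≤ H.bw L w (phi w (ξ, x)) ^ 2 := by
      rw [mul_pow]
      exact mul_le_of_le_one_right (sq_nonneg _) (H.mu_le _ _)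
    simp only [e]
    rw [← Finset.mul_sum, ← Finset.mul_sum, mul_left_comm]
    exact mul_le_mul h2 (by linarith) (mul_nonneg (by norm_num)
      (Finset.sum_nonneg fun _ _ => Imm.gam_self_nonneg _ _)) (sq_nonneg _)
  · refine (Finset.sum_eq_zero fun y _ => ?_).le.trans (mul_nonneg (sq_nonneg _) hK)
    have h1 : H.psi L (w, y) =ᶠ[𝓝 z] fun _ => 0 := by
      filter_upwards [push_ev (f := fun q => H.mu w q.1 * L.w ((y : U.Γ)⁻¹ • q.2)) (H.mu_cpt w)
        (H.mu_sub w) (fun _ h => subset_tsupport _ (left_ne_zero_of_mul h)) h] with z' hz'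
      rw [psi, hz', Pi.zero_apply, mul_zero]
    rw [(H.fib M hQ b hb ht).G0_congr 0 h1, (H.fib M hQ b hb ht).G0_const, mul_zero]

theorem G0_dd (g : Y.W × H.L) {ξ : κ → ℝ} (hξ : ξ ∈ H.V g.1) (x : U.T) :
    (H.fib M hQ b hb ht).G0 0 (H.dd L g) (H.dd L g) (phi g.1 (ξ, x)) + 1 ≤ K0 := by
  have e := (H.fib M hQ b hb ht).G0_zero (w := g.1) (q := (ξ, x))
    (mem_phi_source.2 (H.V_sub _ hξ)) (H.dd_sm L g) (c := 1)
    (L.d_sm.res (loc_smul U M (g.2 : U.Γ)⁻¹)) fun x' => (H.dd_phi L g hξ x').trans (one_mul _).symm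
  have e' := (loc_smul U M (g.2 : U.Γ)⁻¹ x).gam_iso L.d L.d
  rw [one_pow, one_mul] at e
  exact (add_le_add_left (e.trans e').le 1).trans (L.d_gam _)
end

theorem del_ev {g g' : Y.W × H.L} {z : ZZ U Y} (h : z ∈ phi g.1 '' (H.V g.1 ×ˢ univ))
    (h' : z ∈ phi g'.1 '' (H.V g'.1 ×ˢ univ)) :
    (H.del L g g' =ᶠ[𝓝 z] fun _ => H.del L g g' z) ∧
      H.dd L g z - H.dd L g' z ≤ H.del L g g' z ∧ H.del L g g' z ≤ H.dd L g z + H.dd L g' z := by
  have e1 := H.mu_one_ev L h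
  have e2 := H.mu_one_ev L h'
  obtain ⟨⟨ξ, x⟩, ⟨hξ, -⟩, hz⟩ := h
  obtain ⟨⟨ξ', x'⟩, ⟨hξ', -⟩, hz'⟩ := h'
  have s1 : (ξ, x) ∈ (phi g.1).source := mem_phi_source.2 (H.V_sub _ hξ)
  have s2 : (ξ', x') ∈ (phi g'.1).source := mem_phi_source.2 (H.V_sub _ hξ')
  obtain ⟨t1, t2⟩ := tr_spec (hz ▸ (phi g.1).map_source s1) (hz' ▸ (phi g'.1).map_source s2)
  have t3 : x' = tr g.1 g'.1 z • x := by
    have a1 : (phi g.1).symm z = (ξ, x) := hz ▸ (phi g.1).left_inv s1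
    have a2 : (phi g'.1).symm z = (ξ', x') := hz' ▸ (phi g'.1).left_inv s2
    rwa [a1, a2] at t1
  have e3 : ∀ᶠ z' in 𝓝 z, H.del L g g' z' =
      L.l ((g.2 : U.Γ)⁻¹ * ((tr g.1 g'.1 z)⁻¹ * g'.2)) := by
    filter_upwards [e1, e2, t2] with z' a1 a2 a3
    rw [del, a1, a2, a3, one_mul, one_mul]
  have d1 : H.dd L g z = L.d ((g.2 : U.Γ)⁻¹ • x) := hz ▸ H.dd_phi L g hξ x
  have d2 : H.dd L g' z = L.d (((tr g.1 g'.1 z)⁻¹ * g'.2)⁻¹ • x) := by
    rw [mul_inv_rev, inv_inv, mul_smul, ← t3]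
    exact hz' ▸ H.dd_phi L g' hξ' x'
  rw [d1, d2, e3.self_of_nhds]
  exact ⟨e3, L.d_sub _ _ _, L.d_add _ _ _⟩

theorem data [DecidableEq κ] (hQ : IsCompact Q) (b : ι → S → ℝ) (hb : ∀ a, M.Sm (b a))
    (ht : M.pre.Tan b) :
    (H.fib M hQ b hb ht).Data K0 (fun g z => H.psi L g z ^ 2) (H.dd L) (H.del L) := by
  refine ⟨fun g => (H.psi_sm L g).pow 2, H.dd_sm L, H.del_sm L, fun g => ⟨_, H.lam_cpt g.1,
    H.lam_sub g.1, fun z h => H.bw_su L fun h0 => h (by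
      have h1 : H.bw L g.1 z = 0 := h0
      simp [psi, h1])⟩,
    fun g z => ⟨sq_nonneg _, H.psi_le L g z⟩, ?_⟩
  obtain ⟨N, hN⟩ : ∃ N : ℝ, N = Fintype.card (Y.W × H.L) := ⟨_, rfl⟩
  have hN0 : 0 < 4 * N + 1 := by rw [hN]; positivity
  filter_upwards [eventually_all.2 fun g : Y.W × H.L =>
      (H.fib M hQ b hb ht).G0_ev (H.psi_sm L g) (one_div_pos.2 hN0),
    eventually_all.2 fun g : Y.W × H.L => (H.fib M hQ b hb ht).G0_ev (H.dd_sm L g) one_pos]
    with s h1 h2 p hp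
  refine ⟨H.sum_psi L hp, ⟨fun g => 4 * (H.fib M hQ b hb ht).G0 s (H.psi L g) (H.psi L g) p,
    fun g => ⟨mul_nonneg (by norm_num) (A.Fib.G0_nonneg _ _ _ _),
      ((H.fib M hQ b hb ht).G0_sq s (H.psi_sm L g) p).le⟩, ?_⟩, fun g hg => ?_,
    fun g g' hg hg' => ?_⟩
  · have h3 : ∑ g : Y.W × H.L, 4 * (H.fib M hQ b hb ht).G0 s (H.psi L g) (H.psi L g) p ≤
        ∑ g : Y.W × H.L, (4 * (H.fib M hQ b hb ht).G0 0 (H.psi L g) (H.psi L g) p +
          4 * (1 / (4 * N + 1))) := Finset.sum_le_sum fun g _ => by linarith [h1 g p hp]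
    rw [Finset.sum_add_distrib, Finset.sum_const, Finset.card_univ, nsmul_eq_mul, ← hN] at h3
    have h4 := H.G0_psi L hQ b hb ht p
    have h5 : N * (4 * (1 / (4 * N + 1))) ≤ 1 := by
      rw [← mul_assoc, mul_one_div, div_le_one hN0]
      linarith
    exact h3.trans (by linarith)
  · obtain ⟨⟨ξ, x⟩, ⟨hξ, -⟩, rfl⟩ : p ∈ phi g.1 '' (H.V g.1 ×ˢ univ) := hg
    refine ⟨(h2 g _ hp).trans (H.G0_dd L hQ b hb ht g hξ x), fun h0 => ?_⟩
    refine (H.dd_phi L g hξ x).trans_le (L.d_one _ fun h3 => ?_)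
    have h4 := H.psi_phi L g.1 g.2 (H.V_sub _ hξ) x
    rw [h3, mul_zero] at h4
    exact (pow_ne_zero_iff two_ne_zero).1 h0.ne' h4
  · obtain ⟨h3, h4⟩ := H.del_ev L hg hg'
    exact ⟨((H.fib M hQ b hb ht).G0_congr s h3).trans (A.Fib.G0_const _ _ _ _), h4⟩

end Gen

end Crest.Agent.N222.T

end
end

-- ▼ part N222/T/GOut
section

/-!
# Row 222, glue (helper55): the map `G (P, η)` on the quotient (no smoothness here)
(filled by helper44)
-/

set_option autoImplicit false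
set_option linter.dupNamespace false
set_option linter.unusedSectionVars false
open Set Filter Topology Function

noncomputable section

namespace Crest.Agent.N222.T

variable {S : Type} [TopologicalSpace S] {U : C.Cov S} {n : ℕ} {F : Unit → Set U.T}
  (R : C.Res U n F) {G : Type} [Fintype G] (w : G → R.Y.W) (y : G → U.Γ)
  (P : G → ZZ U R.Y → ℝ)

open Classical in
/-- the probability vector on the labels -/
def tt (z : U.T × R.Y.Y) (l : C.Lb U.Γ Unit) : ℝ :=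
  ∑ g, if (y g * l.g⁻¹) • z.2 ∈ (R.Y.ch (w g)).source then P g (mk z) else 0

theorem tt_smul (γ : U.Γ) (z : U.T × R.Y.Y) :
    tt R w y P (γ • z) = fun l => tt R w y P z (γ⁻¹ • l) := by
  funext l
  have e : ∀ g, (y g * l.g⁻¹) • (γ • z).2 = (y g * ((γ⁻¹ • l).g)⁻¹) • z.2 := fun g => by
    rw [C.Lb.smul_g, mul_inv_rev, inv_inv, Prod.smul_snd, smul_smul, mul_assoc]
  unfold tt
  exact Finset.sum_congr rfl fun g _ => by rw [e g, mk_smul]

/-- the map -/
def aa : ZZ U R.Y → R.τ → ℝ := desc (fun z => R.G (tt R w y P z) z.2) fun γ z => by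
  rw [tt_smul]; exact R.G_eqv γ _ z.2

theorem aa_mk (z : U.T × R.Y.Y) : aa R w y P (mk z) = R.G (tt R w y P z) z.2 := rfl

/-- the smooth part of `G` in the chart `v` -/
def ff (v : R.Y.W) : (R.κ → ℝ) → R.τ → ℝ := (R.G_loc v).choose_spec.choose

theorem ff_sm (v : R.Y.W) : ContDiff ℝ (⊤ : ℕ∞) (ff R v) := (R.G_loc v).choose_spec.choose_spec.1

/-- the hypotheses on the output of part A -/
structure Good (Om : Set (ZZ U R.Y)) : Prop where
  nn : ∀ g z, 0 ≤ P g z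
  su : ∀ g, ∃ K, IsCompact K ∧ K ⊆ (R.Y.ch (w g)).target ∧
    ∀ z, P g z ≠ 0 → z ∈ phi (w g) '' (K ×ˢ univ)
  sum : ∀ z ∈ Om, ∑ g, P g z = 1
  reg : ∀ g, ∀ q ∈ (phi (w g)).source, phi (w g) q ∈ Om → P g (phi (w g) q) ≠ 0 →
    (y g)⁻¹ • q.2 ∈ F ()
  sub : ∀ z, mk z ∈ Om → z ∈ R.Z

variable {R w y P} {Om : Set (ZZ U R.Y)}

theorem mk_eq_phi {κ : Type} [Fintype κ] {Y : C.Par U.Γ κ} {v : Y.W} {γ : U.Γ} {z : U.T × Y.Y}
    (h : γ • z.2 ∈ (Y.ch v).source) : phi v (Y.π z.2, γ • z.1) = T.mk z := by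
  rw [phi_apply, Y.symm_π h]
  exact mk_smul γ z

open Classical in
/-- each generator contributes to exactly one label -/
theorem Good.exists_lb (h : Good R w y P Om) (z : U.T × R.Y.Y) (g : G) :
    ∃ l0 : C.Lb U.Γ Unit, ∀ l : C.Lb U.Γ Unit,
      (if (y g * l.g⁻¹) • z.2 ∈ (R.Y.ch (w g)).source then P g (T.mk z) else 0) =
        if l = l0 then P g (T.mk z) else 0 := by
  by_cases hγ : ∃ γ : U.Γ, γ • z.2 ∈ (R.Y.ch (w g)).source
  · obtain ⟨γ, hγ⟩ := hγ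
    refine ⟨⟨γ⁻¹ * y g, ()⟩, fun l => if_congr ⟨fun hl => ?_, fun hl => ?_⟩ rfl rfl⟩
    · refine C.Lb.ext ?_ rfl
      rw [← R.Y.uniq hl hγ]
      simp
    · rw [hl]
      simpa using hγ
  · have h0 : P g (T.mk z) = 0 := by
      by_contra h0
      obtain ⟨K, -, hK, hP⟩ := h.su g
      obtain ⟨q, hq, e⟩ := hP _ h0
      have := (phi (w g)).map_source (mem_phi_source.2 (hK hq.1))
      rw [e] at this
      exact hγ (mk_mem_target.1 this)
    exact ⟨⟨1, ()⟩, fun l => by rw [h0, ite_self, ite_self]⟩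

theorem Good.prob (h : Good R w y P Om) {z : U.T × R.Y.Y} (hz : T.mk z ∈ Om) :
    C.Prob (C.reg F) z.1 (tt R w y P z) := by
  classical
  refine ⟨fun l => Finset.sum_nonneg fun g _ => ?_, fun l hl => ?_, ?_⟩
  · split_ifs
    exacts [h.nn _ _, le_rfl]
  · obtain ⟨g, -, hg⟩ := Finset.exists_ne_zero_of_sum_ne_zero hl
    obtain ⟨h1, h2⟩ := ite_ne_right_iff.1 hg
    have := h.reg g (R.Y.π z.2, (y g * l.g⁻¹) • z.1) (mem_phi_source.2 (R.Y.π_mem h1))
      (by rwa [mk_eq_phi h1]) (by rwa [mk_eq_phi h1])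
    rw [smul_smul, inv_mul_cancel_left] at this
    exact this
  · choose l0 hl0 using h.exists_lb z
    have e : tt R w y P z = fun l => ∑ g, if l = l0 g then P g (T.mk z) else 0 :=
      funext fun l => Finset.sum_congr rfl fun g _ => by convert hl0 g l
    rw [e, finsum_sum_comm, ← h.sum _ hz]
    · refine Finset.sum_congr rfl fun g _ => ?_
      rw [finsum_eq_single _ (l0 g) fun l hl => if_neg hl, if_pos rfl]
    · intro g _
      exact (Set.finite_singleton (l0 g)).subset fun l hl => (ite_ne_right_iff.1 hl).1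

open Classical in
/-- the active deck transformation of a generator is locally constant -/
theorem Good.ev (h : Good R w y P Om) (z : U.T × R.Y.Y) (g : G) (γ : U.Γ) :
    ∀ᶠ q in 𝓝 z, (if γ • q.2 ∈ (R.Y.ch (w g)).source then P g (T.mk q) else 0) =
      if γ • z.2 ∈ (R.Y.ch (w g)).source then P g (T.mk q) else 0 := by
  have hc : Continuous fun q : U.T × R.Y.Y => γ • q.2 :=
    (continuous_const_smul γ).comp continuous_snd
  by_cases hγ : γ • z.2 ∈ (R.Y.ch (w g)).source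
  · filter_upwards [hc.continuousAt.preimage_mem_nhds ((R.Y.ch (w g)).open_source.mem_nhds hγ)]
      with q hq
    rw [if_pos hγ]
    exact if_pos hq
  · obtain ⟨K, hKc, hK, hP⟩ := h.su g
    have hcl : IsClosed ((R.Y.ch (w g)).symm '' K) :=
      (hKc.image_of_continuousOn ((R.Y.ch (w g)).continuousOn_symm.mono hK)).isClosed
    have hn : γ • z.2 ∈ ((R.Y.ch (w g)).symm '' K)ᶜ := by
      rintro ⟨ξ, hξ, e⟩
      exact hγ (e ▸ (R.Y.ch (w g)).map_target (hK hξ))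
    filter_upwards [hc.continuousAt.preimage_mem_nhds (hcl.isOpen_compl.mem_nhds hn)] with q hq
    rw [if_neg hγ]
    refine ite_eq_right_iff.2 fun h1 => ?_
    by_contra h0
    obtain ⟨q', hq', e⟩ := hP _ h0
    have h2 := pZ_phi (mem_phi_source.2 (hK hq'.1))
    rw [e, pZ_mk] at h2
    exact hq ⟨_, hq'.1, by rw [← h2, R.Y.symm_π h1]⟩

/-- the local form of the map -/
theorem Good.loc (h : Good R w y P Om) {z : ZZ U R.Y} (hz : Om ∈ 𝓝 z) :
    ∃ (v : R.Y.W) (A : R.τ → Finset G), (∀ c c' g, g ∈ A c → g ∈ A c' → c = c') ∧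
      ∀ c, (fun p => aa R w y P p c) =ᶠ[𝓝 z]
        fun p => R.M * ∑ g ∈ A c, P g p + ff R v (pZ p) c := by
  classical
  obtain ⟨z0, rfl⟩ := mk_surj z
  obtain ⟨v, γ0, hv, -⟩ := R.Y.exists_chart z0.2
  rw [← mk_smul γ0 z0] at hz ⊢
  change (γ0 • z0).2 ∈ _ at hv
  generalize γ0 • z0 = z1 at hz hv
  obtain ⟨-, hinj, hG⟩ := (R.G_loc v).choose_spec.choose_spec
  set lab := (R.G_loc v).choose with hlab
  refine ⟨v, fun c => Finset.univ.filter fun g =>
    ∃ l, lab c = some l ∧ (y g * l.g⁻¹) • z1.2 ∈ (R.Y.ch (w g)).source, ?_, fun c => ?_⟩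
  · intro c c' g hc hc'
    obtain ⟨l, hl, h1⟩ := (Finset.mem_filter.1 hc).2
    obtain ⟨l', hl', h1'⟩ := (Finset.mem_filter.1 hc').2
    have e : l = l' := C.Lb.ext (inv_injective (mul_left_cancel (R.Y.uniq h1 h1'))) rfl
    exact hinj c c' l hl (e ▸ hl')
  · have h1 : ∀ᶠ q in 𝓝 z1, T.mk q ∈ Om := continuous_mk.continuousAt.preimage_mem_nhds hz
    have h2 : ∀ᶠ q : U.T × R.Y.Y in 𝓝 z1, q.2 ∈ (R.Y.ch v).source :=
      continuous_snd.continuousAt.preimage_mem_nhds ((R.Y.ch v).open_source.mem_nhds hv)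
    have h3 : ∀ᶠ q in 𝓝 z1, (lab c).elim 0 (tt R w y P q) = ∑ g ∈ Finset.univ.filter fun g =>
        ∃ l, lab c = some l ∧ (y g * l.g⁻¹) • z1.2 ∈ (R.Y.ch (w g)).source, P g (T.mk q) := by
      cases hc : lab c with
      | none => simp
      | some l =>
        filter_upwards [eventually_all.2 fun g => h.ev z1 g (y g * l.g⁻¹)] with q hq
        rw [Finset.sum_filter, Option.elim_some]
        refine Finset.sum_congr rfl fun g _ => ?_
        refine Eq.trans (by convert hq g) (if_congr ?_ rfl rfl)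
        simp
    refine mem_of_superset (isOpenMap_mk.image_mem_nhds (h1.and (h2.and h3))) ?_
    rintro _ ⟨q, ⟨a1, a2, a3⟩, rfl⟩
    change aa R w y P (T.mk q) c = _
    rw [aa_mk, hG q.1 q.2 _ (h.sub q a1) a2 (h.prob a1).supp c, a3]
    rfl

theorem Good.big (h : Good R w y P Om) {z : ZZ U R.Y} (hz : z ∈ Om) (hQ : z ∉ T.mk '' R.Q) :
    1 ≤ ∑ c, aa R w y P z c ^ 2 := by
  obtain ⟨q, rfl⟩ := mk_surj z
  by_contra hlt
  have h1 : ‖aa R w y P (T.mk q)‖ ≤ 1 := by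
    refine (pi_norm_le_iff_of_nonneg zero_le_one).2 fun c => ?_
    have := Finset.single_le_sum (f := fun c => aa R w y P (T.mk q) c ^ 2)
      (fun c _ => sq_nonneg _) (Finset.mem_univ c)
    rw [Real.norm_eq_abs, ← sq_le_one_iff_abs_le_one]
    exact this.trans (not_le.1 hlt).le
  obtain ⟨g, hg⟩ := R.G_prop q.1 q.2 _ (h.sub q hz) (h.prob hz) h1
  exact hQ ⟨_, hg, mk_smul g q⟩

/-- essentiality on the quotient -/
theorem Good.ess {Q : Set (U.T × R.Y.Y)} (hQ : IsCompact Q)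
    (h : Good R w y P (T.mk '' Q)) {om : ZZ U R.Y → ℝ} (h1 : ∀ z ∈ T.mk '' R.Q, om z ≠ 0)
    {X : Set (ZZ U R.Y)} (hX : IsOpen X) (hs : tsupport om ⊆ X) (hXQ : X ⊆ T.mk '' Q)
    {b : ZZ U R.Y → R.τ → ℝ} (hb : Continuous b)
    (e : ∀ z ∈ X, om z = 0 → b z = aa R w y P z) : ∃ z, om z ≠ 0 ∧ b z = 0 := by
  obtain ⟨z, hz, hz0⟩ := R.ess (T.mk ⁻¹' X) (hX.preimage continuous_mk)
    (fun g z hz => by rwa [mem_preimage, mk_smul])
    (fun z hz => hs (subset_tsupport _ (h1 _ ⟨z, hz, rfl⟩)))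
    (fun z hz => h.sub z (hXQ hz)) (fun z => b (T.mk z)) (fun g z _ => by rw [mk_smul])
    (hb.comp continuous_mk).continuousOn (Q ∩ T.mk ⁻¹' tsupport om)
    (hQ.inter_right ((isClosed_tsupport om).preimage continuous_mk)) (fun z hz => hs hz.2)
    (fun z hz hn => by
      refine ⟨_, h.prob (hXQ hz), (e _ hz ?_).trans (aa_mk R w y P z)⟩
      by_contra h0
      obtain ⟨q, hq, hq'⟩ := hXQ hz
      obtain ⟨g, rfl⟩ := mk_eq.1 hq'
      exact hn ⟨g, hq, by rw [mem_preimage, mk_smul]; exact subset_tsupport _ h0⟩)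
  refine ⟨T.mk z, fun h0 => ?_, hz0⟩
  have := h.big (hXQ hz) fun hq => h1 _ hq h0
  rw [← e _ hz h0] at this
  simp only [show b (T.mk z) = 0 from hz0, Pi.zero_apply] at this
  norm_num at this

end Crest.Agent.N222.T

end
end

-- ▼ part N222/T/Glue

/-!
# Row 222, glue (helper55): `AFStmt`, `CoreStmt`, `BStmt` give `NoPosImm`
-/

set_option autoImplicit false
set_option linter.dupNamespace false
set_option linter.unusedSectionVars false
open Set Filter Topology Function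
open scoped ContDiff

noncomputable section

namespace Crest.Agent.N222.T

/-- the last step: from local formulas to the form class -/
theorem last_step (hB : BStmt) {d : ℕ} {ι X τ G W : Type} [Fintype ι] [DecidableEq ι] [Fintype τ]
    [Fintype G] [TopologicalSpace X] [T2Space X] [SecondCountableTopology X] (hτ : τ ≃ Fin d)
    (M : Imm d ι X) {b : ι → X → ℝ} (hb : ∀ a, M.Sm (b a)) (ht : M.pre.Tan b) {om : X → ℝ}
    (ho : M.Tst om) (h01 : ∀ p, 0 ≤ om p ∧ om p ≤ 1) {O : Set X} (hO : IsOpen O)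
    (hs : tsupport om ⊆ O) {P : G → X → ℝ} (hP : ∀ g, M.Sm (P g)) (hP0 : ∀ g p, 0 ≤ P g p)
    {h : W → τ → X → ℝ} (hh : ∀ v c, M.Sm (h v c)) {a : X → τ → ℝ} {m s0 C lam Λ e s' : ℝ}
    (hl : 0 < lam) (hs' : 0 < s')
    (hc : ∀ (ψ gψ I V : ℝ) (a r : Fin d → ℝ),
      0 ≤ ψ → ψ ≤ 1 → 0 ≤ gψ → gψ ≤ C → 0 ≤ I → s0 / 4 + Λ * I ≤ V → (∀ c, 0 ≤ r c) →
      ∑ c, r c ^ 2 ≤ 2 * m ^ 2 * I + 2 * e → (ψ = 1 ∧ gψ = 0) ∨ 1 ≤ ∑ c, a c ^ 2 →
      s' + ∑ c, 2 * (ψ * (lam * r c) + |lam * a c| * gψ) ≤ V * ψ ^ 2 + ∑ c, (lam * a c) ^ 2)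
    (hC : 0 ≤ C)
    (hloc : ∀ z ∈ O, ∃ (v : W) (A : τ → Finset G), (∀ c c' g, g ∈ A c → g ∈ A c' → c = c') ∧
      ∀ c, (fun p => a p c) =ᶠ[𝓝 z] fun p => m * ∑ g ∈ A c, P g p + h v c p)
    (hout : ∀ p ∈ O, ∑ g, P g p = 1 ∧ ∃ (j : G → ℝ) (I : ℝ),
      (∀ g, 0 ≤ j g ∧ M.pre.gam (P g) (P g) p ≤ j g * P g p) ∧ ∑ g, j g ≤ I ∧
        s0 / 4 + Λ * I ≤ M.pre.Eb b p)
    (hom : ∀ p ∈ O, M.pre.gam (fun q => om q ^ 2) (fun q => om q ^ 2) p ≤ C ^ 2)
    (hhe : ∀ v, ∀ p ∈ O, ∑ c, M.pre.gam (h v c) (h v c) p ≤ e)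
    (hbig : ∀ p ∈ O, (om =ᶠ[𝓝 p] fun _ => 1) ∨ 1 ≤ ∑ c, a p c ^ 2)
    (hess : ∀ O' : Set X, IsOpen O' → tsupport om ⊆ O' → O' ⊆ O → ∀ f : X → τ → ℝ, Continuous f →
      (∀ z ∈ O', om z = 0 → f z = a z) → ∃ z, om z ≠ 0 ∧ f z = 0) : False := by
  let : MeasurableSpace X := borel X
  have : BorelSpace X := ⟨rfl⟩
  have hon : ∀ c, M.SmOn O fun p => a p c := fun c p hp => by
    obtain ⟨v, A, -, e⟩ := hloc p hp
    have := (((Imm.sm_const m).mul (Imm.sm_sum (A c) fun g _ => hP g)).add (hh v c)).smOn O p hp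
    exact this.congr_of_eventuallyEq (symm_eventuallyEq (M.mem p) (e c))
  choose a' ha' _ _ hea using fun c => (hon c).exists_sm hO ho.cs.isCompact hs
  have hea' : ∀ᶠ p in 𝓝ˢ (tsupport om), ∀ c, a' c p = a p c := eventually_all.2 hea
  obtain ⟨O1, hO1, hs1, he1⟩ := eventually_nhdsSet_iff_exists.1 hea'
  refine hB d ι X M (M.pre.Eb b) om (fun i p => lam * a' (hτ.symm i) p)
    ⟨Imm.sm_Eb hb, ho, fun i => (Imm.sm_const lam).mul (ha' _), fun z hz =>
      drift d ι X M b _ hb ht (Imm.sm_Eb hb) z hz fun _ _ => le_rfl, ⟨s', hs', fun p hp => ?_⟩, ?_⟩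
  · have hp1 : p ∈ tsupport om := subset_tsupport _ hp
    have hpO := hs hp1
    obtain ⟨v, A, hA, e1⟩ := hloc p hpO
    obtain ⟨h1, j, I, hj, hI, hE⟩ := hout p hpO
    have e2 : ∀ c, a' c =ᶠ[𝓝 p] fun q => m * ∑ g ∈ A c, P g q + h v c q := fun c =>
      EventuallyEq.trans (eventually_of_mem (hO1.mem_nhds (hs1 hp1)) fun q hq => he1 q hq c) (e1 c)
    have h2 := grad_le M hP (hh v) hA (hP0 · p) h1 hj m e2
    have hI0 : 0 ≤ I := (Finset.sum_nonneg fun g _ => (hj g).1).trans hI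
    have h3 := hc (om p ^ 2) (√(M.pre.gam (fun q => om q ^ 2) (fun q => om q ^ 2) p)) I
      (M.pre.Eb b p) (fun i => a' (hτ.symm i) p)
      (fun i => √(M.pre.gam (a' (hτ.symm i)) (a' (hτ.symm i)) p)) (sq_nonneg _)
      (pow_le_one₀ (h01 p).1 (h01 p).2) (Real.sqrt_nonneg _)
      (Real.sqrt_le_iff.2 ⟨hC, hom p hpO⟩) hI0 hE (fun _ => Real.sqrt_nonneg _) (by
        simp only [Real.sq_sqrt (Imm.gam_self_nonneg _ _)]
        rw [hτ.symm.sum_comp fun c => M.pre.gam (a' c) (a' c) p]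
        have := hhe v p hpO
        have := mul_le_mul_of_nonneg_left hI (by positivity : 0 ≤ 2 * m ^ 2)
        linarith) (by
        rcases hbig p hpO with h4 | h4
        · refine Or.inl ⟨by rw [h4.self_of_nhds]; norm_num, ?_⟩
          have h5 : (fun q => om q ^ 2) =ᶠ[𝓝 p] fun _ => 1 := h4.mono fun q hq => by simp [hq]
          simp [Imm.gam_apply, Imm.D_congr h5, Imm.D_const]
        · refine Or.inr ?_
          rw [hτ.symm.sum_comp fun c => a' c p ^ 2]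
          simpa only [he1 p (hs1 hp1)] using h4)
    have h4 : ∑ i, M.cost om (fun q => lam * a' (hτ.symm i) q) p ≤ _ :=
      Finset.sum_le_sum fun i _ => (cost_le M om _ p).trans (le_of_eq (by
        have : M.pre.gam (fun q => lam * a' (hτ.symm i) q) (fun q => lam * a' (hτ.symm i) q) p =
            lam ^ 2 * M.pre.gam (a' (hτ.symm i)) (a' (hτ.symm i)) p := by
          simp only [Imm.gam_apply, Imm.D_const_mul lam ((ha' _).diffAt p), Finset.mul_sum]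
          exact Finset.sum_congr rfl fun _ _ => by ring
        rw [this, Real.sqrt_mul (sq_nonneg _), Real.sqrt_sq hl.le]))
    have h5 : om p ^ 4 = (om p ^ 2) ^ 2 := by ring
    rw [h5]
    linarith
  · intro f hf he
    obtain ⟨z, hz, h0⟩ := hess (O1 ∩ O) (hO1.inter hO) (subset_inter hs1 hs) inter_subset_right
      (fun z c => lam⁻¹ * f (hτ c) z)
      (continuous_pi fun c => continuous_const.mul (hf _)) fun z hz h0 => funext fun c => by
        rw [he z h0]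
        simp only [Equiv.symm_apply_apply, he1 z hz.1, inv_mul_cancel_left₀ hl.ne']
    refine ⟨z, hz, fun i => ?_⟩
    have := congrFun h0 (hτ.symm i)
    simpa [hl.ne'] using this

theorem noPosImm (hA : A.AFStmt) (hC : C.CoreStmt) (hB : BStmt) : NoPosImm := by
  intro n ι _ _ S _ _ _ _ _ M b hn _ hb ht hE U cls
  classical
  obtain ⟨p0, -, hp0⟩ := isCompact_univ.exists_isMinOn univ_nonempty
    (Imm.sm_Eb hb).continuous.continuousOn
  obtain ⟨K0, hK, ⟨L⟩⟩ := exists_lab U M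
  obtain ⟨ρ, I1, hAF⟩ := hA n _ K0 (hE p0) hK
  obtain ⟨R⟩ := hC S U n hn cls Unit (fun _ => {x | L.d x ≤ max ρ 1}) (fun _ => L.cpt _) fun x => by
    obtain ⟨g, hg⟩ := L.cover x
    exact ⟨⟨g, ()⟩, (L.d_one _ hg).trans (le_max_right _ _)⟩
  obtain ⟨Q, hQ, hQ1, hQ2⟩ := exists_compact_between R.Q_cpt R.Z_open R.Q_sub
  obtain ⟨H⟩ := exists_gen (Y := R.Y) hQ L.w_sm.cs.isCompact
  have := R.cntY
  have : SecondCountableTopology (ZZ U R.Y) := scZ
  have hO : mk '' R.Q ⊆ interior (mk '' Q) := (image_mono hQ1).trans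
    (interior_maximal (image_mono interior_subset) (isOpenMap_mk _ isOpen_interior))
  obtain ⟨om, ho, hs, h01, h1⟩ := (zM M R.Y).exists_bump (R.Q_cpt.image continuous_mk)
    isOpen_interior hO
  set Fb := H.fib M hQ b hb ht with hFb
  obtain ⟨C, hC0, hCe⟩ := Fb.G0_bdd (f := fun q => om q ^ 2) (ho.sm.pow 2)
  obtain ⟨lam, Λ, e, s', hl, hΛ, he, hs', hc⟩ :=
    exists_const (M.pre.Eb b p0) C R.M (n + Fintype.card R.κ) (hE p0) hC0
  obtain ⟨P, hP, hev⟩ := hAF ι R.κ U.T (ZZ U R.Y) Fb _ _ _ Λ (fun x => by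
    have := congrFun ((hom_iso (loc_p U M)).Eb b) x
    exact (hp0 (mem_univ (U.p x))).trans (le_of_eq this)) (H.data L hQ b hb ht) hΛ
  have hf : ∀ v c, (zM M R.Y).Sm fun z => ff R v (pZ z) c := fun v c =>
    sm_pZ M R.Y (r := fun ξ => ff R v ξ c) (contDiff_pi.1 (ff_sm R v) c)
  have he' : 0 < e / (Fintype.card R.τ + 1) := by positivity
  have hsm : ∀ᶠ s in 𝓝[≠] (0 : ℝ), ∀ v c, ∀ p ∈ Fb.Om, Fb.G0 s (fun z => ff R v (pZ z) c)
      (fun z => ff R v (pZ z) c) p ≤ e / (Fintype.card R.τ + 1) :=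
    eventually_all.2 fun v => eventually_all.2 fun c =>
      (Fb.G0_ev (hf v c) he').mono fun s hs p hp => by
        obtain ⟨w, q, hq, rfl⟩ := Fb.exists_q p
        have := Fb.G0_zero hq (hf v c) (c := 0 + ff R v q.1 c) (h := fun _ => 1) (Imm.sm_const 1)
          fun x => by
            have : pZ (phi w (q.1, x)) = q.1 := pZ_phi (q := (q.1, x))
              (mem_phi_source.2 ((mem_phi_source (q := q)).1 hq))
            rw [zero_add, mul_one]
            exact congrArg (ff R v · c) this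
        have h2 := hs _ hp
        rw [this] at h2
        simpa [Imm.gam_apply, Imm.D_const] using h2
  obtain ⟨s, ⟨ι', _, _, M', b', hch, hb', ht', hg, hout⟩, hs1, hs2⟩ :=
    (hev.and (hCe.and hsm)).exists
  have hsm' : ∀ {f : ZZ U R.Y → ℝ}, (zM M R.Y).Sm f → M'.Sm f := fun {f} hf => by
    change SmA M'.ch f
    rw [hch]; exact hf
  have hG : Good R (G := R.Y.W × H.L) Prod.fst (fun g => g.2) P (mk '' Q) :=
    { nn := fun g => (hP g).2.2
      su := fun g => let ⟨K, h1, h2, h3⟩ := (hP g).2.1; ⟨K, h1, h2.trans (H.V_sub _), h3⟩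
      sum := fun z hz => (hout z hz).1
      reg := fun g q hq hm h0 => by
        obtain ⟨K, -, h2, h3⟩ := (hP g).2.1
        obtain ⟨q', hq', e'⟩ := h3 _ h0
        obtain rfl : q' = q :=
          (phi g.1).injOn (mem_phi_source.2 (H.V_sub _ (h2 hq'.1))) hq e'
        have h4 := (hout _ hm).2.1 g (lt_of_le_of_ne ((hP g).2.2 _) (Ne.symm h0))
        rw [show H.dd L g _ = _ from H.dd_phi L g (h2 hq'.1) q'.2] at h4
        exact h4.trans (le_max_left _ _)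
      sub := fun z ⟨q, hq, e'⟩ => by
        obtain ⟨g, rfl⟩ := mk_eq.1 e'.symm
        exact R.Z_inv g q (hQ2 hq) }
  refine last_step hB (Fintype.equivFinOfCardEq R.card) M' hb' ht' ⟨hsm' ho.sm, ho.cs⟩ h01
    isOpen_interior hs (fun g => hsm' (hP g).1) hG.nn (fun v c => hsm' (hf v c))
    (a := aa R (G := R.Y.W × H.L) Prod.fst (fun g => g.2) P) hl hs' hc hC0
    (fun z hz => hG.loc (mem_interior_iff_mem_nhds.1 hz)) (fun p hp => ?_)
    (fun p hp => (hg _ (ho.sm.pow 2) p).trans (hs1 p (interior_subset hp))) (fun v p hp => ?_)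
    (fun p hp => ?_) fun O' hO' h2 h3 f hf he => ?_
  · obtain ⟨h2, -, j, I, hj, hI, -, hE'⟩ := hout p (interior_subset hp)
    exact ⟨h2, j, I, hj, hI, hE'⟩
  · refine (Finset.sum_le_sum fun c _ =>
      (hg _ (hf v c) p).trans (hs2 v c p (interior_subset hp))).trans ?_
    rw [Finset.sum_const, Finset.card_univ, nsmul_eq_mul, mul_div_assoc', div_le_iff₀ (by positivity)]
    nlinarith
  · by_cases h2 : p ∈ mk '' R.Q
    · exact Or.inl (h1.filter_mono (nhds_le_nhdsSet h2))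
    · exact Or.inr (hG.big (interior_subset hp) h2)
  · exact hG.ess hQ (fun z hz => by rw [h1.self_of_nhdsSet z hz]; exact one_ne_zero) hO' h2
      (h3.trans interior_subset) hf he

end Crest.Agent.N222.T

end
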