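import Crest.Agent.N222.D.Line
import Crest.Agent.R247.Smv0_126
import Crest.Agent.N222.D.Defs
import Crest.Agent.R247.Rdg6_879
import Crest.Agent.R247.Iso2_311
import Crest.Agent.R247.Bgr3_546
import Crest.Agent.R247.Ar3_659
import Crest.Agent.R202.GeoCongr
import Crest.Agent.N222.D.Weyl
import Crest.Agent.N222.D.Egr
import Crest.Agent.N222.D.Sub
import Crest.Agent.N222.T.Ess1
import Crest.Agent.N222.F.Hess
import Crest.Agent.N222.T.Defs
import Crest.Prelude.Def_RationalHomology

-- ▼ part N222/D/Frame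
section

/-!
# Row 222, part D: flat or degenerate (helper55)
-/

set_option autoImplicit false
set_option linter.unusedSectionVars false

open Set Filter Topology Bundle Metric
open scoped ContDiff Manifold
open Crest.GeometryTopology.CoordMetric Crest.GeometryTopology.ChartCurvature
  Crest.GeometryTopology.PointedLimit
open Crest.Agent.R202.Tens Crest.Agent.R247.Bo84 Crest.Agent.R273.RMan_798 Crest.Agent.R247

noncomputable section

namespace Crest.Agent.N222.D

section Kl

variable {n : ℕ} {M : Type} [TopologicalSpace M] [ChartedSpace (EE n) M] [IsManifold (𝓡 n) ∞ M]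
  [RiemannianBundle (fun x : M => TangentSpace (𝓡 n) x)]
  [IsContMDiffRiemannianBundle (𝓡 n) ∞ (EE n) (fun x : M => TangentSpace (𝓡 n) x)]
  {x : M} {v : TangentSpace (𝓡 n) x} {f h : M → ℝ}

/-- the differential of `f` kills `v` -/
def Kl (x : M) (v : TangentSpace (𝓡 n) x) (f : M → ℝ) : Prop :=
  MDifferentiableAt (𝓡 n) 𝓘(ℝ, ℝ) f x ∧ (inner ℝ (mgrad n f x) v : ℝ) = 0

theorem Kl.add (hf : Kl x v f) (hh : Kl x v h) : Kl x v fun y => f y + h y :=
  ⟨hf.1.add hh.1, by rw [mgrad_add hf.1 hh.1, inner_add_left, hf.2, hh.2, add_zero]⟩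

theorem Kl.mul (hf : Kl x v f) (hh : Kl x v h) : Kl x v fun y => f y * h y :=
  ⟨hf.1.mul hh.1, by
    rw [mgrad_mul hf.1 hh.1, inner_add_left, real_inner_smul_left, real_inner_smul_left, hf.2, hh.2]
    simp⟩

theorem Kl.comp (hf : Kl x v f) {φ : ℝ → ℝ} (hφ : DifferentiableAt ℝ φ (f x)) :
    Kl x v fun y => φ (f y) :=
  ⟨hφ.mdifferentiableAt.comp x hf.1, by
    rw [mgrad_comp hφ hf.1, real_inner_smul_left, hf.2, mul_zero]⟩

theorem Kl.sum {ι : Type} (s : Finset ι) {F : ι → M → ℝ} (hF : ∀ i, Kl x v (F i)) :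
    Kl x v fun y => ∑ i ∈ s, F i y := by
  classical
  induction s using Finset.induction_on with
  | empty => exact ⟨mdifferentiableAt_const, by
      simp only [Finset.sum_empty]; rw [mgrad_const, inner_zero_left]⟩
  | insert a s ha ih => simpa only [Finset.sum_insert ha] using (hF a).add ih

theorem Kl.congr (hf : Kl x v f) (e : h =ᶠ[𝓝 x] f) : Kl x v h :=
  ⟨hf.1.congr_of_eventuallyEq e, by rw [mgrad_congr e, hf.2]⟩

end Kl

/-- **flat or degenerate** -/
theorem frame (hS : SplitStmt) : FrameStmt := by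
  intro n M _ _ _ _ _ _ _ _ Γ _ _ hric hsm hn hd ⟨K, hK, hcov⟩ hfin
  have hI : ∀ g : Γ, LocIso n fun x : M => g • x := fun g => ⟨hsm g, hn g⟩
  have := HR216.properSpace_of_riemannian n M
  refine (flat_or_ker (n := n) (M := M)).imp_right fun hker => ?_
  obtain ⟨p⟩ : Nonempty M := inferInstance
  obtain ⟨k, v, hv, hsp⟩ := exists_span (n := n) p
  have hbd := bounded_sublevel hS hric hI hd hK hcov p hv hsp
  set ρ : M → ℝ := fun x => ∑ i, v i x * v i x with hρ
  have hρs : Sm n M ρ := contMDiff_finsetSum fun i _ => (hv i).1.mul (hv i).1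
  obtain ⟨R, hR⟩ := hK.exists_bound_of_continuousOn hρs.continuous.continuousOn
  set φ : ℝ → ℝ := fun t => expNegInvGlue (R + 1 - t) with hφ
  have hφs : ContDiff ℝ ∞ φ := expNegInvGlue.contDiff.comp (contDiff_const.sub contDiff_id)
  set Q : M → ℝ := fun x => φ (ρ x) with hQ
  have hQs : Sm n M Q := hφs.contMDiff.comp hρs
  have hQ0 : ∀ x, 0 ≤ Q x := fun x => expNegInvGlue.nonneg _
  have hQK : ∀ x ∈ K, 0 < Q x := fun x hx =>
    expNegInvGlue.pos_of_pos (by linarith [(le_abs_self _).trans (hR x hx)])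
  have hQc : HasCompactSupport Q := by
    refine HasCompactSupport.intro (hbd (R + 2)).isCompact_closure fun x hx => ?_
    refine expNegInvGlue.zero_of_nonpos (not_lt.1 fun h => hx (subset_closure fun i => ?_))
    have h1 : v i x * v i x ≤ ρ x := Finset.single_le_sum (f := fun i => v i x * v i x)
      (fun i _ => mul_self_nonneg _) (Finset.mem_univ i)
    rw [← abs_mul_abs_self] at h1
    nlinarith [abs_nonneg (v i x), sq_nonneg (|v i x| - 1)]
  have hloc : ∀ x : M, ∃ T : Finset Γ, ∀ y ∈ ball x 1,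
      (Function.support fun g : Γ => Q (g • y)) ⊆ T := fun x => by
    have hf := hfin _ (hQc.isCompact.union (isCompact_closedBall x 1))
    refine ⟨hf.toFinset, fun y hy g hg => ?_⟩
    rw [Finite.coe_toFinset]
    exact ⟨y, Or.inr (ball_subset_closedBall hy), Or.inl (subset_tsupport _ hg)⟩
  set D : M → ℝ := fun x => ∑ᶠ g : Γ, Q (g • x) with hD
  have hDl : ∀ x : M, ∃ T : Finset Γ, D =ᶠ[𝓝 x] fun y => ∑ g ∈ T, Q (g • y) := fun x => by
    obtain ⟨T, hT⟩ := hloc x
    refine ⟨T, ?_⟩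
    filter_upwards [ball_mem_nhds x one_pos] with y hy
    exact finsum_eq_sum_of_support_subset _ (hT y hy)
  have hfs : ∀ x : M, (Function.support fun g : Γ => Q (g • x)).Finite := fun x => by
    obtain ⟨T, hT⟩ := hloc x
    exact T.finite_toSet.subset (hT x (mem_ball_self one_pos))
  have hDp : ∀ x, 0 < D x := fun x => by
    obtain ⟨g, hg⟩ := hcov x
    exact finsum_pos (fun g => hQ0 _) ⟨g, hQK _ hg⟩ (hfs x)
  have hDi : ∀ (h : Γ) (x : M), D (h • x) = D x := fun h x => by
    simp only [hD, ← mul_smul]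
    exact finsum_comp_equiv (Equiv.mulRight h) (f := fun g => Q (g • x))
  have hDs : Sm n M D := fun x => by
    obtain ⟨T, hT⟩ := hDl x
    exact (contMDiff_finsetSum (fun g _ => hQs.comp (hsm g)) x).congr_of_eventuallyEq hT
  refine ⟨fun x => Q x * (D x)⁻¹, hQs.mul (hDs.inv₀ fun x => (hDp x).ne'), hQc.mul_right,
    fun x => mul_nonneg (hQ0 x) (inv_nonneg.2 (hDp x).le), fun x => ?_, fun x => ?_⟩
  · simp only [hDi]
    rw [← finsum_mul' _ _ (hfs x)]
    exact mul_inv_cancel₀ (hDp x).ne'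
  · obtain ⟨w, hw0, hw⟩ := hker x
    refine ⟨w, hw0, fun g => ?_⟩
    have h1 : ∀ (g : Γ) i, Kl x w fun y => v i (g • y) := fun g i =>
      ⟨((hI g).aff (hv i)).1.md x, by rw [inner_mgrad]; exact hw _ ((hI g).aff (hv i))⟩
    have h2 : ∀ g : Γ, Kl x w fun y => Q (g • y) := fun g =>
      (Kl.sum Finset.univ fun i => (h1 g i).mul (h1 g i)).comp (hφs.differentiable (by simp) _)
    obtain ⟨T, hT⟩ := hDl x
    have h3 : Kl x w D := (Kl.sum T h2).congr hT
    have h4 := (h2 g).mul (h3.comp (differentiableAt_inv (hDp x).ne'))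
    rw [← inner_mgrad]
    exact (h4.congr (Eventually.of_forall fun y => by simp only [hDi])).2

end Crest.Agent.N222.D
end
end

-- ▼ part N222/D/Mean
section

/-!
# Row 222, part D: weak superharmonicity of far distance functions and a strong minimum principle
(helper55), over `GradS` and `WLap` of R247.
-/

set_option autoImplicit false
set_option linter.unusedSectionVars false

open Set Filter Topology MeasureTheory Metric
open scoped RealInnerProductSpace
open Crest.Agent.R247.Dir593 Crest.Agent.R247.Dir593.GradS Crest.Agent.R247.Smv126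

noncomputable section

namespace Crest.Agent.N222.D

theorem hasDerivAt_pos_sq (t : ℝ) : HasDerivAt (fun s : ℝ => (max s 0) ^ 2) (2 * max t 0) t := by
  rcases lt_trichotomy t 0 with h | h | h
  · rw [max_eq_right h.le, mul_zero]
    refine (hasDerivAt_const t (0 : ℝ)).congr_of_eventuallyEq ?_
    filter_upwards [Iio_mem_nhds h] with s hs
    rw [max_eq_right (le_of_lt hs)]; ring
  · subst h
    rw [max_self, mul_zero, hasDerivAt_iff_isLittleO_nhds_zero]
    have h1 : (fun s : ℝ => s ^ 2) =o[𝓝 0] fun s => s := by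
      simpa using Asymptotics.isLittleO_pow_id (𝕜 := ℝ) (n := 2) one_lt_two
    refine Asymptotics.IsBigO.trans_isLittleO ?_ h1
    refine Asymptotics.IsBigO.of_bound 1 (Eventually.of_forall fun s => ?_)
    rcases le_total s 0 with h | h
    · simp [max_eq_right h, sq_nonneg]
    · simp [max_eq_left h]
  · rw [max_eq_left h.le]
    have := (hasDerivAt_id t).pow 2
    refine (this.congr_deriv (by simp)).congr_of_eventuallyEq ?_
    filter_upwards [Ioi_mem_nhds h] with s hs
    rw [max_eq_left (le_of_lt hs)]; rfl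

/-- `C¹` regularisation of `r` near `0` -/
def mm (ε r : ℝ) : ℝ := r + (max (ε - r) 0) ^ 2 / (2 * ε)

/-- its derivative -/
def mm' (ε r : ℝ) : ℝ := 1 - max (ε - r) 0 / ε

theorem hasDerivAt_mm {ε : ℝ} (hε : 0 < ε) (r : ℝ) : HasDerivAt (mm ε) (mm' ε r) r := by
  have h1 := ((hasDerivAt_pos_sq (ε - r)).comp r ((hasDerivAt_id r).const_sub ε)).div_const (2 * ε)
  refine ((hasDerivAt_id r).add h1).congr_deriv ?_
  unfold mm'; field_simp; ring

theorem continuous_mm' (ε : ℝ) : Continuous (mm' ε) := by unfold mm'; fun_prop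

theorem contDiff_of_hasDerivAt {f f' : ℝ → ℝ} (h : ∀ s, HasDerivAt f (f' s) s)
    (hc : Continuous f') : ContDiff ℝ 1 f := by
  refine contDiff_one_iff_deriv.2 ⟨fun s => (h s).differentiableAt, ?_⟩
  rw [show deriv f = f' from funext fun s => (h s).deriv]; exact hc

theorem mm_of_le {ε r : ℝ} (h : ε ≤ r) : mm ε r = r := by
  unfold mm; rw [max_eq_right (by linarith)]; simp

theorem mm'_of_le {ε r : ℝ} (h : ε ≤ r) : mm' ε r = 1 := by
  unfold mm'; rw [max_eq_right (by linarith)]; simp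

theorem mm_ge {ε : ℝ} (hε : 0 < ε) (r : ℝ) : ε / 2 ≤ mm ε r := by
  rcases le_total ε r with h | h
  · rw [mm_of_le h]; linarith
  · unfold mm
    rw [max_eq_left (by linarith)]
    have : r + (ε - r) ^ 2 / (2 * ε) = ε / 2 + r ^ 2 / (2 * ε) := by field_simp; ring
    rw [this]
    have : 0 ≤ r ^ 2 / (2 * ε) := by positivity
    linarith

theorem mm_pos {ε : ℝ} (hε : 0 < ε) (r : ℝ) : 0 < mm ε r := lt_of_lt_of_le (by positivity) (mm_ge hε r)

theorem mm_le {ε r b : ℝ} (hε : 0 < ε) (hr : 0 ≤ r) (hεb : ε ≤ b) (hrb : r ≤ b) : mm ε r ≤ b := by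
  rcases le_total ε r with h | h
  · rw [mm_of_le h]; exact hrb
  · unfold mm
    rw [max_eq_left (by linarith)]
    have h1 : (ε - r) ^ 2 / (2 * ε) ≤ ε - r := by
      rw [div_le_iff₀ (by positivity)]; nlinarith
    linarith

theorem mm'_nonneg {ε r : ℝ} (hε : 0 < ε) (hr : 0 ≤ r) : 0 ≤ mm' ε r := by
  unfold mm'
  have : max (ε - r) 0 / ε ≤ 1 := by
    rw [div_le_one hε]; exact max_le (by linarith) hε.le
  linarith

variable {X : Type*} [MetricSpace X] [MeasurableSpace X] {F : Type*}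
  [NormedAddCommGroup F] [InnerProductSpace ℝ F] {μ : Measure X} [BorelSpace X]
  [IsFiniteMeasureOnCompacts μ] [ProperSpace X] {S : GradS X F μ} {n : ℕ}

theorem int_GG {f φ : X → ℝ} (hf : LocallyLipschitz f) (hφ : IsT φ) :
    Integrable (fun z => ⟪S.G f z, S.G φ z⟫) μ :=
  memLp_one_iff_integrable.1 (memLp_GG S hf hφ 1)

theorem int_T {φ : X → ℝ} (hφ : IsT φ) : Integrable φ μ :=
  hφ.1.continuous.integrable_of_hasCompactSupport hφ.2

/-- far distance functions are almost superharmonic -/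
theorem far (W : WLap S n 0) (q : X) {φ : X → ℝ} (hφ : IsT φ) (h0 : ∀ z, 0 ≤ φ z) {ρ : ℝ}
    (hρ : 0 < ρ) (hs : ∀ z ∈ tsupport φ, ρ ≤ dist q z) :
    -(n / ρ * ∫ z, φ z ∂μ) ≤ ∫ z, ⟪S.G (dist q) z, S.G φ z⟫ ∂μ := by
  let κ : ℝ → ℝ := fun s => (mm ρ s)⁻¹
  have hκd : ∀ s, HasDerivAt κ (-mm' ρ s / mm ρ s ^ 2) s := fun s =>
    (hasDerivAt_mm hρ s).inv (mm_pos hρ s).ne'
  have hmc : Continuous (mm ρ) := continuous_iff_continuousAt.2 fun s =>
    (hasDerivAt_mm hρ s).continuousAt
  have hκ : ContDiff ℝ 1 κ := contDiff_of_hasDerivAt hκd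
    ((continuous_mm' ρ).neg.div (hmc.pow 2) fun s => (pow_pos (mm_pos hρ s) 2).ne')
  have hκl : LocallyLipschitz fun z => κ (dist q z) := hκ.locallyLipschitz.comp (locLip_dist q)
  have hT : IsT fun z => φ z * κ (dist q z) := hφ.mul hκl
  have key := W.lap q hT fun z => mul_nonneg (h0 z) (inv_nonneg.2 (mm_pos hρ _).le)
  have h1 : ∫ z, (((n : ℝ) + 0 * dist q z ^ 2) * (φ z * κ (dist q z)) +
      ⟪S.G (hf q) z, S.G (fun z => φ z * κ (dist q z)) z⟫) ∂μ ≤
      ∫ z, (n / ρ * φ z + ⟪S.G (dist q) z, S.G φ z⟫) ∂μ := by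
    refine integral_mono_ae ?_ (((int_T hφ).const_mul _).add (int_GG (locLip_dist q) hφ)) ?_
    · refine Integrable.add ?_ (int_GG (locLip_hf q) hT)
      simpa using (int_T hT).const_mul (n : ℝ)
    · have hz := S.zero_of_open hφ.1 (isClosed_tsupport φ).isOpen_compl
        (fun x hx => image_eq_zero_of_notMem_tsupport hx)
      filter_upwards [S.mul hφ.1 hκl, G_comp S q hκ, G_hf S q, W.unit q, hz] with z e1 e2 e3 e4 e5
      rw [e1, e2, e3, (hκd _).deriv, real_inner_smul_left, inner_add_right, real_inner_smul_right,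
        real_inner_smul_right, real_inner_smul_right, real_inner_self_eq_norm_sq, e4]
      by_cases hzs : z ∈ tsupport φ
      · have hr := hs z hzs
        have hr0 : 0 < dist q z := hρ.trans_le hr
        simp only [κ, mm_of_le hr, mm'_of_le hr]
        have a1 : (n : ℝ) * (φ z * (dist q z)⁻¹) ≤ n / ρ * φ z := by
          have : (dist q z)⁻¹ ≤ ρ⁻¹ := inv_anti₀ hρ hr
          calc (n : ℝ) * (φ z * (dist q z)⁻¹) ≤ n * (φ z * ρ⁻¹) := by
                gcongr; exact h0 z
            _ = _ := by ring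
        have a2 : dist q z * (φ z * (-1 / dist q z ^ 2 * 1 ^ 2)) ≤ 0 := by
          have : 0 ≤ dist q z * (φ z * (1 / dist q z ^ 2)) := by have := h0 z; positivity
          calc _ = -(dist q z * (φ z * (1 / dist q z ^ 2))) := by ring
            _ ≤ 0 := by linarith
        have a3 : dist q z * ((dist q z)⁻¹ * ⟪S.G (dist q) z, S.G φ z⟫) =
            ⟪S.G (dist q) z, S.G φ z⟫ := by field_simp
        rw [mul_add, a3]
        linarith
      · rw [image_eq_zero_of_notMem_tsupport hzs, e5 hzs]; simp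
  rw [integral_add ((int_T hφ).const_mul _) (int_GG (locLip_dist q) hφ), integral_const_mul] at h1
  linarith

/-- the radial inequality -/
theorem radial (W : WLap S n 0) (y : X) {h : X → ℝ} (hh : LocallyLipschitz h) (h0 : ∀ z, 0 ≤ h z)
    {b δ : ℝ} (hsup : ∀ φ : X → ℝ, IsT φ → (∀ z, 0 ≤ φ z) → tsupport φ ⊆ closedBall y b →
      -(δ * ∫ z, φ z ∂μ) ≤ ∫ z, ⟪S.G h z, S.G φ z⟫ ∂μ)
    {η η' ζ : ℝ → ℝ} (hη : ∀ s, HasDerivAt η (η' s) s) (hη' : Continuous η')
    (hη0 : ∀ s, 0 ≤ η s) (hηb : ∀ s, b ≤ s → η s = 0) (hζ : ∀ s, HasDerivAt ζ (-(s * η s)) s)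
    (hζ0 : ∀ s, 0 ≤ s → 0 ≤ ζ s) (hζb : ∀ s, b ≤ s → ζ s = 0) :
    0 ≤ ∫ z, h z * (n * η (dist y z) + dist y z * η' (dist y z)) ∂μ +
      δ * ∫ z, ζ (dist y z) ∂μ := by
  have hηc : ContDiff ℝ 1 η := contDiff_of_hasDerivAt hη hη'
  have hζc : ContDiff ℝ 1 ζ := contDiff_of_hasDerivAt hζ (continuous_id.mul hηc.continuous).neg
  have hTη := isT_radial y hηc hηb
  have hTζ := isT_radial y hζc hζb
  have hT : IsT fun z => h z * η (dist y z) := IsT.mul' hh hTη
  have k1 := W.lap y hT fun z => mul_nonneg (h0 z) (hη0 _)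
  have k2 := hsup _ hTζ (fun z => hζ0 _ dist_nonneg) (by
    refine closure_minimal (fun z hz => ?_) isClosed_closedBall
    by_contra hb
    rw [mem_closedBall, not_le, dist_comm] at hb
    exact hz (hζb _ hb.le))
  have i2 := int_GG (S := S) hh hTζ
  have i1 : Integrable (fun z => ((n : ℝ) + 0 * dist y z ^ 2) * (h z * η (dist y z)) +
      ⟪S.G (hf y) z, S.G (fun z => h z * η (dist y z)) z⟫) μ := by
    refine Integrable.add ?_ (int_GG (locLip_hf y) hT)
    simpa using (int_T hT).const_mul (n : ℝ)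
  have e : ∫ z, h z * (n * η (dist y z) + dist y z * η' (dist y z)) ∂μ =
      ∫ z, ((((n : ℝ) + 0 * dist y z ^ 2) * (h z * η (dist y z)) +
      ⟪S.G (hf y) z, S.G (fun z => h z * η (dist y z)) z⟫) +
        ⟪S.G h z, S.G (fun z => ζ (dist y z)) z⟫) ∂μ := by
    refine integral_congr_ae ?_
    filter_upwards [S.mul hh hTη.1, G_comp S y hηc, G_comp S y hζc, G_hf S y, W.unit y]
      with z e1 e2 e3 e4 e5
    rw [e1, e2, e3, e4, (hη _).deriv, (hζ _).deriv, real_inner_smul_left, inner_add_right,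
      real_inner_smul_right, real_inner_smul_right, real_inner_smul_right, real_inner_smul_right,
      real_inner_self_eq_norm_sq, e5, real_inner_comm]
    ring
  rw [e, integral_add i1 i2]
  linarith

/-- **strong minimum principle** for limits of almost superharmonic functions -/
theorem min_principle [μ.IsOpenPosMeasure] (W : WLap S n 0) (y : X) {h : X → ℝ}
    (hc : Continuous h) (h0 : ∀ z, 0 ≤ h z) {L C : ℝ} (hL : ∀ z, h z ≤ L * dist y z)
    (hC : ∀ ε : ℝ, 0 < ε → μ.real (ball y ε) ≤ C * ε ^ n)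
    (happ : ∀ b δ : ℝ, 0 < δ → ∃ h' : X → ℝ, LocallyLipschitz h' ∧ (∀ z, 0 ≤ h' z) ∧
      (∀ z ∈ closedBall y b, |h' z - h z| ≤ δ) ∧
      ∀ φ : X → ℝ, IsT φ → (∀ z, 0 ≤ φ z) → tsupport φ ⊆ closedBall y b →
        -(δ * ∫ z, φ z ∂μ) ≤ ∫ z, ⟪S.G h' z, S.G φ z⟫ ∂μ) (z₀ : X) : h z₀ = 0 := by
  by_contra hne
  have hpos : 0 < h z₀ := lt_of_le_of_ne (h0 z₀) (Ne.symm hne)
  have hd : 0 < dist y z₀ := by
    by_contra hd
    have : dist y z₀ = 0 := le_antisymm (not_lt.1 hd) dist_nonneg
    have h1 := hL z₀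
    rw [this, mul_zero] at h1
    linarith
  have hL0 : 0 ≤ L := by
    by_contra hn
    have := hL z₀
    nlinarith [not_le.1 hn]
  set b := dist y z₀ + 1 with hb
  have hb0 : 0 < b := by positivity
  have hdc : Continuous fun z => dist y z := continuous_const.dist continuous_id
  have hcs : ∀ {w : ℝ → ℝ}, (∀ s, b ≤ s → w s = 0) → HasCompactSupport fun z => w (dist y z) := by
    intro w hw
    refine HasCompactSupport.intro (isCompact_closedBall y b) fun z hz => ?_
    rw [mem_closedBall, not_le, dist_comm] at hz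
    exact hw _ hz.le
  -- the positive quantity
  let u : X → ℝ := fun z => h z * (dist y z * max (b - dist y z) 0)
  have huc : Continuous u := by fun_prop
  have hus : HasCompactSupport u := (hcs (w := fun s => s * max (b - s) 0) fun s hs => by
    rw [max_eq_right (by linarith), mul_zero]).mul_left
  have hu0 : ∀ z, 0 ≤ u z := fun z =>
    mul_nonneg (h0 z) (mul_nonneg dist_nonneg (le_max_right _ _))
  have hI : 0 < ∫ z, u z ∂μ := by
    refine huc.integral_pos_of_hasCompactSupport_nonneg_nonzero hus hu0 (x := z₀) ?_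
    have : max (b - dist y z₀) 0 = 1 := by rw [hb]; simp
    simp only [u, this]; positivity
  have main : ∀ ε : ℝ, 0 < ε → ε ≤ b →
      2 * (b ^ n)⁻¹ * ∫ z, u z ∂μ ≤ (n * 2 ^ n * b ^ 2 * L * C) * ε := by
    intro ε hε hεb
    have hmp := mm_pos hε
    have hmc : Continuous (mm ε) := continuous_iff_continuousAt.2 fun s =>
      (hasDerivAt_mm hε s).continuousAt
    let η : ℝ → ℝ := fun s => (mm ε s ^ n)⁻¹ * (max (b - s) 0) ^ 2
    let η' : ℝ → ℝ := fun s => -(n * mm ε s ^ (n - 1) * mm' ε s) / (mm ε s ^ n) ^ 2 *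
      (max (b - s) 0) ^ 2 + (mm ε s ^ n)⁻¹ * (2 * max (b - s) 0 * (-1))
    have hη : ∀ s, HasDerivAt η (η' s) s := fun s =>
      (((hasDerivAt_mm hε s).pow n).inv (pow_pos (hmp s) n).ne').mul
        ((hasDerivAt_pos_sq (b - s)).comp s ((hasDerivAt_id s).const_sub b))
    have hη' : Continuous η' := by
      have := continuous_mm' ε
      refine Continuous.add (Continuous.mul (Continuous.div (by fun_prop) (by fun_prop) ?_)
        (by fun_prop)) (Continuous.mul (Continuous.inv₀ (by fun_prop) ?_) (by fun_prop))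
      · exact fun s => (pow_pos (pow_pos (hmp s) n) 2).ne'
      · exact fun s => (pow_pos (hmp s) n).ne'
    have hηc : Continuous η := continuous_iff_continuousAt.2 fun s => (hη s).continuousAt
    have hη0 : ∀ s, 0 ≤ η s := fun s => mul_nonneg (inv_nonneg.2 (pow_pos (hmp s) n).le) (sq_nonneg _)
    have hmb : ∀ s, b ≤ s → max (b - s) 0 = 0 := fun s hs => max_eq_right (by linarith)
    have hηb : ∀ s, b ≤ s → η s = 0 := fun s hs => by simp [η, hmb s hs]
    let ζ : ℝ → ℝ := fun s => -∫ t in b..s, t * η t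
    have hsη : Continuous fun t => t * η t := continuous_id.mul hηc
    have hζ : ∀ s, HasDerivAt ζ (-(s * η s)) s := fun s =>
      (intervalIntegral.integral_hasDerivAt_right (hsη.intervalIntegrable _ _)
        (hsη.stronglyMeasurableAtFilter _ _) hsη.continuousAt).neg
    have hζb : ∀ s, b ≤ s → ζ s = 0 := fun s hs => by
      simp only [ζ]
      rw [intervalIntegral.integral_congr (g := fun _ => 0) fun t ht => by
        rw [uIcc_of_le hs] at ht; simp [hηb t ht.1]]
      simp
    have hζ0 : ∀ s, 0 ≤ s → 0 ≤ ζ s := fun s hs => by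
      rcases le_total b s with h1 | h1
      · rw [hζb s h1]
      · simp only [ζ]
        rw [← intervalIntegral.integral_symm]
        exact intervalIntegral.integral_nonneg h1 fun t ht => mul_nonneg (hs.trans ht.1) (hη0 t)
    let w : X → ℝ := fun z => n * η (dist y z) + dist y z * η' (dist y z)
    have hwc : Continuous w := by fun_prop
    have hwb : ∀ s, b ≤ s → n * η s + s * η' s = 0 := fun s hs => by simp [η, η', hmb s hs]
    have hws : HasCompactSupport w := hcs (w := fun s => n * η s + s * η' s) hwb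
    have iw : Integrable w μ := hwc.integrable_of_hasCompactSupport hws
    have ihw : ∀ {k : X → ℝ}, Continuous k → Integrable (fun z => k z * w z) μ := fun hk =>
      (hk.mul hwc).integrable_of_hasCompactSupport hws.mul_left
    have step1 : 0 ≤ ∫ z, h z * w z ∂μ := by
      refine le_of_forall_pos_le_add fun θ hθ => ?_
      set A := ∫ z, |w z| ∂μ + |∫ z, ζ (dist y z) ∂μ| with hA
      have hA0 : 0 ≤ A := add_nonneg (integral_nonneg fun _ => abs_nonneg _) (abs_nonneg _)
      obtain ⟨h', l1, l2, l3, l4⟩ := happ b (θ / (A + 1)) (by positivity)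
      have k1 := radial W y l1 l2 l4 hη hη' hη0 hηb hζ hζ0 hζb
      have k2 : ∫ z, h' z * w z ∂μ ≤ ∫ z, (h z * w z + θ / (A + 1) * |w z|) ∂μ := by
        refine integral_mono (ihw l1.continuous) ((ihw hc).add (iw.abs.const_mul _)) fun z => ?_
        by_cases hz : z ∈ closedBall y b
        · have := l3 z hz
          have h2 : (h' z - h z) * w z ≤ θ / (A + 1) * |w z| :=
            (le_abs_self _).trans (by rw [abs_mul]; gcongr)
          show h' z * w z ≤ h z * w z + θ / (A + 1) * |w z|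
          linarith
        · rw [mem_closedBall, not_le, dist_comm] at hz
          have : w z = 0 := hwb _ hz.le
          simp [this]
      rw [integral_add (ihw hc) (iw.abs.const_mul _), integral_const_mul] at k2
      have k3 : θ / (A + 1) * ∫ z, ζ (dist y z) ∂μ ≤ θ / (A + 1) * |∫ z, ζ (dist y z) ∂μ| := by
        gcongr; exact le_abs_self _
      have k4 : θ / (A + 1) * A ≤ θ := by
        rw [div_mul_eq_mul_div, div_le_iff₀ (by positivity)]; nlinarith
      have k5 : θ / (A + 1) * A = θ / (A + 1) * ∫ z, |w z| ∂μ +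
          θ / (A + 1) * |∫ z, ζ (dist y z) ∂μ| := by rw [hA]; ring
      change 0 ≤ ∫ z, h' z * w z ∂μ + _ at k1
      linarith
    set K : ℝ := n * (2 / ε) ^ n * b ^ 2 * (L * ε) with hK
    have hK0 : 0 ≤ K := by positivity
    have step2 : ∫ z, h z * w z ∂μ ≤
        ∫ z, ((ball y ε).indicator (fun _ => K) z - 2 * (b ^ n)⁻¹ * u z) ∂μ := by
      refine integral_mono (ihw hc) (Integrable.sub ?_
        ((huc.integrable_of_hasCompactSupport hus).const_mul _)) fun z => ?_
      · exact (integrable_indicator_iff measurableSet_ball).2 (integrableOn_const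
          ((measure_mono ball_subset_closedBall).trans_lt
            (isCompact_closedBall y ε).measure_lt_top).ne)
      · set r := dist y z with hr
        have hr0 : 0 ≤ r := dist_nonneg
        set m := mm ε r with hm
        have hm0 : 0 < m := hmp r
        set t := max (b - r) 0 with ht
        have ht0 : 0 ≤ t := le_max_right _ _
        have e1 : w z = n * (m ^ n)⁻¹ * t ^ 2 * (1 - r * mm' ε r / m) - 2 * (m ^ n)⁻¹ * (r * t) := by
          simp only [w, η, η', ← hr, ← hm, ← ht]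
          rcases Nat.eq_zero_or_pos n with h | h
          · subst h; simp; ring
          · obtain ⟨k, rfl⟩ : ∃ k, n = k + 1 := ⟨n - 1, by omega⟩
            simp only [Nat.add_sub_cancel]
            field_simp
            ring
        have e2 : 2 * (b ^ n)⁻¹ * u z ≤ h z * (2 * (m ^ n)⁻¹ * (r * t)) := by
          rcases le_total b r with h | h
          · have : t = 0 := hmb r h
            simp [u, ← hr, ← ht, this]
          · have h1 : (b ^ n)⁻¹ ≤ (m ^ n)⁻¹ :=
              inv_anti₀ (pow_pos hm0 n) (pow_le_pow_left₀ hm0.le (mm_le hε hr0 hεb h) n)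
            have h2 : 0 ≤ u z := hu0 z
            calc 2 * (b ^ n)⁻¹ * u z ≤ 2 * (m ^ n)⁻¹ * u z := by gcongr
              _ = _ := by simp only [u, ← hr, ← ht]; ring
        have e3 : h z * (n * (m ^ n)⁻¹ * t ^ 2 * (1 - r * mm' ε r / m)) ≤
            (ball y ε).indicator (fun _ => K) z := by
          by_cases hz : z ∈ ball y ε
          · rw [indicator_of_mem hz]
            have hrε : r ≤ ε := by rw [mem_ball, dist_comm] at hz; exact hz.le
            have h1 : (m ^ n)⁻¹ ≤ (2 / ε) ^ n := by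
              rw [← inv_pow]
              refine pow_le_pow_left₀ (by positivity) ?_ n
              rw [← inv_div ε 2]
              exact inv_anti₀ (by positivity) (mm_ge hε r)
            have h2 : t ≤ b := max_le (by linarith) hb0.le
            have h3 : 1 - r * mm' ε r / m ≤ 1 := by
              have := mm'_nonneg hε hr0
              have : 0 ≤ r * mm' ε r / m := by positivity
              linarith
            have h4 : h z ≤ L * ε := (hL z).trans (by gcongr)
            have h5 : n * (m ^ n)⁻¹ * t ^ 2 * (1 - r * mm' ε r / m) ≤ n * (2 / ε) ^ n * b ^ 2 := by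
              calc _ ≤ n * (m ^ n)⁻¹ * t ^ 2 * 1 := by gcongr
                _ ≤ n * (2 / ε) ^ n * b ^ 2 * 1 := by gcongr
                _ = _ := mul_one _
            calc _ ≤ h z * (n * (2 / ε) ^ n * b ^ 2) := mul_le_mul_of_nonneg_left h5 (h0 z)
              _ ≤ (L * ε) * (n * (2 / ε) ^ n * b ^ 2) := by gcongr
              _ = K := by rw [hK]; ring
          · rw [indicator_of_notMem hz]
            have hrε : ε ≤ r := by rw [mem_ball, not_lt, dist_comm] at hz; exact hz
            have hr' : 0 < r := hε.trans_le hrε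
            rw [hm, mm_of_le hrε, mm'_of_le hrε, mul_one, div_self hr'.ne']
            simp
        show h z * w z ≤ _ - _
        rw [e1, mul_sub]
        linarith
    rw [integral_sub ((integrable_indicator_iff measurableSet_ball).2 (integrableOn_const
          ((measure_mono ball_subset_closedBall).trans_lt
            (isCompact_closedBall y ε).measure_lt_top).ne))
      ((huc.integrable_of_hasCompactSupport hus).const_mul _), integral_const_mul,
      integral_indicator_const _ measurableSet_ball, smul_eq_mul] at step2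
    have h6 : μ.real (ball y ε) * K ≤ C * ε ^ n * K := mul_le_mul_of_nonneg_right (hC ε hε) hK0
    have h7 : C * ε ^ n * K = (n * 2 ^ n * b ^ 2 * L * C) * ε := by
      rw [hK, div_pow]; field_simp
    linarith
  have hP : 0 < 2 * (b ^ n)⁻¹ * ∫ z, u z ∂μ := by positivity
  set P := 2 * (b ^ n)⁻¹ * ∫ z, u z ∂μ
  set A := (n * 2 ^ n * b ^ 2 * L * C : ℝ)
  have h8 := main (min b (P / (2 * (|A| + 1)))) (by positivity) (min_le_left _ _)
  have h9 : A * min b (P / (2 * (|A| + 1))) ≤ |A| * (P / (2 * (|A| + 1))) :=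
    mul_le_mul (le_abs_self _) (min_le_right _ _) (by positivity) (abs_nonneg _)
  have h10 : |A| * (P / (2 * (|A| + 1))) ≤ P / 2 := by
    rw [mul_div_assoc', div_le_div_iff₀ (by positivity) (by positivity)]
    nlinarith [abs_nonneg A]
  linarith

end Crest.Agent.N222.D
end
end

-- ▼ part N222/D/Split
section

/-!
# Row 222, part D: the Busemann function of a line (Cheeger-Gromoll) (helper55)
-/

set_option autoImplicit false
set_option linter.unusedSectionVars false

open Set Filter Topology MeasureTheory Metric Bundle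
open scoped RealInnerProductSpace ContDiff Manifold
open Crest.Agent.R247 Crest.Agent.R247.Dir593 Crest.Agent.R247.Dir593.GradS Crest.Agent.R247.Smv126
open Crest.GeometryTopology.CoordMetric Crest.GeometryTopology.ChartCurvature
  Crest.GeometryTopology.PointedLimit
open Crest.Agent.R202.Tens Crest.Agent.R247.Bo84 Crest.Agent.R273.RMan_798

noncomputable section

namespace Crest.Agent.N222.D

section Metric

variable {X : Type*} [MetricSpace X] {γ : ℝ → X}

/-- isometric lines -/
def IsLine (γ : ℝ → X) : Prop := ∀ s t, dist (γ s) (γ t) = |s - t|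

theorem IsLine.rev (h : IsLine γ) : IsLine fun s => γ (-s) := fun s t => by
  rw [h, ← abs_neg]; congr 1; ring

/-- approximate Busemann functions -/
def bs (γ : ℝ → X) (s : ℝ) (x : X) : ℝ := dist (γ s) x - s

/-- the Busemann function -/
def bus (γ : ℝ → X) (x : X) : ℝ := ⨅ s, bs γ s x

theorem IsLine.anti (h : IsLine γ) (x : X) : Antitone fun s => bs γ s x := fun s t hst => by
  have h1 := dist_triangle (γ t) (γ s) x
  rw [h, abs_of_nonneg (sub_nonneg.2 hst)] at h1
  unfold bs; linarith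

theorem IsLine.ge (h : IsLine γ) (s : ℝ) (x : X) : -dist (γ 0) x ≤ bs γ s x := by
  have h1 := dist_triangle_right (γ s) (γ 0) x
  rw [h, sub_zero] at h1
  have := le_abs_self s
  unfold bs; linarith

theorem IsLine.abs_le (h : IsLine γ) {s : ℝ} (hs : 0 ≤ s) (x : X) :
    |bs γ s x| ≤ dist (γ 0) x := by
  refine _root_.abs_le.2 ⟨h.ge s x, ?_⟩
  have := h.anti x hs
  simpa [bs] using this

theorem IsLine.bdd (h : IsLine γ) (x : X) : BddBelow (range fun s => bs γ s x) :=
  ⟨-dist (γ 0) x, by rintro _ ⟨s, rfl⟩; exact h.ge s x⟩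

theorem IsLine.tendsto (h : IsLine γ) (x : X) :
    Tendsto (fun s => bs γ s x) atTop (𝓝 (bus γ x)) := tendsto_atTop_ciInf (h.anti x) (h.bdd x)

theorem IsLine.bus_le (h : IsLine γ) (s : ℝ) (x : X) : bus γ x ≤ bs γ s x := ciInf_le (h.bdd x) s

theorem IsLine.bus_sub (h : IsLine γ) (x y : X) : |bus γ x - bus γ y| ≤ dist x y := by
  refine le_of_tendsto' ((h.tendsto x).sub (h.tendsto y)).abs fun s => ?_
  have := abs_dist_sub_le x y (γ s)
  rw [dist_comm x, dist_comm y] at this
  simpa [bs] using this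

theorem IsLine.continuous (h : IsLine γ) : Continuous (bus γ) :=
  (LipschitzWith.of_dist_le_mul (K := 1) fun x y => by
    simpa [Real.dist_eq] using h.bus_sub x y).continuous

theorem IsLine.bus_line (h : IsLine γ) (t : ℝ) : bus γ (γ t) = -t := by
  refine tendsto_nhds_unique (h.tendsto _) (tendsto_const_nhds.congr' ?_)
  filter_upwards [eventually_ge_atTop t] with s hs
  unfold bs; rw [h, abs_of_nonneg (sub_nonneg.2 hs)]; ring

theorem IsLine.sum_nonneg (h : IsLine γ) {s : ℝ} (hs : 0 ≤ s) (x : X) :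
    0 ≤ bs γ s x + bs (fun t => γ (-t)) s x := by
  have h1 := dist_triangle_right (γ s) (γ (-s)) x
  rw [h, abs_of_nonneg (by linarith)] at h1
  unfold bs; linarith

theorem continuous_bs (γ : ℝ → X) (s : ℝ) : Continuous (bs γ s) := by unfold bs; fun_prop

theorem locLip_bs (γ : ℝ → X) (s : ℝ) : LocallyLipschitz (bs γ s) :=
  (LipschitzWith.dist_right (γ s)).locallyLipschitz.sub (LocallyLipschitz.const s)

variable [ProperSpace X]

theorem IsLine.unif (h : IsLine γ) (y : X) (b : ℝ) {δ : ℝ} (hδ : 0 < δ) :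
    ∀ᶠ s in atTop, ∀ z ∈ closedBall y b, |bs γ s z - bus γ z| ≤ δ := by
  have h1 := Antitone.tendstoUniformlyOn_of_forall_tendsto (F := bs γ) (isCompact_closedBall y b)
    (fun s => (continuous_bs γ s).continuousOn) (fun x _ => h.anti x) h.continuous.continuousOn
    fun x _ => h.tendsto x
  filter_upwards [Metric.tendstoUniformlyOn_iff.1 h1 δ hδ] with s hs z hz
  have := hs z hz
  rw [dist_comm, Real.dist_eq] at this
  exact this.le

/-- asymptotic points -/
theorem IsLine.asym (h : IsLine γ) (hm : Sm879.ExM X) (x : X) {r : ℝ} (hr : 0 ≤ r) :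
    ∃ z, dist z x = r ∧ bus γ z ≤ bus γ x - r := by
  have key : ∀ᶠ s in atTop, ∃ z ∈ sphere x r, bus γ z ≤ bs γ s x - r := by
    filter_upwards [eventually_ge_atTop (r + dist (γ 0) x)] with s hs
    have h1 := h.ge s x
    have h2 : r ≤ dist x (γ s) := by rw [dist_comm]; unfold bs at h1; linarith
    obtain ⟨c, hc1, hc2⟩ := hm.pt x (γ s) hr h2
    refine ⟨c, by rw [mem_sphere, dist_comm, hc1], (h.bus_le s c).trans (le_of_eq ?_)⟩
    unfold bs; rw [dist_comm, hc2, dist_comm]; ring
  obtain ⟨s₀, z₀, hz₀, -⟩ := key.exists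
  obtain ⟨z, hz, hmin⟩ := (isCompact_sphere x r).exists_isMinOn ⟨z₀, hz₀⟩ h.continuous.continuousOn
  refine ⟨z, hz, ge_of_tendsto ((h.tendsto x).sub_const r) ?_⟩
  filter_upwards [key] with s ⟨w, hw, hws⟩
  exact (hmin hw).trans hws

variable [MeasurableSpace X] {F : Type*}
  [NormedAddCommGroup F] [InnerProductSpace ℝ F] {μ : Measure X} [BorelSpace X]
  [IsFiniteMeasureOnCompacts μ] {S : GradS X F μ} {n : ℕ}

theorem IsLine.weak (h : IsLine γ) (W : WLap S n 0) (y : X) (b : ℝ) {δ : ℝ} (hδ : 0 < δ) :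
    ∀ᶠ s in atTop, ∀ φ : X → ℝ, IsT φ → (∀ z, 0 ≤ φ z) → tsupport φ ⊆ closedBall y b →
      -(δ * ∫ z, φ z ∂μ) ≤ ∫ z, ⟪S.G (bs γ s) z, S.G φ z⟫ ∂μ := by
  filter_upwards [eventually_ge_atTop (n / δ + 1 + dist (γ 0) y + b)] with s hs φ hφ h0 hs'
  have hρ : 0 < n / δ + 1 := by positivity
  have h1 := far W (γ s) hφ h0 hρ fun z hz => by
    have h2 := h.ge s z
    have h3 := dist_triangle_right (γ 0) z y
    have h4 : dist z y ≤ b := hs' hz
    have h5 := dist_triangle (γ 0) y z
    rw [dist_comm y z] at h5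
    unfold bs at h2; linarith
  have h2 : ∫ z, ⟪S.G (bs γ s) z, S.G φ z⟫ ∂μ = ∫ z, ⟪S.G (dist (γ s)) z, S.G φ z⟫ ∂μ := by
    refine integral_congr_ae ?_
    filter_upwards [S.sub (locLip_dist (γ s)) (LocallyLipschitz.const s), S.const s] with z e1 e2
    change ⟪S.G (fun y => dist (γ s) y - s) z, _⟫ = _
    rw [e1, e2, sub_zero]
  rw [h2]
  refine le_trans (neg_le_neg (mul_le_mul_of_nonneg_right ?_ (integral_nonneg h0))) h1
  rw [div_le_iff₀ hρ]
  have : δ * (n / δ) = n := by field_simp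
  nlinarith

/-- the two Busemann functions of a line are opposite -/
theorem IsLine.bus_add [μ.IsOpenPosMeasure] (h : IsLine γ) (W : WLap S n 0) {C : ℝ}
    (hC : ∀ ε : ℝ, 0 < ε → μ.real (ball (γ 0) ε) ≤ C * ε ^ n) (x : X) :
    bus γ x + bus (fun t => γ (-t)) x = 0 := by
  refine min_principle (h := fun x => bus γ x + bus (fun t => γ (-t)) x) (L := 2) W (γ 0)
    (h.continuous.add h.rev.continuous) (fun z => ?_) (fun z => ?_) hC (fun b δ hδ => ?_) x
  · refine ge_of_tendsto ((h.tendsto z).add (h.rev.tendsto z)) ?_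
    filter_upwards [eventually_ge_atTop 0] with s hs using h.sum_nonneg hs z
  · have h1 := h.bus_le 0 z
    have h2 := h.rev.bus_le 0 z
    simp only [bs, neg_zero, sub_zero] at h1 h2
    linarith
  · have hδ2 : 0 < δ / 2 := by positivity
    obtain ⟨s, hs0, hs1, hs2, hs3, hs4⟩ := ((eventually_ge_atTop 0).and
      ((h.unif (γ 0) b hδ2).and ((h.rev.unif (γ 0) b hδ2).and
      ((h.weak W (γ 0) b hδ2).and (h.rev.weak W (γ 0) b hδ2))))).exists
    refine ⟨fun z => bs γ s z + bs (fun t => γ (-t)) s z, (locLip_bs _ s).add (locLip_bs _ s),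
      h.sum_nonneg hs0, fun z hz => ?_, fun φ hφ h0 hs => ?_⟩
    · have h1 := _root_.abs_le.1 (hs1 z hz)
      have h2 := _root_.abs_le.1 (hs2 z hz)
      exact _root_.abs_le.2 ⟨by linarith, by linarith⟩
    · have h1 := hs3 φ hφ h0 hs
      have h2 := hs4 φ hφ h0 hs
      have h3 : ∫ z, ⟪S.G (fun z => bs γ s z + bs (fun t => γ (-t)) s z) z, S.G φ z⟫ ∂μ =
          ∫ z, ⟪S.G (bs γ s) z, S.G φ z⟫ ∂μ +
            ∫ z, ⟪S.G (bs (fun t => γ (-t)) s) z, S.G φ z⟫ ∂μ := by
        rw [← integral_add (int_GG (locLip_bs _ s) hφ) (int_GG (locLip_bs _ s) hφ)]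
        refine integral_congr_ae ?_
        filter_upwards [S.add (locLip_bs γ s) (locLip_bs (fun t => γ (-t)) s)] with z e1
        rw [e1, inner_add_left]
      rw [h3]; linarith

end Metric

section Mfd

variable {n : ℕ} {M : Type} [MetricSpace M] [ChartedSpace (EE n) M] [IsManifold (𝓡 n) ∞ M]
  [RiemannianBundle (fun x : M => TangentSpace (𝓡 n) x)]
  [IsContMDiffRiemannianBundle (𝓡 n) ∞ (EE n) (fun x : M => TangentSpace (𝓡 n) x)]
  [IsRiemannianManifold (𝓡 n) M] [MeasurableSpace M] [BorelSpace M]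
  [SecondCountableTopology M] [Nonempty M]

theorem mLap_off {φ : M → ℝ} {z : M} (hz : z ∉ tsupport φ) : mLap n φ z = 0 := by
  have hev : φ =ᶠ[𝓝 z] fun _ => 0 := by
    filter_upwards [(isClosed_tsupport φ).isOpen_compl.mem_nhds hz] with y hy
    exact image_eq_zero_of_notMem_tsupport hy
  rw [mLap_congr hev, mLap_const]

theorem Sm.locLip {φ : M → ℝ} (hφ : Sm n M φ) : LocallyLipschitz φ :=
  (Ms322.LLo.of_contMDiffAt (n := n) (U := univ) fun z _ => (hφ z).of_le (by simp)).loc

/-- integration by parts against a smooth test function -/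
theorem ibp_test {f φ : M → ℝ} (hf : LocallyLipschitz f) (hφ : Sm n M φ)
    (hc : HasCompactSupport φ) :
    ∫ z, ⟪Ms322.Gr (n := n) f z, Ms322.Gr (n := n) φ z⟫ ∂(Measure.euclideanHausdorffMeasure n) =
      -∫ z, f z * mLap n φ z ∂(Measure.euclideanHausdorffMeasure n) := by
  have := Ms322.locallyCompactSpace n M
  obtain ⟨χ, ⟨L, hL⟩, hχc, -, ⟨V, hVo, hKV, hV1⟩, -⟩ :=
    Ms322.exists_lip_cutoff hc.isCompact isOpen_univ (subset_univ _)
  have h1 := Ms322.ibp_mLap (n := n) isOpen_univ (f := φ) (φ := fun z => χ z * f z)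
    (fun z _ => (hφ z).of_le two_le_infty) (locLip_mul hL.locallyLipschitz hf) hχc.mul_right
    (subset_univ _)
  convert h1 using 3 with z z
  · by_cases hz : z ∈ tsupport φ
    · rw [real_inner_comm]
      congr 1
      refine Ms322.Gr_congr ?_
      filter_upwards [hVo.mem_nhds (hKV hz)] with y hy
      rw [hV1 y hy, one_mul]
    · rw [Ms322.Gr_zero_off hz, inner_zero_left, inner_zero_right]
  · funext z
    by_cases hz : z ∈ tsupport φ
    · rw [hV1 z (hKV hz), one_mul]
    · rw [mLap_off hz, mul_zero, mul_zero]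

theorem int_mLap {f φ : M → ℝ} (hf : Continuous f) (hφ : Sm n M φ) (hc : HasCompactSupport φ) :
    Integrable (fun z => f z * mLap n φ z) (Measure.euclideanHausdorffMeasure n) := by
  have := Ms322.isLocallyFiniteMeasure n M
  have h1 : Continuous (mLap n φ) := continuousOn_univ.1
    (Ms322.continuousOn_mLap fun z _ => (hφ z).of_le two_le_infty)
  refine (hf.mul h1).integrable_of_hasCompactSupport (HasCompactSupport.mul_left ?_)
  exact HasCompactSupport.intro hc.isCompact fun z hz => mLap_off hz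

variable [ProperSpace M]

/-- the Busemann function is weakly superharmonic -/
theorem IsLine.super {γ : ℝ → M} (h : IsLine γ) (W : WLap (Ms322.gradS n M) n 0) {φ : M → ℝ}
    (hφ : Sm n M φ) (hc : HasCompactSupport φ) (h0 : ∀ x, 0 ≤ φ x) :
    ∫ z, bus γ z * mLap n φ z ∂(Measure.euclideanHausdorffMeasure n) ≤ 0 := by
  have := Ms322.isLocallyFiniteMeasure n M
  have hlim : Tendsto (fun s => ∫ z, bs γ s z * mLap n φ z ∂(Measure.euclideanHausdorffMeasure n))
      atTop (𝓝 (∫ z, bus γ z * mLap n φ z ∂(Measure.euclideanHausdorffMeasure n))) := by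
    refine tendsto_integral_filter_of_dominated_convergence
      (fun z => ‖dist (γ 0) z * mLap n φ z‖) (Eventually.of_forall fun s =>
        (int_mLap (continuous_bs γ s) hφ hc).1) ?_
      (int_mLap (f := dist (γ 0)) (by fun_prop) hφ hc).norm
      (Eventually.of_forall fun z => (h.tendsto z).mul_const _)
    filter_upwards [eventually_ge_atTop 0] with s hs
    refine Eventually.of_forall fun z => ?_
    rw [norm_mul, norm_mul]
    refine mul_le_mul_of_nonneg_right ?_ (norm_nonneg _)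
    rw [Real.norm_eq_abs, Real.norm_eq_abs, abs_of_nonneg dist_nonneg]
    exact h.abs_le hs z
  obtain ⟨b, hb⟩ := hc.isCompact.isBounded.subset_closedBall (γ 0)
  set I := ∫ z, φ z ∂(Measure.euclideanHausdorffMeasure n : Measure M)
  have hI : 0 ≤ I := integral_nonneg h0
  refine le_of_forall_pos_le_add fun ε hε => le_of_tendsto hlim ?_
  have hδ : 0 < ε / (I + 1) := by positivity
  filter_upwards [h.weak W (γ 0) b hδ] with s hs
  have h1 := hs φ ⟨hφ.locLip, hc⟩ h0 hb
  rw [Ms322.gradS_G, ibp_test (locLip_bs γ s) hφ hc] at h1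
  have h2 : ε / (I + 1) * I ≤ ε := by
    rw [div_mul_eq_mul_div, div_le_iff₀ (by positivity)]; nlinarith
  linarith

end Mfd

/-- **Cheeger-Gromoll** -/
theorem split (hW : WeylStmt) : SplitStmt := by
  intro n M _ _ _ _ _ _ _ _ hric γ hγ
  rcases Nat.eq_zero_or_pos n with hn | hn
  · subst hn
    have := Bgr546.subsingleton_of_zero M
    have h1 := hγ 1 0
    rw [Subsingleton.elim (γ 1) (γ 0), dist_self] at h1
    norm_num at h1
  borelize M
  have := HR216.properSpace_of_riemannian n M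
  have := Ms322.isLocallyFiniteMeasure n M
  have := Ms322.isOpenPosMeasure n M
  obtain ⟨C⟩ := Bgr546.rad_all n 0 le_rfl M (by rwa [neg_zero])
  have W := Rdg879.wlap_block C hn le_rfl
  have h : IsLine γ := hγ
  have hadd := h.bus_add W (C := (volume (ball (0 : EE n) 1)).toReal) fun ε hε => by
    have h1 := Iso311.bishop C le_rfl (γ 0) ε
    have h2 := ENNReal.toReal_mono (ENNReal.mul_ne_top ENNReal.ofReal_ne_top
      measure_ball_lt_top.ne) h1
    rw [ENNReal.toReal_mul, ENNReal.toReal_ofReal (by positivity)] at h2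
    simpa [Measure.real, mul_comm] using h2
  set b : M → ℝ := bus fun t => γ (-t) with hb
  have hb' : ∀ x, bus γ x = -b x := fun x => by linarith [hadd x]
  obtain ⟨hs, hl⟩ := hW n M b h.rev.continuous fun φ hφ hc h0 => by
    have h1 := h.super W hφ hc h0
    simp only [hb', neg_mul, integral_neg] at h1
    linarith [h.rev.super W hφ hc h0]
  have hg : mGam n b b = fun _ => 1 := by
    funext p
    have hd : MDifferentiableAt (𝓡 n) 𝓘(ℝ) b p := (hs p).mdifferentiableAt (by simp)
    have h1 : ‖Ms322.Gr (n := n) b p‖ ≤ 1 := Ar659.norm_Gr_le_pt zero_le_one hd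
      (Eventually.of_forall fun y => by rw [one_mul]; exact h.rev.bus_sub y p)
    have h2 : 1 ≤ ‖Ms322.Gr (n := n) b p‖ := by
      refine le_of_forall_pos_le_add fun ε hε => ?_
      obtain ⟨r, hr, h3⟩ := Metric.eventually_nhds_iff.1 (Ar659.ev_le hd hε)
      obtain ⟨z, hz, hz'⟩ := h.rev.asym (Rdg879.exM_block n M) p (half_pos hr).le
      have h4 := h3 (y := z) (by rw [hz]; linarith)
      rw [hz] at h4
      have h5 := neg_abs_le (b z - b p)
      by_contra h6
      push Not at h6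
      nlinarith
    rw [← Ms322.norm_Gr_sq_eq_mGam, le_antisymm h1 h2, one_pow]
  refine ⟨b, hs, fun p => le_antisymm ?_ (mHessSq_nonneg ((hs p).of_le two_le_infty)), fun t => ?_⟩
  · have h1 := mBochner_ineq hric ((hs p).of_le three_le_infty)
    rw [hg, show mLap n b = fun _ => 0 from funext hl, mLap_const, mGam_const_right] at h1
    linarith
  · have := h.rev.bus_line (-t)
    simpa using this

end Crest.Agent.N222.D
end
end

-- ▼ part N222/D/Pert1
section

/-!
# Row 222, part D1, file 1: the perturbed metric `g + s h` in coordinates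
-/

set_option autoImplicit false

open Set Filter Topology
open scoped ContDiff
open Crest.GeometryTopology.CoordMetric Crest.GeometryTopology.ChartCurvature
open Crest.Agent.R202.Tens Crest.Agent.R247.Bo84 Crest.Agent.R273.RMan_798

noncomputable section

namespace Crest.Agent.N222.D.Pt

variable {n : ℕ} {g h : MetricField n} {U : Set (EE n)} {y : EE n}

/-- divergence of the drift `∑ φ_k dψ_k` -/
def cdv {ι : Type} [Fintype ι] (g : MetricField n) (φ ψ : ι → EE n → ℝ) (x : EE n) : ℝ :=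
  ∑ k, (gam g (φ k) (ψ k) x + φ k x * laplaceBeltrami g (ψ k) x)

theorem lap_coord (hg : IsRiemannianOn g U) (hy : y ∈ U) {f : EE n → ℝ} (hf : ContDiffAt ℝ 2 f y) :
    laplaceBeltrami g f y = ∑ i, ∑ j, inverseField g y i j *
      (pderiv i (pderiv j f) y - ∑ k, christoffel g y k i j * pderiv k f y) := by
  obtain ⟨ξ, hξ⟩ := exists_frame hg hy
  have hd : DifferentiableAt ℝ (fderiv ℝ f) y :=
    (hf.fderiv_right (m := 1) (by norm_num)).differentiableAt (by norm_num)
  have he : ∀ i j, hess g f y (EuclideanSpace.single i 1) (EuclideanSpace.single j 1) =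
      pderiv i (pderiv j f) y - ∑ k, christoffel g y k i j * pderiv k f y := by
    intro i j
    rw [hess_apply, fderiv_eq_sum]
    congr 1
    · change _ = fderiv ℝ (fun z => fderiv ℝ f z (EuclideanSpace.single j 1)) y _
      rw [fderiv_clm_apply hd (differentiableAt_const _)]
      simp
    · refine Finset.sum_congr rfl fun k _ => ?_
      rw [Gam_apply]
      simp [PiLp.single_apply]
  have hx : ∀ X Y : EE n, hess g f y X Y = ∑ i, ∑ j, X i * Y j *
      hess g f y (EuclideanSpace.single i 1) (EuclideanSpace.single j 1) := by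
    intro X Y
    conv_lhs => rw [eq_sum_single X, eq_sum_single Y]
    simp only [map_sum, sum_apply, map_smul, smul_apply, smul_eq_mul, Finset.mul_sum]
    rw [Finset.sum_comm]
    exact Finset.sum_congr rfl fun i _ => Finset.sum_congr rfl fun j _ => by ring
  rw [lap_frame hg hy hf hξ]
  simp only [hx (ξ _), he, inverseField, hξ.inv, Finset.sum_mul]
  rw [Finset.sum_comm]
  exact Finset.sum_congr rfl fun i _ => Finset.sum_comm

theorem divg_sum {ι : Type} (hg : IsRiemannianOn g U) (hy : y ∈ U) (t : Finset ι)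
    {V : ι → EE n → EE n} (hV : ∀ k, DifferentiableAt ℝ (V k) y) :
    divg g (fun z => ∑ k ∈ t, V k z) y = ∑ k ∈ t, divg g (V k) y := by
  classical
  induction t using Finset.induction_on with
  | empty => simp [divg, pderiv]
  | insert a t ha ih =>
    simp only [Finset.sum_insert ha]
    rw [divg_add hg hy (hV a) (DifferentiableAt.fun_sum fun k _ => hV k), ih]

theorem pderiv_coord (i k : Fin n) (z : EE n) :
    pderiv i (fun w : EE n => w k) z = if k = i then 1 else 0 := by
  have : (fun w : EE n => w k) = (EuclideanSpace.proj k : EE n →L[ℝ] ℝ) := rfl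
  rw [pderiv, this, ContinuousLinearMap.fderiv]
  simp [PiLp.single_apply]

theorem contDiff_coord (k : Fin n) : ContDiff ℝ ∞ (fun w : EE n => w k) :=
  (EuclideanSpace.proj k : EE n →L[ℝ] ℝ).contDiff

/-- a vector field as the drift `∑ V_k dx^k` -/
theorem cdv_lower (hg : IsRiemannianOn g U) (hy : y ∈ U) {V : EE n → EE n}
    (hV : ∀ l, DifferentiableAt ℝ (fun z => V z l) y) :
    cdv g (fun k z => ∑ l, g z k l * V z l) (fun k z => z k) y = divg g V y := by
  have hd : ∀ k, DifferentiableAt ℝ (fun z => ∑ l, g z k l * V z l) y := fun k =>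
    DifferentiableAt.fun_sum fun l _ => (differentiableAt_entry hg hy k l).mul (hV l)
  have hgr : ∀ k, DifferentiableAt ℝ (grad g fun w : EE n => w k) y := fun k =>
    differentiableAt_grad hg hy ((contDiff_coord k).contDiffAt.of_le two_le_infty)
  have e : V =ᶠ[𝓝 y] fun z => ∑ k, (∑ l, g z k l * V z l) • grad g (fun w : EE n => w k) z := by
    filter_upwards [hg.isOpen.mem_nhds hy] with z hz
    ext i
    simp only [WithLp.ofLp_sum, Finset.sum_apply, PiLp.smul_apply, smul_eq_mul, grad_apply,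
      pderiv_coord, mul_ite, mul_one, mul_zero, Finset.sum_ite_eq, Finset.mem_univ, if_true,
      Finset.sum_mul]
    rw [Finset.sum_comm]
    have : ∀ l, ∑ k, g z k l * V z l * inverseField g z i k = if l = i then V z l else 0 := by
      intro l
      have h1 := mul_inv_apply hg hz l i
      have h2 : ∑ k, g z k l * V z l * inverseField g z i k =
          V z l * ∑ k, g z l k * inverseField g z k i := by
        rw [Finset.mul_sum]
        refine Finset.sum_congr rfl fun k _ => ?_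
        rw [metric_symm hg hz k l, inv_symm hg hz i k]; ring
      rw [h2, h1]; split_ifs <;> simp
    simp [this]
  rw [divg_congr e, divg_sum (V := fun k z => (∑ l, g z k l * V z l) •
    grad g (fun w : EE n => w k) z) hg hy Finset.univ fun k => (hd k).smul (hgr k), cdv]
  refine Finset.sum_congr rfl fun k _ => ?_
  rw [divg_smul hg hy (hd k) (hgr k), divg_grad, gam_eq_fderiv_grad, add_comm]

/-- the perturbed metric -/
def gs (g h : MetricField n) (s : ℝ) : MetricField n := fun y => g y + s • h y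

theorem gs_apply (s : ℝ) (z : EE n) (i j : Fin n) : gs g h s z i j = g z i j + s * h z i j := rfl

theorem gs_zero : gs g h 0 = g := by funext z; simp [gs]

/-- data of the perturbation -/
structure Dat (g h : MetricField n) (U : Set (EE n)) : Prop where
  riem : IsRiemannianOn g U
  sm : ∀ i j, ContDiffOn ℝ ∞ (fun z => h z i j) U
  psd : ∀ z ∈ U, (h z).PosSemidef

theorem Dat.gs_riem (D : Dat g h U) {s : ℝ} (hs : 0 ≤ s) : IsRiemannianOn (gs g h s) U :=
  ⟨D.riem.isOpen, fun i j => (D.riem.contDiffOn i j).add (contDiffOn_const.mul (D.sm i j)),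
    fun z hz => (D.riem.posDef z hz).add_posSemidef ((D.psd z hz).smul hs)⟩

/-- `I_s h I` -/
def mid (g h : MetricField n) (s : ℝ) (y : EE n) (i j : Fin n) : ℝ :=
  ∑ a, ∑ b, inverseField (gs g h s) y i a * h y a b * inverseField g y b j

theorem Dat.inv_gs (D : Dat g h U) {s : ℝ} (hs : 0 ≤ s) (hy : y ∈ U) (i j : Fin n) :
    inverseField (gs g h s) y i j = inverseField g y i j - s * mid g h s y i j := by
  have h1 := Matrix.nonsing_inv_mul (gs g h s y) (det_pos (D.gs_riem hs) hy).ne'.isUnit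
  have h2 := Matrix.mul_nonsing_inv (g y) (det_pos D.riem hy).ne'.isUnit
  have h3 : (gs g h s y)⁻¹ = (g y)⁻¹ - s • ((gs g h s y)⁻¹ * h y * (g y)⁻¹) := by
    have : (gs g h s y)⁻¹ * gs g h s y * (g y)⁻¹ =
        (gs g h s y)⁻¹ * (g y * (g y)⁻¹) + s • ((gs g h s y)⁻¹ * h y * (g y)⁻¹) := by
      conv_lhs => arg 1; arg 2; rw [gs]
      simp only [Matrix.mul_add, Matrix.add_mul, Matrix.mul_smul, Matrix.smul_mul, Matrix.mul_assoc]
    rw [h1, h2, Matrix.one_mul, Matrix.mul_one] at this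
    exact eq_sub_of_add_eq this.symm
  have h4 := congrFun (congrFun h3 i) j
  simp only [Matrix.sub_apply, Matrix.smul_apply, smul_eq_mul, Matrix.mul_apply,
    Finset.sum_mul] at h4
  rw [Finset.sum_comm] at h4
  exact h4

/-- twice the Christoffel symbols of the first kind -/
def lw (g : MetricField n) (y : EE n) (i j l : Fin n) : ℝ :=
  pderiv i (fun z => g z j l) y + pderiv j (fun z => g z i l) y - pderiv l (fun z => g z i j) y

theorem Dat.lw_gs (D : Dat g h U) (s : ℝ) (hy : y ∈ U) (i j l : Fin n) :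
    lw (gs g h s) y i j l = lw g y i j l + s * lw h y i j l := by
  have : ∀ k a b, pderiv k (fun z => gs g h s z a b) y =
      pderiv k (fun z => g z a b) y + s * pderiv k (fun z => h z a b) y := by
    intro k a b
    have h1 := differentiableAt_entry D.riem hy a b
    have h2 : DifferentiableAt ℝ (fun z => h z a b) y :=
      ((D.sm a b).contDiffAt (D.riem.isOpen.mem_nhds hy)).differentiableAt (by simp)
    simp only [gs_apply, pderiv]
    rw [fderiv_fun_add h1 (h2.const_mul s), fderiv_const_mul h2]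
    rfl
  simp only [lw, this]; ring

/-- `dG = s T` -/
def TT (g h : MetricField n) (s : ℝ) (y : EE n) (k i j : Fin n) : ℝ :=
  (1 / 2) * ∑ l, (inverseField (gs g h s) y k l * lw h y i j l - mid g h s y k l * lw g y i j l)

theorem Dat.dG_gs (D : Dat g h U) {s : ℝ} (hs : 0 ≤ s) (hy : y ∈ U) (k i j : Fin n) :
    dG g (gs g h s) y k i j = s * TT g h s y k i j := by
  change (1 / 2) * ∑ l, inverseField (gs g h s) y k l * lw (gs g h s) y i j l -
    (1 / 2) * ∑ l, inverseField g y k l * lw g y i j l = _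
  rw [TT, ← mul_sub, ← Finset.sum_sub_distrib, mul_left_comm, Finset.mul_sum _ _ s]
  congr 1
  refine Finset.sum_congr rfl fun l _ => ?_
  rw [D.lw_gs s hy, mul_add, D.inv_gs hs hy k l]
  ring

/-- `palV = s W` -/
def WW (g h : MetricField n) (s : ℝ) (y : EE n) (k : Fin n) : ℝ :=
  ∑ i, ∑ j, inverseField (gs g h s) y i j * TT g h s y k i j
    - ∑ i, inverseField (gs g h s) y i k * ∑ l, TT g h s y l l i

theorem Dat.palV_gs (D : Dat g h U) {s : ℝ} (hs : 0 ≤ s) (hy : y ∈ U) (k : Fin n) :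
    palV g (gs g h s) y k = s * WW g h s y k := by
  simp only [palV, WW, D.dG_gs hs hy, mul_sub, Finset.mul_sum]
  congr 1 <;> exact Finset.sum_congr rfl fun i _ => Finset.sum_congr rfl fun j _ => by ring

/-- `palQ = s² Q` -/
def QQ (g h : MetricField n) (s : ℝ) (y : EE n) : ℝ :=
  ∑ i, ∑ j, inverseField (gs g h s) y i j * (∑ k, ∑ l, TT g h s y k j l * TT g h s y l k i
    - ∑ k, ∑ l, TT g h s y k k l * TT g h s y l i j)

theorem Dat.palQ_gs (D : Dat g h U) {s : ℝ} (hs : 0 ≤ s) (hy : y ∈ U) :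
    palQ g (gs g h s) y = s * (s * QQ g h s y) := by
  simp only [palQ, QQ, D.dG_gs hs hy, mul_sub, Finset.mul_sum]
  refine Finset.sum_congr rfl fun i _ => Finset.sum_congr rfl fun j _ => ?_
  congr 1 <;> exact Finset.sum_congr rfl fun k _ => Finset.sum_congr rfl fun l _ => by ring

theorem contDiffOn_palV {g' : MetricField n} (hg : IsRiemannianOn g U) (hg' : IsRiemannianOn g' U)
    (k : Fin n) : ContDiffOn ℝ ∞ (fun z => palV g g' z k) U := by
  have hd : ∀ k i j, ContDiffOn ℝ ∞ (fun z => dG g g' z k i j) U := fun k i j =>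
    (contDiffOn_christoffel hg' k i j).sub (contDiffOn_christoffel hg k i j)
  exact (ContDiffOn.sum fun i _ => ContDiffOn.sum fun j _ =>
    (contDiffOn_inv_entry hg' i j).mul (hd k i j)).sub (ContDiffOn.sum fun i _ =>
      (contDiffOn_inv_entry hg' i k).mul (ContDiffOn.sum fun l _ => hd l l i))

theorem palV_eq_zero {g' : MetricField n} (e : g' =ᶠ[𝓝 y] g) (k : Fin n) : palV g g' y k = 0 := by
  simp [palV, dG, christoffel_congr e]

/-! ### joint continuity -/

/-- jointly continuous on `[0,∞) × U` -/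
def JC (U : Set (EE n)) (F : ℝ → EE n → ℝ) : Prop :=
  ContinuousOn (fun z : ℝ × EE n => F z.1 z.2) (Ici 0 ×ˢ U)

theorem JC.of {f : EE n → ℝ} (hf : ContinuousOn f U) : JC U fun _ y => f y :=
  hf.comp continuousOn_snd fun _ hz => hz.2

theorem JC.const (c : ℝ) : JC U fun _ _ => c := continuousOn_const
theorem JC.fst : JC U fun s _ => s := continuousOn_fst
theorem JC.add {F G : ℝ → EE n → ℝ} (hF : JC U F) (hG : JC U G) : JC U fun s y => F s y + G s y :=
  ContinuousOn.add hF hG
theorem JC.sub {F G : ℝ → EE n → ℝ} (hF : JC U F) (hG : JC U G) : JC U fun s y => F s y - G s y :=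
  ContinuousOn.sub hF hG
theorem JC.mul {F G : ℝ → EE n → ℝ} (hF : JC U F) (hG : JC U G) : JC U fun s y => F s y * G s y :=
  ContinuousOn.mul hF hG
theorem JC.sum {ι : Type} [Fintype ι] {F : ι → ℝ → EE n → ℝ} (hF : ∀ k, JC U (F k)) :
    JC U fun s y => ∑ k, F k s y := continuousOn_finsetSum _ fun k _ => hF k
theorem JC.congr {F G : ℝ → EE n → ℝ} (hF : JC U F) (e : ∀ s, 0 ≤ s → ∀ y ∈ U, G s y = F s y) :
    JC U G := ContinuousOn.congr hF fun z hz => e z.1 hz.1 z.2 hz.2

theorem JC.eventually_pos {F : ℝ → EE n → ℝ} (hF : JC U F) (hU : IsOpen U) {K : Set (EE n)}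
    (hK : IsCompact K) (hKU : K ⊆ U) (h0 : ∀ y ∈ K, 0 < F 0 y) :
    ∀ᶠ s in 𝓝[>] (0 : ℝ), ∀ y ∈ K, 0 < F s y := by
  have h1 : ∀ᶠ s in 𝓝 (0 : ℝ), ∀ y ∈ K, 0 < F (max s 0) y := by
    refine hK.eventually_forall_of_forall_eventually (P := fun s y => 0 < F (max s 0) y)
      fun y hy => ?_
    have hc : ContinuousOn (fun z : ℝ × EE n => F (max z.1 0) z.2) (univ ×ˢ U) :=
      ContinuousOn.comp (f := fun z : ℝ × EE n => (max z.1 0, z.2)) hF (by fun_prop)
        fun z hz => ⟨mem_Ici.2 (le_max_right _ _), hz.2⟩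
    have := hc.continuousAt ((isOpen_univ.prod hU).mem_nhds (⟨mem_univ 0, hKU hy⟩ :
      ((0 : ℝ), y) ∈ univ ×ˢ U))
    exact this.eventually (lt_mem_nhds (by simpa using h0 y hy))
  filter_upwards [nhdsWithin_le_nhds h1, self_mem_nhdsWithin] with s hs hs0 y hy
  have := hs y hy
  rwa [max_eq_left (le_of_lt hs0)] at this

theorem Dat.jc_gs (D : Dat g h U) (i j : Fin n) : JC U fun s y => gs g h s y i j :=
  (JC.of (D.riem.contDiffOn i j).continuousOn).add (JC.fst.mul (JC.of (D.sm i j).continuousOn))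

theorem Dat.jc_inv (D : Dat g h U) (i j : Fin n) :
    JC U fun s y => inverseField (gs g h s) y i j := by
  have hc : ContinuousOn (fun z : ℝ × EE n => gs g h z.1 z.2) (Ici 0 ×ˢ U) :=
    continuousOn_pi.2 fun a => continuousOn_pi.2 fun b => D.jc_gs a b
  have h1 : ContinuousOn (fun z : ℝ × EE n => (gs g h z.1 z.2).det) (Ici 0 ×ˢ U) :=
    (continuous_id.matrix_det).comp_continuousOn hc
  have h2 : ContinuousOn (fun z : ℝ × EE n => (gs g h z.1 z.2).adjugate i j) (Ici 0 ×ˢ U) :=
    ((continuous_id.matrix_adjugate).matrix_elem i j).comp_continuousOn hc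
  refine ((h1.inv₀ fun z hz => (det_pos (D.gs_riem hz.1) hz.2).ne').mul h2).congr fun z _ => ?_
  simp [inverseField, Matrix.inv_def]

theorem Dat.jc_mid (D : Dat g h U) (i j : Fin n) : JC U fun s y => mid g h s y i j :=
  JC.sum fun a => JC.sum fun b => ((D.jc_inv i a).mul (JC.of (D.sm a b).continuousOn)).mul
    (JC.of (contDiffOn_inv_entry D.riem b j).continuousOn)

theorem jc_lw (hU : IsOpen U) (hh : ∀ i j, ContDiffOn ℝ ∞ (fun z => h z i j) U) (i j l : Fin n) :
    JC U fun _ y => lw h y i j l :=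
  JC.of (((contDiffOn_pderiv hU (hh j l) i).add (contDiffOn_pderiv hU (hh i l) j)).sub
    (contDiffOn_pderiv hU (hh i j) l)).continuousOn

theorem Dat.jc_TT (D : Dat g h U) (k i j : Fin n) : JC U fun s y => TT g h s y k i j :=
  (JC.const _).mul (JC.sum fun l => ((D.jc_inv k l).mul (jc_lw D.riem.isOpen D.sm i j l)).sub
    ((D.jc_mid k l).mul (jc_lw D.riem.isOpen D.riem.contDiffOn i j l)))

theorem Dat.jc_WW (D : Dat g h U) (k : Fin n) : JC U fun s y => WW g h s y k :=
  (JC.sum fun i => JC.sum fun j => (D.jc_inv i j).mul (D.jc_TT k i j)).sub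
    (JC.sum fun i => (D.jc_inv i k).mul (JC.sum fun l => D.jc_TT l l i))

theorem Dat.jc_QQ (D : Dat g h U) : JC U fun s y => QQ g h s y :=
  JC.sum fun i => JC.sum fun j => (D.jc_inv i j).mul
    ((JC.sum fun k => JC.sum fun l => (D.jc_TT k j l).mul (D.jc_TT l k i)).sub
      (JC.sum fun k => JC.sum fun l => (D.jc_TT k k l).mul (D.jc_TT l i j)))

theorem Dat.jc_gam (D : Dat g h U) {a b : EE n → ℝ} (ha : ContDiffOn ℝ ∞ a U)
    (hb : ContDiffOn ℝ ∞ b U) : JC U fun s y => gam (gs g h s) a b y :=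
  JC.sum fun i => JC.sum fun j => ((D.jc_inv i j).mul
    (JC.of (contDiffOn_pderiv D.riem.isOpen ha i).continuousOn)).mul
      (JC.of (contDiffOn_pderiv D.riem.isOpen hb j).continuousOn)

theorem Dat.jc_lap (D : Dat g h U) {a : EE n → ℝ} (ha : ContDiffOn ℝ ∞ a U) :
    JC U fun s y => laplaceBeltrami (gs g h s) a y := by
  have hU := D.riem.isOpen
  have hc : ∀ k i j, JC U fun s y => christoffel (gs g h s) y k i j := fun k i j =>
    ((JC.of (contDiffOn_christoffel D.riem k i j).continuousOn).add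
      (JC.fst.mul (D.jc_TT k i j))).congr fun s hs y hy => by
        rw [← D.dG_gs hs hy, dG]; ring
  refine (JC.sum fun i => JC.sum fun j => (D.jc_inv i j).mul
    ((JC.of (contDiffOn_pderiv hU (contDiffOn_pderiv hU ha j) i).continuousOn).sub
      (JC.sum fun k => (hc k i j).mul
        (JC.of (contDiffOn_pderiv hU ha k).continuousOn)))).congr fun s hs y hy => ?_
  exact lap_coord (D.gs_riem hs) hy ((ha.contDiffAt (hU.mem_nhds hy)).of_le two_le_infty)

theorem cE_congr {ι : Type} [Fintype ι] {g' : MetricField n} {φ ψ φ' ψ' : ι → EE n → ℝ}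
    (e : g =ᶠ[𝓝 y] g') (e1 : ∀ k, φ k =ᶠ[𝓝 y] φ' k) (e2 : ∀ k, ψ k =ᶠ[𝓝 y] ψ' k) :
    cE g φ ψ y = cE g' φ' ψ' y := by
  have hi : inverseField g y = inverseField g' y := by
    unfold inverseField; rw [e.self_of_nhds]
  have hg : ∀ a b : EE n → ℝ, gam g a b y = gam g' a b y := fun a b => by simp only [gam, hi]
  simp only [cE, scal, hi, ricci_congr e, hg, fun k => (e1 k).self_of_nhds,
    fun k => laplaceBeltrami_congr e (e2 k), fun k l => gam_congr (g := g') (e2 k) (e2 l),
    fun k => gam_congr (g := g') (e1 k) (e2 k)]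

/-- the drift `V/2 + c β` -/
theorem cE_sum {ι : Type} [Fintype ι] (Φ X : Fin n → EE n → ℝ) {φ : ι → EE n → ℝ}
    (ψ : ι → EE n → ℝ) (hφ : ∀ k, DifferentiableAt ℝ (φ k) y) (c : ℝ) :
    cE g (Sum.elim Φ fun k z => c * φ k z) (Sum.elim X ψ) y =
      scal g y - 2 * cdv g Φ X y - 2 * c * cdv g φ ψ y -
        ∑ k, ∑ l, Sum.elim Φ (fun k z => c * φ k z) k y * Sum.elim Φ (fun k z => c * φ k z) l y *
          gam g (Sum.elim X ψ k) (Sum.elim X ψ l) y := by
  rw [cE, Fintype.sum_sum_type]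
  simp only [Sum.elim_inl, Sum.elim_inr, cdv, gam_const_mul_left c (hφ _)]
  rw [mul_assoc 2 c, Finset.mul_sum _ _ c]
  have : ∀ k, c * (gam g (φ k) (ψ k) y + φ k y * laplaceBeltrami g (ψ k) y) =
      c * gam g (φ k) (ψ k) y + c * φ k y * laplaceBeltrami g (ψ k) y := fun k => by ring
  simp only [this]
  ring

/-- first order expansion of `E` along the perturbation -/
theorem cE_pert (hP : PalStmt) (D : Dat g h U) {ι : Type} [Fintype ι] {φ ψ : ι → EE n → ℝ}
    (hφ : ∀ k, ContDiffOn ℝ ∞ (φ k) U) (hψ : ∀ k, ContDiffOn ℝ ∞ (ψ k) U) (t : ℝ) :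
    ∃ H : ℝ → EE n → ℝ, JC U H ∧
      (∀ y, H 0 y = -(∑ i, ∑ j, mid g h 0 y i j * ricci g y i j) - 2 * t * cdv g φ ψ y) ∧
      ∀ s, 0 ≤ s → ∀ y ∈ U,
        cE (gs g h s) (Sum.elim (fun k z => (1 / 2) * ∑ l, gs g h s z k l * palV g (gs g h s) z l)
          fun k z => t * s * φ k z) (Sum.elim (fun k z => z k) ψ) y = scal g y + s * H s y := by
  have hU := D.riem.isOpen
  set Ψ : Fin n ⊕ ι → EE n → ℝ := Sum.elim (fun k z => z k) ψ with hΨ
  set Φ : Fin n ⊕ ι → ℝ → EE n → ℝ := Sum.elim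
    (fun k s z => (1 / 2) * ∑ l, gs g h s z k l * WW g h s z l) (fun k _ z => t * φ k z) with hΦ
  have hΨs : ∀ k, ContDiffOn ℝ ∞ (Ψ k) U := by
    rintro (k | k)
    · exact (contDiff_coord k).contDiffOn
    · exact hψ k
  have hΦc : ∀ k, JC U (Φ k) := by
    rintro (k | k)
    · exact (JC.const _).mul (JC.sum fun l => (D.jc_gs k l).mul (D.jc_WW l))
    · exact (JC.const _).mul (JC.of (hφ k).continuousOn)
  refine ⟨fun s y => (-1) * (∑ i, ∑ j, mid g h s y i j * ricci g y i j) + s * QQ g h s y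
    - 2 * t * cdv (gs g h s) φ ψ y - s * ∑ k, ∑ l, Φ k s y * Φ l s y * gam (gs g h s) (Ψ k) (Ψ l) y,
    ?_, fun y => by simp [gs_zero], fun s hs y hy => ?_⟩
  · refine ((((JC.const _).mul (JC.sum fun i => JC.sum fun j => (D.jc_mid i j).mul
      (JC.of (continuousOn_ricci D.riem i j)))).add (JC.fst.mul D.jc_QQ)).sub ((JC.const _).mul
        (JC.sum fun k => (D.jc_gam (hφ k) (hψ k)).add ((JC.of (hφ k).continuousOn).mul
          (D.jc_lap (hψ k)))))).sub (JC.fst.mul (JC.sum fun k => JC.sum fun l =>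
            ((hΦc k).mul (hΦc l)).mul (D.jc_gam (hΨs k) (hΨs l))))
  · have hs' := D.gs_riem hs
    have hV : ∀ l, DifferentiableAt ℝ (fun z => palV g (gs g h s) z l) y := fun l =>
      ((contDiffOn_palV D.riem hs' l).contDiffAt (hU.mem_nhds hy)).differentiableAt (by simp)
    have hd : ∀ k, DifferentiableAt ℝ (fun z => ∑ l, gs g h s z k l * palV g (gs g h s) z l) y :=
      fun k => DifferentiableAt.fun_sum fun l _ => (differentiableAt_entry hs' hy k l).mul (hV l)
    have h1 : 2 * cdv (gs g h s) (fun k z => (1 / 2) * ∑ l, gs g h s z k l * palV g (gs g h s) z l)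
        (fun k z => z k) y = divg (gs g h s) (palV g (gs g h s)) y := by
      rw [← cdv_lower hs' hy hV, cdv, cdv, Finset.mul_sum]
      refine Finset.sum_congr rfl fun k _ => ?_
      rw [gam_const_mul_left _ (hd k)]; ring
    have h2 : ∀ k, Sum.elim (fun k z => (1 / 2) * ∑ l, gs g h s z k l * palV g (gs g h s) z l)
        (fun k z => t * s * φ k z) k y = s * Φ k s y := by
      rintro (k | k)
      · simp only [hΦ, Sum.elim_inl, D.palV_gs hs hy, Finset.mul_sum]
        exact Finset.sum_congr rfl fun l _ => by ring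
      · simp only [hΦ, Sum.elim_inr]; ring
    have h3 : ∑ i, ∑ j, inverseField (gs g h s) y i j * ricci g y i j =
        scal g y - s * ∑ i, ∑ j, mid g h s y i j * ricci g y i j := by
      simp only [scal, D.inv_gs hs hy, Finset.mul_sum, ← Finset.sum_sub_distrib]
      exact Finset.sum_congr rfl fun i _ => Finset.sum_congr rfl fun j _ => by ring
    have h4 : ∑ k, ∑ l, s * Φ k s y * (s * Φ l s y) * gam (gs g h s) (Ψ k) (Ψ l) y =
        s * (s * ∑ k, ∑ l, Φ k s y * Φ l s y * gam (gs g h s) (Ψ k) (Ψ l) y) := by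
      simp only [Finset.mul_sum]
      exact Finset.sum_congr rfl fun i _ => Finset.sum_congr rfl fun j _ => by ring
    rw [cE_sum _ _ _ fun k => ((hφ k).contDiffAt (hU.mem_nhds hy)).differentiableAt (by simp), h1,
      hP n g (gs g h s) U D.riem hs' y hy, D.palQ_gs hs hy, h3]
    simp only [h2]
    rw [h4]
    ring

end Crest.Agent.N222.D.Pt
end
end

-- ▼ part N222/D/Pert2
section

/-!
# Row 222, part D1, file 2: `mScal`, `mE` in charts; the perturbed atlas
-/

set_option autoImplicit false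
set_option linter.unusedSectionVars false

open Set Filter Topology Bundle
open scoped ContDiff Manifold
open Crest.GeometryTopology.CoordMetric Crest.GeometryTopology.ChartCurvature
  Crest.GeometryTopology.PointedLimit
open Crest.Agent.R202.Tens Crest.Agent.R247.Bo84 Crest.Agent.R273.RMan_798

noncomputable section

namespace Crest.Agent.N222.D

theorem scal_frame {n : ℕ} {g : MetricField n} {y : EE n} {ξ : Fin n → EE n}
    (hξ : IsFrame (g y) ξ) : scal g y = ∑ a, ∑ i, ∑ j, ricci g y i j * ξ a i * ξ a j := by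
  simp only [scal, inverseField, hξ.inv, Finset.sum_mul]
  conv_rhs => rw [Finset.sum_comm]
  refine Finset.sum_congr rfl fun i _ => ?_
  rw [Finset.sum_comm]
  exact Finset.sum_congr rfl fun a _ => Finset.sum_congr rfl fun j _ => by ring

/-- invariance of the scalar curvature -/
theorem scal_pull {n : ℕ} {g' g : MetricField n} {Φ : EE n → EE n} {V W : Set (EE n)}
    (p : Pull g' g Φ V W) {y : EE n} (hy : y ∈ V) : scal g' y = scal g (Φ y) := by
  obtain ⟨ξ, hξ⟩ := exists_frame p.riem' hy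
  rw [scal_frame hξ, scal_frame (isFrame_of_orth (frame_pull p hy hξ))]
  exact Finset.sum_congr rfl fun a _ => p.ricci_pull hy _ _

theorem scal_congr {n : ℕ} {g g' : MetricField n} {y : EE n} (e : g =ᶠ[𝓝 y] g') :
    scal g y = scal g' y := by
  simp only [scal, inverseField, e.self_of_nhds, ricci_congr e]

section Mfd

variable {n : ℕ} {M : Type} [TopologicalSpace M] [ChartedSpace (EE n) M] [IsManifold (𝓡 n) ∞ M]
  [RiemannianBundle (fun x : M => TangentSpace (𝓡 n) x)]
  [IsContMDiffRiemannianBundle (𝓡 n) ∞ (EE n) (fun x : M => TangentSpace (𝓡 n) x)]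

theorem mScal_chart {x₀ p : M} (hp : p ∈ (chartAt (EE n) x₀).source) :
    mScal n M p = scal (chartMetric n M x₀) (chartAt (EE n) x₀ p) := by
  have hy := (chartAt (EE n) x₀).map_source hp
  rw [scal_pull (pull_trans (n := n) x₀ ((chartAt (EE n) x₀).symm (chartAt (EE n) x₀ p)))
    (mem_tdom_self hy), trans_self, (chartAt (EE n) x₀).left_inv hp]
  rfl

theorem mE_chart {ι : Type} [Fintype ι] {x₀ p : M} (hp : p ∈ (chartAt (EE n) x₀).source)
    (φ : ι → M → ℝ) {ψ : ι → M → ℝ} (hψ : ∀ k, Sm n M (ψ k)) :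
    mE n M φ ψ p = cE (chartMetric n M x₀) (fun k => inCh n x₀ (φ k)) (fun k => inCh n x₀ (ψ k))
      (chartAt (EE n) x₀ p) := by
  simp only [mE, cE, mScal_chart hp, mGam_chart' hp,
    fun k => mLap_chart' hp (((hψ k) p).of_le two_le_infty), inCh,
    (chartAt (EE n) x₀).left_inv hp]

theorem mdv_chart {ι : Type} [Fintype ι] {x₀ p : M} (hp : p ∈ (chartAt (EE n) x₀).source)
    (φ : ι → M → ℝ) {ψ : ι → M → ℝ} (hψ : ∀ k, Sm n M (ψ k)) :
    ∑ k, (mGam n (φ k) (ψ k) p + φ k p * mLap n (ψ k) p) =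
      Pt.cdv (chartMetric n M x₀) (fun k => inCh n x₀ (φ k)) (fun k => inCh n x₀ (ψ k))
        (chartAt (EE n) x₀ p) := by
  simp only [Pt.cdv, mGam_chart' hp, fun k => mLap_chart' hp (((hψ k) p).of_le two_le_infty), inCh,
    (chartAt (EE n) x₀).left_inv hp]

/-- `E` of the drift `c β` (padded with zero terms) -/
theorem mE_zero_sum {ι κ : Type} [Fintype ι] [Fintype κ] {φ : ι → M → ℝ} (ψ : ι → M → ℝ)
    (hφ : ∀ k, Sm n M (φ k)) (X : κ → M → ℝ) (c : ℝ) (p : M) :
    mE n M (Sum.elim (fun _ _ => 0) fun k q => c * φ k q) (Sum.elim X ψ) p =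
      mScal n M p - 2 * c * ∑ k, (mGam n (φ k) (ψ k) p + φ k p * mLap n (ψ k) p) -
        c ^ 2 * ∑ k, ∑ l, φ k p * φ l p * mGam n (ψ k) (ψ l) p := by
  simp only [mE, Fintype.sum_sum_type, Sum.elim_inl, Sum.elim_inr, mGam_const_left, zero_mul,
    mul_zero, add_zero, zero_add, Finset.sum_const_zero,
    fun k => mGam_const_mul_left (k := ψ k) c ((hφ k p).mdifferentiableAt (by simp)),
    Finset.mul_sum]
  congr 1
  · congr 1
    exact Finset.sum_congr rfl fun k _ => by ring
  · exact Finset.sum_congr rfl fun k _ => Finset.sum_congr rfl fun l _ => by ring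

end Mfd

section Atl

variable {n : ℕ} {N : Type} [TopologicalSpace N] (R : RAtl n N)

theorem riemR (j : R.ι) : IsRiemannianOn (R.G j) (R.c j).target :=
  ⟨(R.c j).open_target, R.Gsm j, R.Gpd j⟩

theorem chartMetric_ev (p : R.M) {y : EE n} (hy : y ∈ (R.c (R.idx p)).target) :
    chartMetric n R.M p =ᶠ[𝓝 y] R.G (R.idx p) := by
  filter_upwards [(R.c (R.idx p)).open_target.mem_nhds hy] with z hz using R.chartMetric_eq p hz

theorem mScal_chartR {p q : R.M} (hq : q ∈ (R.c (R.idx p)).source) :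
    mScal n R.M q = scal (R.G (R.idx p)) (R.c (R.idx p) q) := by
  rw [mScal_chart (x₀ := p) hq]
  exact scal_congr (chartMetric_ev R p ((R.c (R.idx p)).map_source hq))

theorem mE_chartR {ι : Type} [Fintype ι] {p q : R.M} (hq : q ∈ (R.c (R.idx p)).source)
    (φ : ι → R.M → ℝ) {ψ : ι → R.M → ℝ} (hψ : ∀ k, Sm n R.M (ψ k)) :
    mE n R.M φ ψ q = cE (R.G (R.idx p)) (fun k z => φ k ((R.c (R.idx p)).symm z))
      (fun k z => ψ k ((R.c (R.idx p)).symm z)) (R.c (R.idx p) q) := by
  rw [mE_chart (x₀ := p) hq φ hψ]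
  exact Pt.cE_congr (chartMetric_ev R p ((R.c (R.idx p)).map_source hq))
    (fun _ => EventuallyEq.rfl) fun _ => EventuallyEq.rfl

theorem mdv_chartR {ι : Type} [Fintype ι] {p q : R.M} (hq : q ∈ (R.c (R.idx p)).source)
    (φ : ι → R.M → ℝ) {ψ : ι → R.M → ℝ} (hψ : ∀ k, Sm n R.M (ψ k)) :
    ∑ k, (mGam n (φ k) (ψ k) q + φ k q * mLap n (ψ k) q) =
      Pt.cdv (R.G (R.idx p)) (fun k z => φ k ((R.c (R.idx p)).symm z))
        (fun k z => ψ k ((R.c (R.idx p)).symm z)) (R.c (R.idx p) q) := by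
  rw [mdv_chart (x₀ := p) hq φ hψ]
  have e := chartMetric_ev R p ((R.c (R.idx p)).map_source hq)
  refine Finset.sum_congr rfl fun k _ => ?_
  congr 1
  · exact congrArg (fun A : Matrix (Fin n) (Fin n) ℝ => ∑ i, ∑ j, A⁻¹ i j *
      pderiv i (inCh n p (φ k)) (R.c (R.idx p) q) * pderiv j (inCh n p (ψ k)) (R.c (R.idx p) q))
      e.self_of_nhds
  · exact congrArg _ (laplaceBeltrami_congr e EventuallyEq.rfl)

variable {R} in
/-- smooth functions are smooth in every chart of the atlas -/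
theorem contDiffOn_ch {f : R.M → ℝ} (hf : Sm n R.M f) (j : R.ι) :
    ContDiffOn ℝ ∞ (fun z => f ((R.c j).symm z)) (R.c j).target := by
  have h1 : ContMDiffOn (𝓡 n) (𝓡 n) ∞ (R.ch j).symm (R.ch j).target :=
    contMDiffOn_symm_of_mem_maximalAtlas (IsManifold.subset_maximalAtlas ⟨j, rfl⟩)
  exact contMDiffOn_iff_contDiffOn.1 (hf.comp_contMDiffOn h1)

theorem tendsto_symm (j : R.ι) {q : N} (hq : q ∈ (R.c j).source) :
    Tendsto (R.c j).symm (𝓝 (R.c j q)) (𝓝 q) := (R.c j).tendsto_symm hq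

namespace Pt

/-- the covector `χ dl` in the chart `j` -/
def ww (χ l : R.M → ℝ) (j : R.ι) (y : EE n) (a : Fin n) : ℝ :=
  χ ((R.c j).symm y) * pderiv a (fun z => l ((R.c j).symm z)) y

/-- the tensor `χ² dl ⊗ dl` in the chart `j` -/
def hh (χ l : R.M → ℝ) (j : R.ι) : MetricField n := fun y =>
  Matrix.vecMulVec (ww R χ l j y) (ww R χ l j y)

variable {R} {χ l : R.M → ℝ}

theorem dat (hχ : Sm n R.M χ) (hl : Sm n R.M l) (j : R.ι) :
    Dat (R.G j) (hh R χ l j) (R.c j).target := by
  have hw : ∀ a, ContDiffOn ℝ ∞ (fun y => ww R χ l j y a) (R.c j).target := fun a =>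
    (contDiffOn_ch hχ j).mul (contDiffOn_pderiv (R.c j).open_target (contDiffOn_ch hl j) a)
  refine ⟨riemR R j, fun a b => (hw a).mul (hw b), fun z _ => ?_⟩
  simpa [hh] using Matrix.posSemidef_vecMulVec_self_star (ww R χ l j z)

theorem sum_gs (g : MetricField n) (w : EE n → Fin n → ℝ) (s : ℝ) (y v u : EE n) :
    ∑ a, ∑ b, gs g (fun z => Matrix.vecMulVec (w z) (w z)) s y a b * v a * u b =
      ∑ a, ∑ b, g y a b * v a * u b + s * ((∑ a, v a * w y a) * ∑ b, u b * w y b) := by
  rw [Finset.sum_mul_sum]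
  simp only [gs_apply, Matrix.vecMulVec_apply, Finset.mul_sum, ← Finset.sum_add_distrib]
  exact Finset.sum_congr rfl fun a _ => Finset.sum_congr rfl fun b _ => by ring

theorem sum_ww (j : R.ι) (y v : EE n) : ∑ a, v a * ww R χ l j y a =
    χ ((R.c j).symm y) * fderiv ℝ (fun z => l ((R.c j).symm z)) y v := by
  rw [fderiv_eq_sum, Finset.mul_sum]
  exact Finset.sum_congr rfl fun a _ => by rw [ww]; ring

theorem ww_tr (hl : Sm n R.M l) (i j : R.ι) {x : N} (hx : x ∈ (R.c i).source ∩ (R.c j).source)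
    (v : EE n) : ∑ a, v a * ww R χ l i (R.c i x) a =
      ∑ a, (fderiv ℝ (fun y => R.c j ((R.c i).symm y)) (R.c i x) v) a * ww R χ l j (R.c j x) a := by
  rw [sum_ww, sum_ww, (R.c i).left_inv hx.1, (R.c j).left_inv hx.2]
  congr 1
  have h1 : DifferentiableAt ℝ (fun y => R.c j ((R.c i).symm y)) (R.c i x) := by
    refine ((R.smt i j).contDiffAt (((R.c i).isOpen_inter_preimage_symm
      (R.c j).open_source).mem_nhds ⟨(R.c i).map_source hx.1, ?_⟩)).differentiableAt (by simp)
    rw [mem_preimage, (R.c i).left_inv hx.1]; exact hx.2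
  have h2 : DifferentiableAt ℝ (fun z => l ((R.c j).symm z)) (R.c j ((R.c i).symm (R.c i x))) := by
    rw [(R.c i).left_inv hx.1]
    exact ((contDiffOn_ch hl j).contDiffAt
      ((R.c j).open_target.mem_nhds ((R.c j).map_source hx.2))).differentiableAt (by simp)
  have e : (fun z => l ((R.c i).symm z)) =ᶠ[𝓝 (R.c i x)]
      (fun z => l ((R.c j).symm z)) ∘ fun y => R.c j ((R.c i).symm y) := by
    filter_upwards [tendsto_symm R i hx.1 ((R.c j).open_source.mem_nhds hx.2)] with z hz
    exact congrArg l ((R.c j).left_inv hz).symm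
  rw [e.fderiv_eq, fderiv_comp (f := fun y => R.c j ((R.c i).symm y)) (R.c i x) h2 h1,
    (R.c i).left_inv hx.1]
  rfl

/-- the atlas of the metric `g + s χ² dl ⊗ dl` -/
def pertA (hχ : Sm n R.M χ) (hl : Sm n R.M l) {s : ℝ} (hs : 0 ≤ s) : RAtl n N :=
  { R with
    G := fun j => gs (R.G j) (hh R χ l j) s
    Gsm := fun j => ((dat hχ hl j).gs_riem hs).contDiffOn
    Gpd := fun j => ((dat hχ hl j).gs_riem hs).posDef
    Gtr := fun i j x hx v w => by
      refine (sum_gs _ _ _ _ _ _).trans (Eq.trans ?_ (sum_gs _ _ _ _ _ _).symm)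
      rw [R.Gtr i j x hx, ww_tr hl i j hx, ww_tr hl i j hx] }


end Pt

end Atl

end Crest.Agent.N222.D
end
end

-- ▼ part N222/D/DivNeg
section

/-!
# Row 222, part D: a drift with negative divergence outside a given open set (helper16)

Hopf barriers `F(s) ds` and a connectedness argument.
-/

set_option autoImplicit false
set_option linter.unusedSectionVars false

open Set Filter Topology Bundle
open scoped ContDiff Manifold
open Crest.GeometryTopology.CoordMetric Crest.GeometryTopology.ChartCurvature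
  Crest.GeometryTopology.PointedLimit
open Crest.Agent.R202.Tens Crest.Agent.R247.Bo84 Crest.Agent.R273.RMan_798

noncomputable section

namespace Crest.Agent.N222.D

namespace DN

theorem exists_lt_mul {M : Type} [TopologicalSpace M] {K : Set M} (hK : IsCompact K)
    {f g : M → ℝ} (hf : Continuous f) (hg : Continuous g) (h : ∀ p ∈ K, 0 < f p) :
    ∃ a : ℝ, ∀ p ∈ K, g p < a * f p := by
  obtain ⟨a, ha⟩ := hK.bddAbove_image
    (hg.continuousOn.div hf.continuousOn fun p hp => (h p hp).ne')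
  refine ⟨a + 1, fun p hp => ?_⟩
  have h1 : g p / f p ≤ a := ha (mem_image_of_mem _ hp)
  rw [div_le_iff₀ (h p hp)] at h1
  linarith [h p hp]

variable {n : ℕ} {M : Type} [TopologicalSpace M] [ChartedSpace (EE n) M] [IsManifold (𝓡 n) ∞ M]
  [RiemannianBundle (fun x : M => TangentSpace (𝓡 n) x)]
  [IsContMDiffRiemannianBundle (𝓡 n) ∞ (EE n) (fun x : M => TangentSpace (𝓡 n) x)]

variable (n) in
/-- `f` is the divergence of a drift -/
def Dv (f : M → ℝ) : Prop :=
  ∃ (ι : Type) (_ : Fintype ι) (φ ψ : ι → M → ℝ), (∀ k, Sm n M (φ k)) ∧ (∀ k, Sm n M (ψ k)) ∧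
    ∀ p, f p = ∑ k, (mGam n (φ k) (ψ k) p + φ k p * mLap n (ψ k) p)

variable {f g φ ψ : M → ℝ}

theorem continuous_mGam (hφ : Sm n M φ) (hψ : Sm n M ψ) : Continuous (mGam n φ ψ) :=
  continuous_iff_continuousAt.2 fun p =>
    (contMDiffAt_mGam (m := 0) (hφ p) (hψ p) (by simp) le_rfl).continuousAt

theorem continuous_mLap (hψ : Sm n M ψ) : Continuous (mLap n ψ) :=
  continuous_iff_continuousAt.2 fun p =>
    (contMDiffAt_mLap (m := 0) (hψ p) (by norm_cast) le_rfl).continuousAt

theorem Dv.zero : Dv n (fun _ : M => (0 : ℝ)) :=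
  ⟨Empty, inferInstance, fun k => k.elim, fun k => k.elim, fun k => k.elim, fun k => k.elim,
    fun _ => by simp⟩

theorem Dv.single (hφ : Sm n M φ) (hψ : Sm n M ψ) :
    Dv n fun p => mGam n φ ψ p + φ p * mLap n ψ p :=
  ⟨Unit, inferInstance, fun _ => φ, fun _ => ψ, fun _ => hφ, fun _ => hψ, fun _ => by simp⟩

theorem Dv.add (hf : Dv n f) (hg : Dv n g) : Dv n fun p => f p + g p := by
  obtain ⟨ι, _, φ, ψ, h1, h2, h3⟩ := hf
  obtain ⟨ι', _, φ', ψ', h1', h2', h3'⟩ := hg
  exact ⟨ι ⊕ ι', inferInstance, Sum.elim φ φ', Sum.elim ψ ψ', Sum.forall.2 ⟨h1, h1'⟩,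
    Sum.forall.2 ⟨h2, h2'⟩, fun p => by
      beta_reduce; rw [Fintype.sum_sum_type, h3, h3']; rfl⟩

theorem Dv.smul (hf : Dv n f) (c : ℝ) : Dv n fun p => c * f p := by
  obtain ⟨ι, _, φ, ψ, h1, h2, h3⟩ := hf
  refine ⟨ι, inferInstance, fun k p => c * φ k p, ψ, fun k => contMDiff_const.mul (h1 k), h2,
    fun p => ?_⟩
  beta_reduce
  rw [h3, Finset.mul_sum]
  refine Finset.sum_congr rfl fun k _ => ?_
  rw [mGam_const_mul_left c ((h1 k p).mdifferentiableAt (by simp))]
  ring

theorem Dv.sum {α : Type} (t : Finset α) {f : α → M → ℝ} (hf : ∀ a, Dv n (f a)) :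
    Dv n fun p => ∑ a ∈ t, f a p := by
  classical
  induction t using Finset.induction_on with
  | empty => simpa using Dv.zero
  | insert a t ha ih => simpa only [Finset.sum_insert ha] using (hf a).add ih

theorem Dv.continuous (hf : Dv n f) : Continuous f := by
  obtain ⟨ι, _, φ, ψ, h1, h2, h3⟩ := hf
  rw [funext h3]
  exact continuous_finsetSum _ fun k _ => (continuous_mGam (h1 k) (h2 k)).add
    ((h1 k).continuous.mul (continuous_mLap (h2 k)))

/-- Hopf barrier -/
theorem barrier [CompactSpace M] {s : M → ℝ} (hs : Sm n M s) (T : ℝ) {W : Set M} (hW : IsOpen W)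
    (h : ∀ p, p ∉ W → s p ≤ T → 0 < mGam n s s p) :
    ∃ f : M → ℝ, Dv n f ∧ ∀ p, p ∉ W → f p ≤ 0 ∧ (s p < T → f p < 0) := by
  obtain ⟨a, ha⟩ := exists_lt_mul (K := Wᶜ ∩ {p | s p ≤ T})
    (hW.isClosed_compl.inter (isClosed_le hs.continuous continuous_const)).isCompact
    (continuous_mGam hs hs) (continuous_mLap hs) fun p hp => h p hp.1 hp.2
  have he : ContDiff ℝ ∞ expNegInvGlue := expNegInvGlue.contDiff
  have hF : ContDiff ℝ ∞ fun t : ℝ => expNegInvGlue (T - t) * Real.exp (-a * t) := by fun_prop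
  have hd : ∀ t, HasDerivAt (fun t : ℝ => expNegInvGlue (T - t) * Real.exp (-a * t))
      (-(deriv expNegInvGlue (T - t) * Real.exp (-a * t)) -
        a * (expNegInvGlue (T - t) * Real.exp (-a * t))) t := fun t => by
    have h1 := ((he.differentiable (by simp)) (T - t)).hasDerivAt.comp t
      ((hasDerivAt_id t).const_sub T)
    have h2 := ((hasDerivAt_id t).const_mul (-a)).exp
    refine (h1.mul h2).congr_deriv ?_
    simp only [Function.comp_apply, id]
    ring
  refine ⟨_, Dv.single (hF.contMDiff.comp hs) hs, fun p hp => ?_⟩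
  have e := mGam_comp_left (k := s) (hd (s p)).differentiableAt ((hs p).mdifferentiableAt (by simp))
  simp only [Function.comp_def]
  rw [e, (hd (s p)).deriv]
  have h1 : 0 ≤ deriv expNegInvGlue (T - s p) * Real.exp (-a * s p) * mGam n s s p :=
    mul_nonneg (mul_nonneg expNegInvGlue.monotone.deriv_nonneg (Real.exp_pos _).le)
      (mGam_self_nonneg s p)
  rcases le_or_gt (s p) T with hT | hT
  · have h2 := ha p ⟨hp, hT⟩
    have h3 : 0 ≤ expNegInvGlue (T - s p) * Real.exp (-a * s p) :=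
      mul_nonneg (expNegInvGlue.nonneg _) (Real.exp_pos _).le
    refine ⟨by nlinarith, fun hlt => ?_⟩
    have h4 : 0 < expNegInvGlue (T - s p) * Real.exp (-a * s p) :=
      mul_pos (expNegInvGlue.pos_of_pos (by linarith)) (Real.exp_pos _)
    nlinarith
  · refine ⟨?_, fun hlt => absurd hlt hT.not_gt⟩
    rw [expNegInvGlue.zero_of_nonpos (by linarith)]
    linarith

theorem mGam_pos {q p : M} {c : EE n} {s : M → ℝ} (hp : p ∈ (chartAt (EE n) q).source)
    (hc : chartAt (EE n) q p ≠ c) (hs : s =ᶠ[𝓝 p] fun x => ‖chartAt (EE n) q x - c‖ ^ 2) :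
    0 < mGam n s s p := by
  have hy := (chartAt (EE n) q).map_source hp
  have hg := isRiemannianOn_chartMetric (n := n) q
  have h1 : inCh n q (fun x => ‖chartAt (EE n) q x - c‖ ^ 2) =ᶠ[𝓝 (chartAt (EE n) q p)]
      fun y => ‖y - c‖ ^ 2 := by
    filter_upwards [(chartAt (EE n) q).open_target.mem_nhds hy] with y hy
    rw [inCh, (chartAt (EE n) q).right_inv hy]
  rw [mGam_congr hs hs, mGam_chart' hp, gam_congr h1 h1]
  refine (gam_self_nonneg hg hy _).lt_of_ne fun h0 => ?_
  have h2 := bil_sq_le hg hy (grad (chartMetric n M q) (fun y => ‖y - c‖ ^ 2) (chartAt (EE n) q p))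
    (chartAt (EE n) q p - c)
  have h4 : HasFDerivAt (fun y : EE n => ‖y - c‖ ^ 2) _ (chartAt (EE n) q p) :=
    ((hasFDerivAt_id _).sub_const c).norm_sq
  rw [← gam_eq_bil hg hy, ← h0, zero_mul, bil_grad hg hy, h4.fderiv] at h2
  have h3 : 0 < ‖chartAt (EE n) q p - c‖ := norm_pos_iff.2 (sub_ne_zero.2 hc)
  simp only [id, smul_apply, ContinuousLinearMap.comp_apply,
    ContinuousLinearMap.id_apply, innerSL_apply_apply, real_inner_self_eq_norm_sq] at h2
  exact absurd h2 (not_le.2 (by positivity))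

/-- a function with one critical point `q'` on a sublevel set that contains `q` -/
theorem exists_well [T2Space M] (q : M) : ∃ U ∈ 𝓝 q, ∀ q' ∈ U, ∃ (s : M → ℝ) (T : ℝ),
    Sm n M s ∧ s q < T ∧ ∀ p, p ≠ q' → s p ≤ T → 0 < mGam n s s p := by
  obtain ⟨b⟩ : Nonempty (SmoothBumpFunction (𝓡 n) q) := inferInstance
  have hρ := b.rIn_pos
  set e := chartAt (EE n) q with he
  refine ⟨e.source ∩ e ⁻¹' Metric.ball (e q) (b.rIn / 4), inter_mem (chart_source_mem_nhds _ _)
    ((e.continuousAt (mem_chart_source _ _)).preimage_mem_nhds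
      (Metric.ball_mem_nhds _ (by positivity))), fun q' hq' => ?_⟩
  have hd : dist (e q') (e q) < b.rIn / 4 := hq'.2
  refine ⟨fun p => b.rIn ^ 2 - b p • (b.rIn ^ 2 - ‖e p - e q'‖ ^ 2), (b.rIn / 2) ^ 2,
    contMDiff_const.sub (b.contMDiff_smul ?_), ?_, fun p hp hT => ?_⟩
  · exact (contDiff_const.sub ((contDiff_id.sub contDiff_const).norm_sq ℝ)).contMDiff.comp_contMDiffOn
      contMDiffOn_chart
  · beta_reduce
    rw [b.eq_one, one_smul, sub_sub_cancel, ← dist_eq_norm, dist_comm]
    exact pow_lt_pow_left₀ (by linarith) dist_nonneg two_ne_zero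
  · beta_reduce at hT
    have hs : p ∈ e.source := by
      by_contra hs
      have : b p = 0 := by_contra fun h => hs (b.support_subset_source h)
      rw [this, zero_smul] at hT
      nlinarith
    have hlt : dist (e p) (e q) < b.rIn := by
      by_contra hlt
      have h1 : b.rIn / 2 < ‖e p - e q'‖ := by
        rw [← dist_eq_norm]
        linarith [dist_triangle (e p) (e q') (e q), not_lt.1 hlt]
      have h2 := pow_lt_pow_left₀ h1 (by positivity) two_ne_zero
      have h3 : (b.rIn / 2) ^ 2 < b.rIn ^ 2 := by nlinarith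
      have h4 := b.nonneg (x := p)
      have h5 := b.le_one (x := p)
      rw [smul_eq_mul] at hT
      rcases le_total (b.rIn ^ 2) (‖e p - e q'‖ ^ 2) with h6 | h6 <;> nlinarith
    refine mGam_pos (q := q) (c := e q') hs (fun h => hp (e.injOn hs hq'.1 h)) ?_
    filter_upwards [b.eventuallyEq_one_of_dist_lt hs (by simpa using hlt)] with x hx
    rw [hx, Pi.one_apply, one_smul, sub_sub_cancel]

variable (n) in
/-- points near which some drift works -/
def Good (O : Set M) : Set M := {q | ∃ f : M → ℝ, Dv n f ∧ (∀ p, p ∉ O → f p ≤ 0) ∧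
  ∃ W, IsOpen W ∧ q ∈ W ∧ ∀ p ∈ W, p ∉ O → f p < 0}

theorem isOpen_good (O : Set M) : IsOpen (Good n O) :=
  isOpen_iff_mem_nhds.2 fun _ ⟨f, h1, h2, W, h3, h4, h5⟩ =>
    mem_of_superset (h3.mem_nhds h4) fun _ hp => ⟨f, h1, h2, W, h3, hp, h5⟩

theorem isClosed_good [T2Space M] [CompactSpace M] {O : Set M} (hO : IsOpen O) :
    IsClosed (Good n O) := by
  refine isClosed_of_closure_subset fun q hq => ?_
  obtain ⟨U, hU, H⟩ := exists_well (n := n) q
  obtain ⟨q', hq', f, h1, h2, W, h3, h4, h5⟩ := mem_closure_iff_nhds.1 hq U hU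
  obtain ⟨s, T, hs, hq, hc⟩ := H q' hq'
  obtain ⟨V, hV, hVc, hVW⟩ := exists_mem_nhds_isClosed_subset (h3.mem_nhds h4)
  obtain ⟨g, g1, g2⟩ := barrier hs T (isOpen_interior (s := V)) fun p hp =>
    hc p fun h => hp (h ▸ mem_interior_iff_mem_nhds.2 hV)
  obtain ⟨a, ha⟩ := exists_lt_mul (hVc.inter hO.isClosed_compl).isCompact h1.continuous.neg
    g1.continuous fun p hp => neg_pos.2 (h5 p (hVW hp.1) hp.2)
  have key : ∀ p, p ∉ O → |a| * f p + g p ≤ 0 ∧ (s p < T → |a| * f p + g p < 0) := fun p hp => by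
    have h6 := h2 p hp
    by_cases hpV : p ∈ interior V
    · have h7 : g p < a * -f p := ha p ⟨interior_subset hpV, hp⟩
      have h8 : |a| * f p + g p < 0 := by nlinarith [le_abs_self a]
      exact ⟨h8.le, fun _ => h8⟩
    · have h7 := mul_nonpos_of_nonneg_of_nonpos (abs_nonneg a) h6
      exact ⟨by linarith [(g2 p hpV).1], fun h => by linarith [(g2 p hpV).2 h]⟩
  exact ⟨_, (h1.smul |a|).add g1, fun p hp => (key p hp).1, {p | s p < T},
    isOpen_lt hs.continuous continuous_const, hq, fun p hp hO => (key p hO).2 hp⟩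

end DN

open DN in
theorem divNeg : DivNegStmt := by
  intro n M _ _ _ _ _ _ _ _ O hO ⟨x, hx⟩
  have hall : Good n O = univ := IsClopen.eq_univ ⟨isClosed_good hO, isOpen_good O⟩
    ⟨x, _, Dv.zero, fun _ _ => le_rfl, O, hO, hx, fun p hp hp' => absurd hp hp'⟩
  choose f h1 h2 W h3 h4 h5 using fun q : M => (hall ▸ mem_univ q : q ∈ Good n O)
  obtain ⟨t, ht⟩ := isCompact_univ.elim_finite_subcover W h3 fun q _ => mem_iUnion.2 ⟨q, h4 q⟩
  obtain ⟨ι, _, φ, ψ, k1, k2, k3⟩ := Dv.sum t h1
  refine ⟨ι, inferInstance, φ, ψ, k1, k2, fun p hp => ?_⟩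
  obtain ⟨q, hq, hpq⟩ := mem_iUnion₂.1 (ht (mem_univ p))
  rw [← k3]
  exact (Finset.sum_lt_sum (fun q _ => h2 q p hp) ⟨q, hq, h5 q p hpq hp⟩).trans_eq
    Finset.sum_const_zero

end Crest.Agent.N222.D
end
end

-- ▼ part N222/D/Pal
section

/-!
# Row 222, part D: the exact Palatini identity (helper91)
-/

set_option autoImplicit false

open Set Filter Topology
open scoped ContDiff
open Crest.GeometryTopology.CoordMetric Crest.GeometryTopology.ChartCurvature
open Crest.Agent.R202.Tens Crest.Agent.R247.Bo84 Crest.Agent.R273.RMan_798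

noncomputable section

namespace Crest.Agent.N222.D

namespace Pal

section Alg
variable {ι : Type} [Fintype ι]

/-- reindexing of a fourfold sum -/
theorem sum4 {f g : ι → ι → ι → ι → ℝ} (e e' : ι × ι × ι × ι → ι × ι × ι × ι)
    (h1 : ∀ p, e' (e p) = p) (h2 : ∀ p, e (e' p) = p)
    (h : ∀ p : ι × ι × ι × ι, f p.1 p.2.1 p.2.2.1 p.2.2.2 =
      g (e p).1 (e p).2.1 (e p).2.2.1 (e p).2.2.2) :
    ∑ a, ∑ b, ∑ c, ∑ d, f a b c d = ∑ a, ∑ b, ∑ c, ∑ d, g a b c d := by
  have := Fintype.sum_equiv ⟨e, e', h1, h2⟩ (fun p => f p.1 p.2.1 p.2.2.1 p.2.2.2)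
    (fun p => g p.1 p.2.1 p.2.2.1 p.2.2.2) h
  simpa only [Fintype.sum_prod_type] using this

theorem alg (I : ι → ι → ℝ) (C D dI : ι → ι → ι → ℝ) (dD : ι → ι → ι → ι → ℝ)
    (hI : ∀ i j, I i j = I j i) (hC : ∀ k i j, C k i j = C k j i) (hD : ∀ k i j, D k i j = D k j i)
    (hdI : ∀ k i j, dI k i j = -∑ l, (C i k l * I l j + C j k l * I i l)) :
    ∑ i, ∑ j, I i j * (∑ k, dD k k i j - ∑ k, dD j k k i
      + (∑ k, ∑ l, D k k l * C l i j + ∑ k, ∑ l, C k k l * D l i j - ∑ k, ∑ l, D k k l * D l i j)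
      - (∑ k, ∑ l, D k j l * C l k i + ∑ k, ∑ l, C k j l * D l k i - ∑ k, ∑ l, D k j l * D l k i))
    = (∑ k, (∑ i, ∑ j, (dI k i j * D k i j + I i j * dD k k i j)
          - ∑ i, (dI k i k * ∑ l, D l l i + I i k * ∑ l, dD k l l i))
        + ∑ k, (∑ l, C l l k) * (∑ i, ∑ j, I i j * D k i j - ∑ i, I i k * ∑ l, D l l i))
      + ∑ i, ∑ j, I i j * (∑ k, ∑ l, D k j l * D l k i - ∑ k, ∑ l, D k k l * D l i j) := by
  have T1 : ∑ i, ∑ j, I i j * ∑ k, dD k k i j = ∑ k, ∑ i, ∑ j, I i j * dD k k i j := by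
    simp only [Finset.mul_sum]
    exact (Finset.sum_congr rfl fun i _ => Finset.sum_comm).trans Finset.sum_comm
  have T2 : ∑ i, ∑ j, I i j * ∑ k, dD j k k i = ∑ k, ∑ i, I i k * ∑ l, dD k l l i :=
    Finset.sum_comm
  have T3 : ∑ k, ∑ i, dI k i k * ∑ l, D l l i = -(∑ i, ∑ j, I i j * ∑ k, ∑ l, D k k l * C l i j)
      - ∑ k, (∑ l, C l l k) * ∑ i, I i k * ∑ l, D l l i := by
    have a1 : ∑ k, ∑ i, ∑ m, ∑ l, C i k l * I l k * D m m i =
        ∑ i, ∑ j, ∑ k, ∑ l, I i j * (D k k l * C l i j) :=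
      sum4 (fun p => (p.1, p.2.2.2, p.2.2.1, p.2.1)) (fun p => (p.1, p.2.2.2, p.2.2.1, p.2.1))
        (fun _ => rfl) (fun _ => rfl) fun p => by rw [hI p.1]; ring
    have a2 : ∑ k, ∑ i, ∑ m, ∑ l, C k k l * I i l * D m m i =
        ∑ k, ∑ i, ∑ m, ∑ l, C l l k * (I i k * D m m i) :=
      sum4 (fun p => (p.2.2.2, p.2.1, p.2.2.1, p.1)) (fun p => (p.2.2.2, p.2.1, p.2.2.1, p.1))
        (fun _ => rfl) (fun _ => rfl) fun p => by ring
    simp only [hdI, Finset.mul_sum, Finset.sum_mul, neg_mul, add_mul, Finset.sum_add_distrib,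
      Finset.sum_neg_distrib]
    rw [a1, a2]
    ring
  have T4 : ∑ i, ∑ j, I i j * ∑ k, ∑ l, C k k l * D l i j =
      ∑ k, (∑ l, C l l k) * ∑ i, ∑ j, I i j * D k i j := by
    simp only [Finset.mul_sum, Finset.sum_mul]
    exact sum4 (fun p => (p.2.2.2, p.1, p.2.1, p.2.2.1)) (fun p => (p.2.1, p.2.2.1, p.2.2.2, p.1))
      (fun _ => rfl) (fun _ => rfl) fun p => by ring
  have T5 : ∑ k, ∑ i, ∑ j, dI k i j * D k i j =
      -(∑ i, ∑ j, I i j * ∑ k, ∑ l, D k j l * C l k i)
        - ∑ i, ∑ j, I i j * ∑ k, ∑ l, C k j l * D l k i := by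
    have a1 : ∑ k, ∑ i, ∑ j, ∑ l, C i k l * I l j * D k i j =
        ∑ i, ∑ j, ∑ k, ∑ l, I i j * (D k j l * C l k i) :=
      sum4 (fun p => (p.2.2.2, p.2.2.1, p.1, p.2.1)) (fun p => (p.2.2.1, p.2.2.2, p.2.1, p.1))
        (fun _ => rfl) (fun _ => rfl) fun p => by rw [hD p.1 p.2.1]; ring
    have a2 : ∑ k, ∑ i, ∑ j, ∑ l, C j k l * I i l * D k i j =
        ∑ i, ∑ j, ∑ k, ∑ l, I i j * (C k j l * D l k i) :=
      sum4 (fun p => (p.2.1, p.2.2.2, p.2.2.1, p.1)) (fun p => (p.2.2.2, p.1, p.2.2.1, p.2.1))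
        (fun _ => rfl) (fun _ => rfl) fun p => by rw [hD p.1 p.2.1, hC p.2.2.1 p.1]; ring
    simp only [hdI, Finset.mul_sum, Finset.sum_mul, neg_mul, add_mul, Finset.sum_add_distrib,
      Finset.sum_neg_distrib]
    rw [a1, a2]
    ring
  simp only [mul_add, mul_sub, Finset.sum_add_distrib, Finset.sum_sub_distrib]
  rw [T1, T2, T3, T4, T5]
  ring

end Alg

variable {n : ℕ} {g g' : MetricField n} {U : Set (EE n)} {x : EE n}

theorem pd_sum {ι : Type} [Fintype ι] {f : ι → EE n → ℝ} (hf : ∀ i, DifferentiableAt ℝ (f i) x)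
    (k : Fin n) : pderiv k (fun y => ∑ i, f i y) x = ∑ i, pderiv k (f i) x := by
  unfold pderiv
  rw [fderiv_fun_sum fun i _ => hf i, sum_apply]

theorem pd_sub {f h : EE n → ℝ} (hf : DifferentiableAt ℝ f x) (hh : DifferentiableAt ℝ h x)
    (k : Fin n) : pderiv k (fun y => f y - h y) x = pderiv k f x - pderiv k h x := by
  unfold pderiv
  rw [fderiv_fun_sub hf hh, sub_apply]

theorem pd_mul {f h : EE n → ℝ} (hf : DifferentiableAt ℝ f x) (hh : DifferentiableAt ℝ h x)
    (k : Fin n) : pderiv k (fun y => f y * h y) x = pderiv k f x * h x + f x * pderiv k h x := by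
  unfold pderiv
  rw [fderiv_fun_mul hf hh]
  simp only [add_apply, smul_apply, smul_eq_mul]
  ring

theorem diff_inv (hg : IsRiemannianOn g U) (hx : x ∈ U) (i j : Fin n) :
    DifferentiableAt ℝ (fun y => inverseField g y i j) x :=
  ((contDiffOn_inv_entry hg i j).contDiffAt (hg.isOpen.mem_nhds hx)).differentiableAt (by simp)

/-- the derivative of the inverse metric -/
theorem pd_inv (hg : IsRiemannianOn g U) (hx : x ∈ U) (k i j : Fin n) :
    pderiv k (fun y => inverseField g y i j) x = -∑ l, (christoffel g x i k l * inverseField g x l j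
      + christoffel g x j k l * inverseField g x i l) := by
  have hu : ∀ y ∈ U, IsUnit (g y).det := fun y hy => (det_pos hg hy).ne'.isUnit
  set dG : Matrix (Fin n) (Fin n) ℝ := Matrix.of fun a b => pderiv k (fun y => g y a b) x
  set dI : Matrix (Fin n) (Fin n) ℝ := Matrix.of fun a b => pderiv k (fun y => inverseField g y a b) x
  set C : Matrix (Fin n) (Fin n) ℝ := Matrix.of fun a b => christoffel g x a k b
  have h1 : dG * (g x)⁻¹ + g x * dI = 0 := by
    ext a b
    have e : (fun y => ∑ c, g y a c * inverseField g y c b) =ᶠ[𝓝 x]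
        fun _ => (1 : Matrix (Fin n) (Fin n) ℝ) a b := by
      filter_upwards [hg.isOpen.mem_nhds hx] with y hy
      rw [← Matrix.mul_nonsing_inv _ (hu y hy), Matrix.mul_apply]
      rfl
    have h0 : pderiv k (fun y => ∑ c, g y a c * inverseField g y c b) x = 0 := by
      unfold pderiv
      rw [e.fderiv_eq]
      simp
    rw [pd_sum (fun c => (differentiableAt_entry hg hx a c).fun_mul (diff_inv hg hx c b))] at h0
    simp only [pd_mul (differentiableAt_entry hg hx a _) (diff_inv hg hx _ b),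
      Finset.sum_add_distrib] at h0
    exact h0
  have hT : (g x).transpose = g x := by
    ext a b; exact metric_symm hg hx b a
  have h2 : dG = C.transpose * g x + g x * C := by
    ext a b
    have e1 := sum_g_christoffel (hu x hx) b k a
    have e2 := sum_g_christoffel (hu x hx) a k b
    have e3 : (C.transpose * g x) a b = ∑ c, g x b c * christoffel g x c k a := by
      rw [Matrix.mul_apply]
      exact Finset.sum_congr rfl fun c _ => by rw [metric_symm hg hx b c, mul_comm]; rfl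
    have e4 : (g x * C) a b = ∑ c, g x a c * christoffel g x c k b := rfl
    rw [Matrix.add_apply, e3, e4, e1, e2, low, low, pderiv_metric_symm hg hx k b a]
    change pderiv k (fun y => g y a b) x = _
    ring
  have h3 : dI = -(C * (g x)⁻¹ + (g x)⁻¹ * C.transpose) := by
    have e := congrArg ((g x)⁻¹ * ·) h1
    simp only [Matrix.mul_add, h2, Matrix.add_mul, ← Matrix.mul_assoc,
      Matrix.nonsing_inv_mul _ (hu x hx), Matrix.one_mul, Matrix.mul_zero] at e
    rw [Matrix.mul_assoc _ (g x), Matrix.mul_nonsing_inv _ (hu x hx), Matrix.mul_one] at e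
    rw [eq_neg_iff_add_eq_zero, ← e]
    abel
  have := congrFun (congrFun h3 i) j
  simp only [Matrix.neg_apply, Matrix.add_apply, Matrix.mul_apply] at this
  rw [Finset.sum_add_distrib]
  refine this.trans (congrArg Neg.neg (congrArg₂ (· + ·) rfl
    (Finset.sum_congr rfl fun l _ => mul_comm _ _)))

theorem divg_eq (hg : IsRiemannianOn g U) (hx : x ∈ U) {V : EE n → EE n}
    (hV : ∀ i, DifferentiableAt ℝ (fun y => V y i) x) :
    divg g V x = ∑ k, pderiv k (fun y => V y k) x + ∑ k, (∑ l, christoffel g x l l k) * V x k := by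
  have hs : DifferentiableAt ℝ (fun y => Real.sqrt (g y).det) x :=
    (contDiffAt_sqrt_det hg hx).differentiableAt (by simp)
  have hne : Real.sqrt (g x).det ≠ 0 := (Real.sqrt_pos.2 (det_pos hg hx)).ne'
  rw [divg, ← Finset.sum_add_distrib, Finset.mul_sum]
  refine Finset.sum_congr rfl fun k _ => ?_
  rw [pd_mul hs (hV k), pderiv_sqrt_det hg hx]
  field_simp
  ring

end Pal

open Pal in
/-- the exact Palatini identity -/
theorem pal : PalStmt := by
  intro n g g' U hg hg' x hx
  have dC := differentiableAt_christoffel hg hx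
  have dC' := differentiableAt_christoffel hg' hx
  have dD : ∀ k i j, DifferentiableAt ℝ (fun y => dG g g' y k i j) x :=
    fun k i j => (dC' k i j).sub (dC k i j)
  have dI := diff_inv hg' hx
  have d1 : ∀ k i j, DifferentiableAt ℝ (fun y => inverseField g' y i j * dG g g' y k i j) x :=
    fun k i j => (dI i j).mul (dD k i j)
  have d2 : ∀ i, DifferentiableAt ℝ (fun y => ∑ l, dG g g' y l l i) x :=
    fun i => DifferentiableAt.fun_sum fun l _ => dD l l i
  have d3 : ∀ k i, DifferentiableAt ℝ (fun y => ∑ j, inverseField g' y i j * dG g g' y k i j) x :=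
    fun k i => DifferentiableAt.fun_sum fun j _ => d1 k i j
  have d4 : ∀ k i, DifferentiableAt ℝ (fun y => inverseField g' y i k * ∑ l, dG g g' y l l i) x :=
    fun k i => (dI i k).mul (d2 i)
  have d5 := fun k => DifferentiableAt.fun_sum (u := Finset.univ) fun i _ => d3 k i
  have d6 := fun k => DifferentiableAt.fun_sum (u := Finset.univ) fun i _ => d4 k i
  have hV : ∀ k, (fun y => palV g g' y k) = fun y => ∑ i, ∑ j, inverseField g' y i j *
      dG g g' y k i j - ∑ i, inverseField g' y i k * ∑ l, dG g g' y l l i := fun _ => rfl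
  have key := alg (inverseField g' x) (christoffel g' x) (dG g g' x)
    (fun k i j => pderiv k (fun y => inverseField g' y i j) x)
    (fun l k i j => pderiv l (fun y => dG g g' y k i j) x) (inv_symm hg' hx)
    (christoffel_symm hg' hx)
    (fun k i j => by rw [dG, dG, christoffel_symm hg hx, christoffel_symm hg' hx]) (pd_inv hg' hx)
  have e1 : ∀ k, pderiv k (fun y => palV g g' y k) x =
      ∑ i, ∑ j, (pderiv k (fun y => inverseField g' y i j) x * dG g g' x k i j +
        inverseField g' x i j * pderiv k (fun y => dG g g' y k i j) x)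
      - ∑ i, (pderiv k (fun y => inverseField g' y i k) x * ∑ l, dG g g' x l l i +
        inverseField g' x i k * ∑ l, pderiv k (fun y => dG g g' y l l i) x) := fun k => by
    rw [hV, pd_sub (d5 k) (d6 k), pd_sum (d3 k), pd_sum (d4 k)]
    simp only [pd_sum (d1 k _), pd_mul (dI _ _) (dD _ _ _), pd_mul (dI _ _) (d2 _),
      pd_sum fun l => dD l l _]
  have e2 : ∀ i j, ricci g' x i j = ricci g x i j +
      (∑ k, pderiv k (fun y => dG g g' y k i j) x - ∑ k, pderiv j (fun y => dG g g' y k k i) x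
      + (∑ k, ∑ l, dG g g' x k k l * christoffel g' x l i j
        + ∑ k, ∑ l, christoffel g' x k k l * dG g g' x l i j
        - ∑ k, ∑ l, dG g g' x k k l * dG g g' x l i j)
      - (∑ k, ∑ l, dG g g' x k j l * christoffel g' x l k i
        + ∑ k, ∑ l, christoffel g' x k j l * dG g g' x l k i
        - ∑ k, ∑ l, dG g g' x k j l * dG g g' x l k i)) := fun i j => by
    simp only [ricci, dG, pd_sub (dC' _ _ _) (dC _ _ _), pd_sum fun k => dC k k i,
      pd_sum fun k => dC' k k i, mul_sub, sub_mul, Finset.sum_sub_distrib]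
    ring
  rw [divg_eq hg' hx fun k => by rw [hV]; exact (d5 k).sub (d6 k), add_assoc]
  simp only [e1]
  refine Eq.trans ?_ (congrArg _ key)
  simp only [scal, e2, ← Finset.sum_add_distrib, ← mul_add]

end Crest.Agent.N222.D
end
end

-- ▼ part N222/D/Pert
section

/-!
# Row 222, part D1: `R ≥ 0` and a negative Ricci direction give a state with `E > 0`

The metric is `g + s χ² dl ⊗ dl`, the drift is `V_s / 2 + t s β` with `V_s` the Palatini field and
`div β < 0` off the support of `χ`.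
-/

set_option autoImplicit false
set_option linter.unusedSectionVars false

open Set Filter Topology Bundle Function
open scoped ContDiff Manifold
open Crest.GeometryTopology.CoordMetric Crest.GeometryTopology.ChartCurvature
  Crest.GeometryTopology.PointedLimit
open Crest.Agent.R202.Tens Crest.Agent.R247.Bo84 Crest.Agent.R273.RMan_798

noncomputable section

namespace Crest.Agent.N222.D

namespace Pt

variable {n : ℕ} {N : Type} [TopologicalSpace N] [T2Space N] {R : RAtl n N} {p : R.M}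

/-- a chart function cut off by a bump -/
def psh (η : SmoothBumpFunction (𝓡 n) p) (f : EE n → ℝ) (q : R.M) : ℝ :=
  η q • f (R.c (R.idx p) q)

theorem sm_psh (η : SmoothBumpFunction (𝓡 n) p) {f : EE n → ℝ}
    (hf : ContDiffOn ℝ ∞ f (R.c (R.idx p)).target) : Sm n R.M (psh η f) :=
  η.contMDiff_smul ((contMDiffOn_iff_contDiffOn.2 hf).comp
    (contMDiffOn_chart (I := 𝓡 n) (n := ∞) (x := p)) fun _ hq => (R.c (R.idx p)).map_source hq)

theorem psh_ev {η : SmoothBumpFunction (𝓡 n) p} (f : EE n → ℝ) {q : R.M}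
    (hq : q ∈ (R.c (R.idx p)).source) (h1 : η =ᶠ[𝓝 q] 1) :
    (fun z => psh η f ((R.c (R.idx p)).symm z)) =ᶠ[𝓝 (R.c (R.idx p) q)] f := by
  filter_upwards [tendsto_symm R _ hq h1,
    (R.c (R.idx p)).open_target.mem_nhds ((R.c (R.idx p)).map_source hq)] with z hz hz'
  have : η ((R.c (R.idx p)).symm z) = 1 := hz
  rw [psh, this, one_smul, (R.c (R.idx p)).right_inv hz']

/-- `Ric (ξ♯, ξ♯)` -/
def FF (g : MetricField n) (ξ : Fin n → ℝ) (y : EE n) : ℝ :=
  ∑ i, ∑ j, (∑ a, ∑ b, inverseField g y i a * (ξ a * ξ b) * inverseField g y b j) * ricci g y i j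

theorem continuousOn_FF {g : MetricField n} {U : Set (EE n)} (hg : IsRiemannianOn g U)
    (ξ : Fin n → ℝ) : ContinuousOn (FF g ξ) U :=
  continuousOn_finsetSum _ fun i _ => continuousOn_finsetSum _ fun j _ =>
    (continuousOn_finsetSum _ fun a _ => continuousOn_finsetSum _ fun b _ =>
      ((contDiffOn_inv_entry hg i a).continuousOn.mul continuousOn_const).mul
        (contDiffOn_inv_entry hg b j).continuousOn).mul (continuousOn_ricci hg i j)

theorem FF_lower {g : MetricField n} {U : Set (EE n)} (hg : IsRiemannianOn g U) {y : EE n}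
    (hy : y ∈ U) (v : EE n) :
    FF g (fun a => ∑ b, v b * g y b a) y = ∑ i, ∑ j, ricci g y i j * v i * v j := by
  have h1 : ∀ j, ∑ a, (∑ b, v b * g y b a) * inverseField g y a j = v j := by
    intro j
    simp only [Finset.sum_mul, mul_assoc]
    rw [Finset.sum_comm]
    simp [← Finset.mul_sum, mul_inv_apply hg hy]
  refine Finset.sum_congr rfl fun i _ => Finset.sum_congr rfl fun j _ => ?_
  rw [mul_assoc, mul_comm, ← h1 i, ← h1 j, Finset.sum_mul_sum]
  congr 1
  refine Finset.sum_congr rfl fun a _ => Finset.sum_congr rfl fun b _ => ?_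
  rw [inv_symm hg hy i a]; ring

theorem pderiv_lin (ξ : Fin n → ℝ) (a : Fin n) (y : EE n) :
    pderiv a (fun z : EE n => ∑ b, ξ b * z b) y = ξ a := by
  have : (fun z : EE n => ∑ b, ξ b * z b) =
      (∑ b, ξ b • (EuclideanSpace.proj b : EE n →L[ℝ] ℝ) : EE n →L[ℝ] ℝ) := by
    ext z; simp
  rw [pderiv, this, ContinuousLinearMap.fderiv]
  simp [PiLp.single_apply]

theorem mid_hh {η : SmoothBumpFunction (𝓡 n) p} (χ : R.M → ℝ) (ξ : Fin n → ℝ) {q : R.M}
    (hq : q ∈ (R.c (R.idx p)).source) (h1 : η =ᶠ[𝓝 q] 1) :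
    ∑ i, ∑ j, mid (R.G (R.idx p)) (hh R χ (psh η fun z => ∑ b, ξ b * z b) (R.idx p)) 0
      (R.c (R.idx p) q) i j * ricci (R.G (R.idx p)) (R.c (R.idx p) q) i j =
      χ q ^ 2 * FF (R.G (R.idx p)) ξ (R.c (R.idx p) q) := by
  have hw : ∀ a, ww R χ (psh η fun z => ∑ b, ξ b * z b) (R.idx p) (R.c (R.idx p) q) a =
      χ q * ξ a := by
    intro a
    rw [ww, (R.c (R.idx p)).left_inv hq, pderiv, (psh_ev _ hq h1).fderiv_eq, ← pderiv, pderiv_lin]
  simp only [mid, gs_zero, hh, Matrix.vecMulVec_apply, hw, FF, Finset.mul_sum, Finset.sum_mul]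
  exact Finset.sum_congr rfl fun i _ => Finset.sum_congr rfl fun j _ =>
    Finset.sum_congr rfl fun a _ => Finset.sum_congr rfl fun b _ => by ring

end Pt



end Crest.Agent.N222.D
end
end

-- ▼ part N222/D/Main
section

/-!
# Row 222, part D: assembly (helper55).  `s0343_of : NoPosStmt → EssStmt → (S0343)`.
-/

set_option autoImplicit false
set_option linter.unusedSectionVars false

open Set Filter Topology Bundle Metric
open scoped ContDiff Manifold
open Crest.GeometryTopology.CoordMetric Crest.GeometryTopology.ChartCurvature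
  Crest.GeometryTopology.PointedLimit
open Crest.Agent.R202.Tens Crest.Agent.R247.Bo84 Crest.Agent.R273.RMan_798 Crest.Agent.R247

noncomputable section

namespace Crest.Agent.N222.D

/-- cocompact isometric actions force completeness -/
theorem complete_of_cocpt {X Γ : Type} [MetricSpace X] [LocallyCompactSpace X] [Group Γ]
    [MulAction Γ X] (hd : ∀ (g : Γ) (x y : X), dist (g • x) (g • y) = dist x y) {K : Set X}
    (hK : IsCompact K) (hcov : ∀ x : X, ∃ g : Γ, g • x ∈ K) : CompleteSpace X := by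
  obtain ⟨δ, hδ, hc⟩ := hK.exists_isCompact_cthickening
  refine ⟨fun {f} hf => ?_⟩
  obtain ⟨t, ht, htd⟩ := (Metric.cauchy_iff.1 hf).2 δ hδ
  have := hf.1
  obtain ⟨x, hx⟩ := Filter.nonempty_of_mem ht
  obtain ⟨g, hg⟩ := hcov x
  have hi : Isometry fun y : X => g⁻¹ • y := Isometry.of_dist_eq (hd _)
  obtain ⟨a, -, ha⟩ := (hc.image hi.continuous).isComplete f hf (le_principal_iff.2 <|
    mem_of_superset ht fun y hy => ⟨g • y, mem_cthickening_of_dist_le _ _ _ _ hg
      (by rw [hd]; exact (htd y hy x hx).le), inv_smul_smul g y⟩)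
  exact ⟨a, ha⟩

section Lift

variable {n : ℕ} {N : Type} [TopologicalSpace N] (R : RAtl n N) (C : Gal N)

theorem chIso_pr : RAtl.ChIso (lift R C) R C.pr := by
  intro x
  obtain ⟨k, hk⟩ := (lift R C).cover x
  refine ⟨k, k.1, hk, ?_, rfl⟩
  filter_upwards [((lift R C).ch k).open_source.mem_nhds hk] with y hy
  exact ⟨k.2.app y ▸ hy.2, congrArg (R.c k.1) (k.2.app y).symm⟩

theorem chIso_smul (g : C.Γ) : RAtl.ChIso (lift R C) (lift R C) fun x => g • x := by
  intro x
  obtain ⟨k, hk⟩ := (lift R C).cover x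
  obtain ⟨e, he, hpr⟩ := C.loc (g • (show C.M from x))
  refine ⟨k, (k.1, ⟨e, hpr⟩), hk, ?_, rfl⟩
  filter_upwards [((lift R C).ch k).open_source.mem_nhds hk,
    (C.cont g).continuousAt.preimage_mem_nhds (e.open_source.mem_nhds he)] with y hy hy'
  have e1 : e (g • (show C.M from y)) = k.2.1 y := by rw [← hpr, C.deck, k.2.app]
  have h2 : k.2.1 y ∈ (R.c k.1).source := hy.2
  have h3 : e (g • (show C.M from y)) ∈ (R.c k.1).source := e1 ▸ h2
  exact ⟨⟨hy', h3⟩, congrArg (R.c k.1) e1⟩

theorem locIso_pr : LocIso n (M := (lift R C).M) (M' := R.M) C.pr :=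
  ⟨(chIso_pr R C).contMDiff C.loc.continuous, (chIso_pr R C).norm_mfderiv C.loc.continuous⟩

theorem dist_smul (g : C.Γ) (x y : (lift R C).M) : dist (g • x) (g • y) = dist x y := by
  refine le_antisymm ((chIso_smul R C g).dist_le (C.cont g) x y) ?_
  have := (chIso_smul R C g⁻¹).dist_le (C.cont g⁻¹) (g • x) (g • y)
  simpa only [inv_smul_smul] using this

/-- `Ric ≥ 0` and essential: flat -/
theorem flat_of_ric (hric : HasRicciLowerBound n R.M 0) (hC : ¬ Deg n (lift R C).M C.Γ) :
    Flat n R.M := by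
  obtain ⟨K, hK, hcov⟩ := C.cocpt
  have : CompleteSpace (lift R C).M := complete_of_cocpt (dist_smul R C) hK hcov
  exact (locIso_pr R C).flat C.surj ((frame (split weyl) n (lift R C).M C.Γ
    ((locIso_pr R C).ricci hric) (fun g => (chIso_smul R C g).contMDiff (C.cont g))
    (fun g => (chIso_smul R C g).norm_mfderiv (C.cont g)) (dist_smul R C) ⟨K, hK, hcov⟩
    C.fin).resolve_right hC)

/-- transition maps of the atlas are local isometries -/
theorem pull_atl (i : R.ι) (q : R.M) : Pull (R.G i) (chartMetric n R.M q)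
    (fun y => R.c (R.idx q) ((R.c i).symm y))
    {y | y ∈ (R.c i).target ∧ (R.c i).symm y ∈ (R.c (R.idx q)).source} (R.c (R.idx q)).target := by
  have key : ∀ y, y ∈ (R.c i).target ∧ (R.c i).symm y ∈ (R.c (R.idx q)).source → ∀ v w : EE n,
      ∑ a, ∑ b, R.G i y a b * v a * w b =
      ∑ a, ∑ b, chartMetric n R.M q (R.c (R.idx q) ((R.c i).symm y)) a b *
        (fderiv ℝ (fun y => R.c (R.idx q) ((R.c i).symm y)) y v) a *
        (fderiv ℝ (fun y => R.c (R.idx q) ((R.c i).symm y)) y w) b := by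
    intro y hy v w
    have := R.Gtr i (R.idx q) _ ⟨(R.c i).map_target hy.1, hy.2⟩ v w
    rw [(R.c i).right_inv hy.1] at this
    rw [R.chartMetric_eq q ((R.c _).map_source hy.2), this]
  refine ⟨(R.c i).isOpen_inter_preimage_symm (R.c _).open_source, isRiemannianOn_chartMetric q,
    fun y hy => (R.c _).map_source hy.2, R.smt _ _, fun y hy a b => ?_, fun y hy => ?_⟩
  · rw [← key y hy]
    simp
  · rw [injective_iff_map_eq_zero]
    intro u hu
    by_contra h0
    have h1 := R.bil_pos i hy.1 u h0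
    rw [R.bil_apply, key y hy, hu] at h1
    simp at h1

theorem Flat.chart (h : Flat n R.M) (i : R.ι) {y : EE n} (hy : y ∈ (R.c i).target) (X Y Z : EE n) :
    curv (Gam (R.G i)) y X Y Z = 0 := by
  have hP := pull_atl R i ((R.c i).symm y)
  have hy' := And.intro hy (R.idx_mem ((R.c i).symm y))
  refine hP.inj y hy' ?_
  rw [hP.curv_eq hy', map_zero]
  exact h _ _ _ _

end Lift


open Crest.GeometryTopology Submanifold

theorem param_shift {n N : ℕ} {S : Set (EE N)} {p : EE N} {f : EE n → EE N} {V : Set (EE n)}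
    (h : IsLocalParam n N S p f V) {y : EE n} (hy : y ∈ V) :
    IsLocalParam n N S (f y) (fun z => f (z + y)) ((fun z => z + y) ⁻¹' V) where
  isOpen := h.isOpen.preimage (by fun_prop)
  zero_mem := by simpa using hy
  map_zero := by simp
  contDiffOn := h.contDiffOn.comp (by fun_prop) fun _ hz => hz
  injOn := fun _ ha _ hb e => add_right_cancel (h.injOn ha hb e)
  injective_fderiv x hx := by rw [fderiv_comp_add_right]; exact h.injective_fderiv _ hx
  image_open W hW hWo := by
    obtain ⟨U, hU, e⟩ := h.image_open ((fun z => z + y) '' W) (by rintro _ ⟨z, hz, rfl⟩; exact hW hz)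
      (isOpenMap_add_right y W hWo)
    exact ⟨U, hU, by rw [← e, image_image]⟩

theorem scalar_shift {n N : ℕ} (f : EE n → EE N) (y : EE n) :
    scalar (fun z => f (z + y)) 0 = scalar f y := by
  have h1 : ∀ x, pd (fun z => f (z + y)) x = pd f (x + y) := fun x => by
    funext i; simp only [pd, fderiv_comp_add_right]
  have h2 : Submanifold.hess (fun z => f (z + y)) 0 = Submanifold.hess f y := by
    funext i j
    simp only [Submanifold.hess, h1]
    rw [fderiv_comp_add_right (f := fun x => pd f x j), zero_add]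
  simp only [scalar, Submanifold.ricci, riem, sff, normalPart, tangentAt, metricMat, h1, h2,
    zero_add]

/-- the scalar curvature of the atlas of parametrisations -/
theorem mScal_sub {n N : ℕ} {S : Set (EE N)} (R : RAtl n S)
    (hR : ∀ i, ∃ p f V, IsLocalParam n N S p f V ∧ (R.c i).target = V ∧
      R.G i = metricMat f ∧ ∀ y ∈ V, (((R.c i).symm y : S) : EE N) = f y) (q : R.M) :
    ∃ p ∈ S, ∃ f V, IsLocalParam n N S p f V ∧ mScal n R.M q = scalar f 0 := by
  obtain ⟨p, f, V, h, hV, hG, hf⟩ := hR (R.idx q)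
  have hy : R.c (R.idx q) q ∈ V := hV ▸ R.mem_target q
  refine ⟨_, hf _ hy ▸ Subtype.prop _, _, _, param_shift h hy, ?_⟩
  rw [scalar_shift, mScal_chartR R (R.idx_mem q), hG,
    ((egr n N f V h.isOpen h.contDiffOn h.injective_fderiv).2 _ hy).2]


end Crest.Agent.N222.D
end
end

-- ▼ part N222/T/Ess
section

/-!
# Row 222, top level: `EssStmt` of part D from part C 
-/

set_option autoImplicit false

open Set Filter Topology
open scoped Manifold
open Crest.Agent.R273.RMan_798 Crest.Agent.N222.D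

noncomputable section

namespace Crest.Agent.N222.T

/-- the universal covering as a `Gal` -/
def gal {n : ℕ} {N : Type} [TopologicalSpace N] [T2Space N] [CompactSpace N] (R : RAtl n N)
    (U : C.Cov N) : Gal N :=
  have : LocallyCompactSpace N := R.lcM
  { M := U.T, Γ := U.Γ, cont := fun g => continuous_const_smul g, pr := U.p, loc := U.loc,
    surj := U.qc.surjective, deck := U.p_smul, cocpt := U.cocpt, fin := fun _ hL => U.fin hL hL }

/-- a class forbids degenerate partitions of unity -/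
theorem not_deg (h : C.CoreStmt) {n : ℕ} {N : Type} [TopologicalSpace N] [T2Space N]
    [CompactSpace N] (R : RAtl n N) (U : C.Cov N) (hn : 1 ≤ n) (c : C.Cls U n) :
    ¬ Deg n (lift R (gal R U)).M (gal R U).Γ := by
  rintro ⟨P, hP, hK, h0, h1, hv⟩
  have : LocallyCompactSpace N := R.lcM
  have : CompactSpace R.M := ‹CompactSpace N›
  have : SecondCountableTopology N :=
    ChartedSpace.secondCountable_of_sigmaCompact (EuclideanSpace ℝ (Fin n)) R.M
  have : SecondCountableTopology (lift R (gal R U)).M := U.sc2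
  let e : C.Lb U.Γ Unit ≃ U.Γ :=
    ⟨fun y => y.g⁻¹, fun g => ⟨g⁻¹, ()⟩, fun y => C.Lb.ext (inv_inv _) rfl, inv_inv⟩
  let Q : U.T → ℝ := P
  have hp : ∀ x : U.T, C.Prob (C.reg fun _ : Unit => tsupport Q) x fun y => Q (y.g⁻¹ • x) :=
    fun x => ⟨fun _ => h0 _, fun y hy => subset_tsupport _ hy,
      (finsum_comp_equiv e (f := fun g => Q (g • x))).trans (h1 x)⟩
  obtain ⟨r⟩ := h N U n hn c Unit (fun _ => tsupport Q) (fun _ => hK) fun x => by
    by_contra hx
    push Not at hx
    exact zero_ne_one ((finsum_eq_zero_of_forall_eq_zero fun y =>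
      by_contra fun hy => hx y ((hp x).supp y hy)).symm.trans (hp x).sum)
  have hd : ∀ g : (gal R U).Γ,
      MDifferentiable (𝓡 n) 𝓘(ℝ, ℝ) fun x : (lift R (gal R U)).M => P (g • x) := fun g =>
    (hP.comp ((chIso_smul R _ g).contMDiff ((gal R U).cont g))).mdifferentiable (by simp)
  exact res_false r (t := fun x y => Q (y.g⁻¹ • x)) (fun y => (hd _).continuous) hp
    (fun g x y => by simp [mul_smul]) fun lab f hf =>
    null_lab (M := (lift R (gal R U)).M) r.card (fun y => hd _)
      (fun x => (hv x).imp fun v h => ⟨h.1, fun y => h.2 _⟩) r.M lab hf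

theorem ess (h1 : C.CovStmt) (h2 : C.AsphStmt) (h3 : C.CoreStmt) : EssStmt := by
  intro n N _ _ _ _ R hA
  have : CompactSpace R.M := inferInstanceAs (CompactSpace N)
  obtain ⟨U⟩ := h1 n R.M
  refine ⟨gal R U, ?_⟩
  rcases Nat.eq_zero_or_pos n with rfl | hn
  · rintro ⟨P, -, -, -, -, hP⟩
    obtain ⟨x⟩ : Nonempty U.T := inferInstance
    obtain ⟨v, hv, -⟩ := hP x
    exact hv (Subsingleton.elim (α := EE 0) _ _)
  · obtain ⟨c⟩ := h2 n R.M U hn hA
    exact not_deg h3 R U hn c

end Crest.Agent.N222.T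
end
end

-- ▼ part N222/T/Bridge
section

/-!
# Row 222, top level (helper55): the delta-calculus of an `Imm` in the preferred chart
-/

set_option autoImplicit false
set_option linter.unusedSectionVars false

open Set Filter Topology
open scoped ContDiff InnerProductSpace
open Crest.GeometryTopology Crest.GeometryTopology.CoordMetric
open Crest.Agent.R202.Tens Crest.Agent.R247 Crest.Agent.R273.RMan_798 Crest.Agent.N222.D

noncomputable section

namespace Crest.Agent.N222.T

section Alg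

variable {ι κ : Type} [Fintype ι] [Fintype κ] {P T : ι → ι → ℝ} {u : κ → ι → ℝ}

/-- evaluation of a 2-tensor -/
def ev2 (T : ι → ι → ℝ) (v w : ι → ℝ) : ℝ := ∑ a, ∑ b, T a b * (v a * w b)

theorem tr_frame (hP : ∀ a b, P a b = ∑ α, u α a * u α b) (hT : ∀ a b, ∑ e, P b e * T a e = T a b) :
    ∑ a, T a a = ∑ α, ev2 T (u α) (u α) := by
  simp only [ev2]
  rw [Finset.sum_comm]
  refine Finset.sum_congr rfl fun a _ => ?_
  rw [← hT, Finset.sum_comm]
  refine Finset.sum_congr rfl fun e _ => ?_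
  rw [hP, Finset.sum_mul]
  exact Finset.sum_congr rfl fun α _ => by ring

theorem sq_frame (hP : ∀ a b, P a b = ∑ α, u α a * u α b) (hT : ∀ a b, ∑ e, P b e * T a e = T a b)
    (hs : ∀ a b, T a b = T b a) :
    ∑ a, ∑ b, T a b * T a b = ∑ α, ∑ β, ev2 T (u α) (u β) * ev2 T (u α) (u β) := by
  have h1 : ∀ a b, T a b = ∑ β, u β b * ∑ e, T a e * u β e := fun a b => by
    rw [← hT a b]
    simp only [hP, Finset.sum_mul, Finset.mul_sum]
    rw [Finset.sum_comm]
    exact Finset.sum_congr rfl fun β _ => Finset.sum_congr rfl fun e _ => by ring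
  have h2 : ∀ a β, ∑ e, T a e * u β e = ∑ α, u α a * ev2 T (u α) (u β) := fun a β => by
    have : ∀ e, T a e * u β e = ∑ α, u α a * ∑ c, T c e * (u α c * u β e) := fun e => by
      rw [hs a e, h1 e a, Finset.sum_mul]
      refine Finset.sum_congr rfl fun α _ => ?_
      rw [mul_assoc, Finset.sum_mul]
      congr 1
      exact Finset.sum_congr rfl fun c _ => by rw [hs e c]; ring
    simp only [this, ev2]
    rw [Finset.sum_comm]
    refine Finset.sum_congr rfl fun α _ => ?_
    rw [← Finset.mul_sum, Finset.sum_comm]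
  have h3 : ∀ a b, T a b * T a b = ∑ α, ∑ β, ev2 T (u α) (u β) * (T a b * (u α a * u β b)) :=
    fun a b => by
      nth_rw 2 [h1 a b]
      simp only [h2, Finset.mul_sum]
      rw [Finset.sum_comm]
      exact Finset.sum_congr rfl fun α _ => Finset.sum_congr rfl fun β _ => by ring
  simp only [h3]
  have h4 : ∀ α β, ev2 T (u α) (u β) * ev2 T (u α) (u β) =
      ∑ a, ∑ b, ev2 T (u α) (u β) * (T a b * (u α a * u β b)) := fun α β => by
    nth_rw 2 [ev2]
    simp only [Finset.mul_sum]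
  simp only [h4]
  refine (Finset.sum_congr rfl fun a _ => Finset.sum_comm).trans (Finset.sum_comm.trans ?_)
  refine Finset.sum_congr rfl fun α _ => ?_
  exact (Finset.sum_congr rfl fun a _ => Finset.sum_comm).trans Finset.sum_comm

end Alg

theorem fderiv2_clm {E F : Type*} [NormedAddCommGroup E] [NormedSpace ℝ E] [NormedAddCommGroup F]
    [NormedSpace ℝ F] {f : E → F} {y : E} (hf : ContDiffAt ℝ 2 f y) (ℓ : F →L[ℝ] ℝ) (v w : E) :
    fderiv ℝ (fderiv ℝ fun z => ℓ (f z)) y v w = ℓ (fderiv ℝ (fderiv ℝ f) y v w) := by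
  have h1 : (fderiv ℝ fun z => ℓ (f z)) =ᶠ[𝓝 y]
      fun z => ContinuousLinearMap.compL ℝ E F ℝ ℓ (fderiv ℝ f z) := by
    filter_upwards [hf.eventually (by norm_num)] with z hz
    exact (ℓ.hasFDerivAt.comp z (hz.differentiableAt (by norm_num)).hasFDerivAt).fderiv
  have h2 : DifferentiableAt ℝ (fderiv ℝ f) y :=
    (hf.fderiv_right (m := 1) (by norm_num)).differentiableAt (by norm_num)
  rw [h1.fderiv_eq, show fderiv ℝ (fun z => ContinuousLinearMap.compL ℝ E F ℝ ℓ (fderiv ℝ f z)) y =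
    _ from ((ContinuousLinearMap.compL ℝ E F ℝ ℓ).hasFDerivAt.comp y h2.hasFDerivAt).fderiv]
  rfl

theorem scal_gauss {n N : ℕ} {f : EE n → EE N} {V : Set (EE n)} (hV : IsOpen V)
    (hf : ContDiffOn ℝ ∞ f V) (hinj : ∀ x ∈ V, Function.Injective (fderiv ℝ f x)) {y : EE n}
    (hy : y ∈ V) {ξ : Fin n → EE n} (hξ : Bo84.IsFrame (Submanifold.metricMat f y) ξ)
    {σ : EE n → EE n → EE N} (hσ : ∀ v w, σ v w = fderiv ℝ (fderiv ℝ f) y v w -
      fderiv ℝ f y (Gam (Submanifold.metricMat f) y v w)) :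
    scal (Submanifold.metricMat f) y =
      ∑ α, ∑ β, (⟪σ (ξ β) (ξ β), σ (ξ α) (ξ α)⟫_ℝ - ⟪σ (ξ α) (ξ β), σ (ξ β) (ξ α)⟫_ℝ) := by
  have hg := egr_riem hV hf hinj
  rw [scal_frame hξ]
  refine Finset.sum_congr rfl fun α _ => ?_
  set Γ := Gam (Submanifold.metricMat f) with hΓ
  have h1 := hξ.trL_eq hg hy (((fderiv ℝ Γ y).flip (ξ α)).flip (ξ α) -
    (fderiv ℝ Γ y (ξ α)).flip (ξ α) + (Γ y).flip (Γ y (ξ α) (ξ α)) -
    (Γ y (ξ α)).comp ((Γ y).flip (ξ α)))
  rw [ricci_form hg hy]
  refine ((Bo84.trL_apply _).symm.trans h1).trans (Finset.sum_congr rfl fun β _ => ?_)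
  rw [egr_bil, hσ, hσ, hσ, hσ]
  exact egr_gauss ((hf.contDiffAt (hV.mem_nhds hy)).of_le Bo84.three_le_infty)
    (hasFDerivAt_Gam (differentiableAt_christoffel hg hy)).differentiableAt
    (by filter_upwards [hV.mem_nhds hy] with z hz using egr_normal hV hf hinj hz) _ _ _ _

variable {n N : ℕ} {X : Type} [TopologicalSpace X] (M : Imm n (Fin N) X) (p : X)

/-- the metric in the preferred chart -/
abbrev gM : MetricField n := Submanifold.metricMat (M.x ∘ (M.ch p).symm)

theorem ctr : M.ch p p ∈ (M.ch p).target := (M.ch p).map_source (M.mem p)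

theorem riemM : IsRiemannianOn (gM M p) (M.ch p).target :=
  egr_riem (M.ch p).open_target (M.isChart p).sm (M.isChart p).inj

variable {M p} {ξ : Fin n → EE n}

theorem P_frame (hξ : Bo84.IsFrame (gM M p (M.ch p p)) ξ) (a b : Fin N) :
    M.pre.P a b p = ∑ α, M.J p (ξ α) a * M.J p (ξ α) b := by
  obtain ⟨v, hv⟩ := Imm.PL_mem_range (M.isChart p) (M.mem p) (ee a)
  have h1 := hξ.expand (riemM M p) (ctr M p) v
  rw [M.P_apply, ← hv, h1, map_sum]
  simp only [map_smul, WithLp.ofLp_sum, WithLp.ofLp_smul, Finset.sum_apply, Pi.smul_apply,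
    smul_eq_mul]
  refine Finset.sum_congr rfl fun α _ => ?_
  rw [egr_bil, hv, M.PL_symm, Imm.PL_chart (M.isChart p) (M.mem p)]
  simp [ee, EuclideanSpace.inner_single_left, Imm.J]

theorem gam_chart (φ ψ : X → ℝ) : M.pre.gam φ ψ p =
    Bo84.gam (gM M p) (φ ∘ (M.ch p).symm) (ψ ∘ (M.ch p).symm) (M.ch p p) := by
  have hg := riemM M p
  rw [Bo84.gam_eq_fderiv_grad', Imm.fderiv_chart ψ (M.isChart p) (M.mem p),
    ContinuousLinearMap.comp_apply, Imm.td_eq_inner, Imm.gam_eq_inner, real_inner_comm]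
  · congr 1
    obtain ⟨v, hv⟩ := Imm.PL_mem_range (M.isChart p) (M.mem p) (M.grad φ p)
    rw [Imm.PL_grad] at hv
    rw [← hv]
    congr 1
    refine Bo84.bil_injective hg (ctr M p) fun Z => ?_
    rw [Bo84.bil_grad hg (ctr M p), egr_bil, hv, Imm.fderiv_chart φ (M.isChart p) (M.mem p),
      ContinuousLinearMap.comp_apply, Imm.td_eq_inner]
  · exact hg
  · exact ctr M p

theorem PL_dd (v w : EE n) :
    M.PL p (fderiv ℝ (fderiv ℝ (M.x ∘ (M.ch p).symm)) (M.ch p p) v w) =
      M.J p (Gam (gM M p) (M.ch p p) v w) := by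
  refine ext_inner_right ℝ fun z => ?_
  obtain ⟨t, ht⟩ := Imm.PL_mem_range (M.isChart p) (M.mem p) z
  have h1 := egr_normal (M.ch p).open_target (M.isChart p).sm (M.isChart p).inj (ctr M p) v w t
  rw [inner_sub_left, sub_eq_zero, ht] at h1
  rw [M.PL_symm, h1, ← M.PL_symm, Imm.PL_chart (M.isChart p) (M.mem p)]
  rfl

theorem hess_bridge {φ : X → ℝ} (hφ : M.Sm φ) (v w : EE n) :
    ev2 (fun a b => M.pre.hess φ a b p) (M.J p v) (M.J p w) =
      Bo84.hess (gM M p) (φ ∘ (M.ch p).symm) (M.ch p p) v w := by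
  rw [Bo84.hess_apply, Imm.hess_chart hφ (M.isChart p) (M.mem p), ← Imm.td_PL, PL_dd,
    Imm.fderiv_chart φ (M.isChart p) (M.mem p)]
  exact (add_sub_cancel_right _ _).symm

theorem P_hess {φ : X → ℝ} (hφ : M.Sm φ) (a b : Fin N) :
    ∑ e, M.pre.P b e p * M.pre.hess φ a e p = M.pre.hess φ a b p := by
  have := congrArg M.val (M.isDS.P_hess ⟨φ, hφ⟩ a b)
  simp only [map_sum, map_mul, M.hom.hess, M.hom.P] at this
  simpa using congrFun this p

theorem cd2 {F : Type} [NormedAddCommGroup F] [NormedSpace ℝ F] {φ : X → F} (hφ : M.Sm φ) :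
    ContDiffAt ℝ 2 (φ ∘ (M.ch p).symm) (M.ch p p) :=
  ((hφ p).contDiffAt ((M.ch p).open_target.mem_nhds (ctr M p))).of_le Bo84.two_le_infty

theorem lap_chart {φ : X → ℝ} (hφ : M.Sm φ) :
    M.pre.lap φ p = laplaceBeltrami (gM M p) (φ ∘ (M.ch p).symm) (M.ch p p) := by
  obtain ⟨ξ, hξ⟩ := Bo84.exists_frame (riemM M p) (ctr M p)
  rw [Bo84.lap_frame (riemM M p) (ctr M p) (cd2 hφ) hξ, ← Imm.tr_hess hφ,
    tr_frame (u := fun α => M.J p (ξ α)) (P_frame hξ) (P_hess hφ)]
  exact Finset.sum_congr rfl fun α _ => hess_bridge hφ _ _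

theorem scal_chart : M.pre.scal p = scal (gM M p) (M.ch p p) := by
  obtain ⟨ξ, hξ⟩ := Bo84.exists_frame (riemM M p) (ctr M p)
  set σ : EE n → EE n → EE N := fun v w =>
    fderiv ℝ (fderiv ℝ (M.x ∘ (M.ch p).symm)) (M.ch p p) v w -
      fderiv ℝ (M.x ∘ (M.ch p).symm) (M.ch p p) (Gam (gM M p) (M.ch p p) v w) with hσ
  have h1 : ∀ c v w, ev2 (fun a b => M.pre.II a b c p) (M.J p v) (M.J p w) = σ v w c := by
    intro c v w
    refine (hess_bridge (M.sm_coord c) v w).trans ?_
    have h2 := fderiv2_clm (cd2 (p := p) M.sm_x) (EuclideanSpace.proj c) v w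
    have h3 := ((EuclideanSpace.proj c : EE N →L[ℝ] ℝ).hasFDerivAt.comp _
      ((cd2 (p := p) M.sm_x).differentiableAt (by norm_num)).hasFDerivAt).fderiv
    rw [Bo84.hess_apply]
    exact congrArg₂ (· - ·) h2 (congrArg (fun L : EE n →L[ℝ] ℝ => L _) h3)
  have hs : ∀ a b c, M.pre.II a b c p = M.pre.II b a c p := fun a b c =>
    congrFun (Imm.hess_symm (M.sm_coord c) a b) p
  have h2 : M.pre.scal p = ∑ c, (∑ a, M.pre.II a a c p) * (∑ a, M.pre.II a a c p) -
      ∑ c, ∑ a, ∑ b, M.pre.II a b c p * M.pre.II a b c p := by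
    have := congrArg M.val M.isDS.scal_eq
    simp only [← M.isDS.tr_II, map_sub, map_sum, map_mul, M.hom.scal, M.hom.II] at this
    have h3 := congrFun this p
    simp only [Pi.sub_apply, Finset.sum_apply, Pi.mul_apply] at h3
    rw [h3]
    congr 1
    exact (Finset.sum_congr rfl fun a _ => Finset.sum_comm).trans Finset.sum_comm
  have h3 : ∀ v w, σ v w = σ w v := fun v w => by
    ext c
    rw [← h1, ← h1, ev2, ev2, Finset.sum_comm]
    exact Finset.sum_congr rfl fun a _ => Finset.sum_congr rfl fun b _ => by rw [hs]; ring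
  have h4 : ∀ c, ∑ a, M.pre.II a a c p = ∑ α, σ (ξ α) (ξ α) c := fun c => by
    rw [tr_frame (T := fun a b => M.pre.II a b c p) (u := fun α => M.J p (ξ α)) (P_frame hξ)
      (P_hess (M.sm_coord c))]
    simp only [h1]
  have h5 : ∀ c, ∑ a, ∑ b, M.pre.II a b c p * M.pre.II a b c p =
      ∑ α, ∑ β, σ (ξ α) (ξ β) c * σ (ξ α) (ξ β) c := fun c => by
    rw [sq_frame (T := fun a b => M.pre.II a b c p) (u := fun α => M.J p (ξ α)) (P_frame hξ)
      (P_hess (M.sm_coord c)) fun a b => hs a b c]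
    simp only [h1]
  rw [h2, scal_gauss (M.ch p).open_target (M.isChart p).sm (M.isChart p).inj (ctr M p) hξ
    (σ := σ) fun _ _ => rfl]
  simp only [h4, h5, Finset.sum_sub_distrib, Finset.sum_mul_sum, PiLp.inner_apply,
    RCLike.inner_apply, conj_trivial]
  congr 1
  · exact Finset.sum_comm.trans (Finset.sum_congr rfl fun α _ => Finset.sum_comm)
  · refine Finset.sum_comm.trans (Finset.sum_congr rfl fun α _ => Finset.sum_comm.trans ?_)
    exact Finset.sum_congr rfl fun β _ => by rw [h3 (ξ β)]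

/-- the drift `∑ φ_k ∇ψ_k` -/
def drift (M : Imm n (Fin N) X) {κ : Type} [Fintype κ] (φ ψ : κ → X → ℝ) (a : Fin N) (q : X) : ℝ :=
  ∑ k, φ k q * M.pre.D a (ψ k) q

variable {κ : Type} [Fintype κ] {φ ψ : κ → X → ℝ}

theorem sm_drift (hφ : ∀ k, M.Sm (φ k)) (hψ : ∀ k, M.Sm (ψ k)) (a : Fin N) :
    M.Sm (drift M φ ψ a) := Imm.sm_sum _ fun k _ => (hφ k).mul ((hψ k).D a)

theorem tan_drift : M.pre.Tan (drift M φ ψ) := by
  intro a
  funext q
  simp only [Finset.sum_apply, Pi.mul_apply, drift, Finset.mul_sum]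
  rw [Finset.sum_comm]
  refine Finset.sum_congr rfl fun k _ => ?_
  have := congrFun (Imm.tan_D (M := M) (ψ k) a) q
  simp only [Finset.sum_apply, Pi.mul_apply] at this
  rw [← this, Finset.mul_sum]
  exact Finset.sum_congr rfl fun b _ => by ring

theorem Eb_chart (hφ : ∀ k, M.Sm (φ k)) (hψ : ∀ k, M.Sm (ψ k)) :
    M.pre.Eb (drift M φ ψ) p = cE (gM M p) (fun k => φ k ∘ (M.ch p).symm)
      (fun k => ψ k ∘ (M.ch p).symm) (M.ch p p) := by
  have h1 : M.pre.dv (drift M φ ψ) p =
      ∑ k, (M.pre.gam (φ k) (ψ k) p + φ k p * M.pre.lap (ψ k) p) := by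
    rw [Imm.dv_apply]
    have : ∀ a, M.pre.D a (drift M φ ψ a) p = ∑ k, (φ k p * M.pre.D a (M.pre.D a (ψ k)) p +
        M.pre.D a (φ k) p * M.pre.D a (ψ k) p) := fun a =>
      (Imm.D_sum _ (fun k _ => ((hφ k).mul ((hψ k).D a)).diffAt p) a).trans
        (Finset.sum_congr rfl fun k _ => Imm.D_mul ((hφ k).diffAt p) (((hψ k).D a).diffAt p) a)
    simp only [this]
    rw [Finset.sum_comm]
    refine Finset.sum_congr rfl fun k _ => ?_
    rw [Finset.sum_add_distrib, ← Finset.mul_sum, Imm.lap_apply, Imm.gam_apply, add_comm]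
  have h2 : ∑ a, drift M φ ψ a p * drift M φ ψ a p =
      ∑ k, ∑ l, φ k p * φ l p * M.pre.gam (ψ k) (ψ l) p := by
    simp only [drift, Finset.sum_mul_sum]
    simp only [Imm.gam_apply, Finset.mul_sum]
    refine Finset.sum_comm.trans (Finset.sum_congr rfl fun k _ => Finset.sum_comm.trans ?_)
    exact Finset.sum_congr rfl fun l _ => Finset.sum_congr rfl fun a _ => by ring
  have h3 : M.pre.Eb (drift M φ ψ) p = M.pre.scal p - 2 * M.pre.dv (drift M φ ψ) p -
      ∑ a, drift M φ ψ a p * drift M φ ψ a p := by simp [Pre.Eb]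
  rw [h3, h1, h2, scal_chart, cE]
  simp only [gam_chart, fun k => lap_chart (p := p) (hψ k), Function.comp_apply,
    (M.ch p).left_inv (M.mem p)]

end Crest.Agent.N222.T
end
end

-- ▼ part N222/D/PertG
section

/-!
# Row 222, part D1 for induced metrics (helper55, after helper85's `D/Pert`)

The metric is `g + s (du₁² + du₂²)`, `u₁ + i u₂ = ν χ exp (i l / ν)` (Nash twist), so that
`du₁² + du₂² = χ² dl² + ν² dχ²`.
-/

set_option autoImplicit false
set_option linter.unusedSectionVars false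

open Set Filter Topology Bundle Function
open scoped ContDiff Manifold
open Crest.GeometryTopology.CoordMetric Crest.GeometryTopology.ChartCurvature
  Crest.GeometryTopology.PointedLimit
open Crest.Agent.R202.Tens Crest.Agent.R247.Bo84 Crest.Agent.R273.RMan_798

noncomputable section

namespace Crest.Agent.N222.D

namespace Pt

variable {n : ℕ} {N : Type} [TopologicalSpace N] (R : RAtl n N)

/-- the tensor `du₁² + du₂²` -/
def h2 (u₁ u₂ : R.M → ℝ) (j : R.ι) : MetricField n := fun y =>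
  hh R (fun _ => 1) u₁ j y + hh R (fun _ => 1) u₂ j y

variable {R} {u₁ u₂ χ l : R.M → ℝ}

theorem dat2 (h₁ : Sm n R.M u₁) (h₂ : Sm n R.M u₂) (j : R.ι) :
    Dat (R.G j) (h2 R u₁ u₂ j) (R.c j).target :=
  ⟨riemR R j, fun a b => ((dat contMDiff_const h₁ j).sm a b).add ((dat contMDiff_const h₂ j).sm a b),
    fun z hz => ((dat contMDiff_const h₁ j).psd z hz).add ((dat contMDiff_const h₂ j).psd z hz)⟩

/-- the atlas of the metric `g + s (du₁² + du₂²)` -/
def pertB (h₁ : Sm n R.M u₁) (h₂ : Sm n R.M u₂) {s : ℝ} (hs : 0 ≤ s) : RAtl n N :=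
  { R with
    G := fun j => gs (R.G j) (h2 R u₁ u₂ j) s
    Gsm := fun j => ((dat2 h₁ h₂ j).gs_riem hs).contDiffOn
    Gpd := fun j => ((dat2 h₁ h₂ j).gs_riem hs).posDef
    Gtr := fun i j x hx v w => by
      have e : ∀ j, gs (R.G j) (h2 R u₁ u₂ j) s =
          gs (gs (R.G j) (hh R (fun _ => 1) u₁ j) s) (hh R (fun _ => 1) u₂ j) s := fun j => by
        funext y; simp only [gs, h2, smul_add, add_assoc]
      rw [e, e]
      exact (pertA (R := pertA contMDiff_const h₁ hs) (χ := fun _ => 1) (l := u₂) contMDiff_const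
        h₂ hs).Gtr i j x hx v w }

/-- first component of the twist -/
def tw1 (χ l : R.M → ℝ) (ν : ℝ) (q : R.M) : ℝ := ν * χ q * Real.sin (l q / ν)

/-- second component of the twist -/
def tw2 (χ l : R.M → ℝ) (ν : ℝ) (q : R.M) : ℝ := ν * χ q * Real.cos (l q / ν)

theorem sm_tw1 (hχ : Sm n R.M χ) (hl : Sm n R.M l) (ν : ℝ) : Sm n R.M (tw1 χ l ν) :=
  (contMDiff_const.mul hχ).mul (Real.contDiff_sin.contMDiff.comp (hl.div_const ν))

theorem sm_tw2 (hχ : Sm n R.M χ) (hl : Sm n R.M l) (ν : ℝ) : Sm n R.M (tw2 χ l ν) :=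
  (contMDiff_const.mul hχ).mul (Real.contDiff_cos.contMDiff.comp (hl.div_const ν))

theorem h2_tw (hχ : Sm n R.M χ) (hl : Sm n R.M l) {ν : ℝ} (hν : ν ≠ 0) (j : R.ι) {y : EE n}
    (hy : y ∈ (R.c j).target) (a b : Fin n) : h2 R (tw1 χ l ν) (tw2 χ l ν) j y a b =
      hh R χ l j y a b + ν * ν * hh R (fun _ => 1) χ j y a b := by
  have d1 := (((contDiffOn_ch hχ j).contDiffAt ((R.c j).open_target.mem_nhds hy)).differentiableAt
    (by simp)).hasFDerivAt
  have d2 := (((contDiffOn_ch hl j).contDiffAt ((R.c j).open_target.mem_nhds hy)).differentiableAt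
    (by simp)).hasFDerivAt
  have e1 := ((d1.const_mul ν).mul (d2.mul_const ν⁻¹).sin).fderiv
  have e2 := ((d1.const_mul ν).mul (d2.mul_const ν⁻¹).cos).fderiv
  have f1 : ∀ a, pderiv a (fun z => tw1 χ l ν ((R.c j).symm z)) y =
      χ ((R.c j).symm y) * Real.cos (l ((R.c j).symm y) * ν⁻¹) *
        pderiv a (fun z => l ((R.c j).symm z)) y + ν * Real.sin (l ((R.c j).symm y) * ν⁻¹) *
        pderiv a (fun z => χ ((R.c j).symm z)) y := fun a => by
    refine (congrArg (fun L : EE n →L[ℝ] ℝ => L (EuclideanSpace.single a 1)) e1).trans ?_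
    simp only [pderiv, _root_.add_apply, _root_.smul_apply, smul_eq_mul]
    field_simp
  have f2 : ∀ a, pderiv a (fun z => tw2 χ l ν ((R.c j).symm z)) y =
      -(χ ((R.c j).symm y) * Real.sin (l ((R.c j).symm y) * ν⁻¹)) *
        pderiv a (fun z => l ((R.c j).symm z)) y + ν * Real.cos (l ((R.c j).symm y) * ν⁻¹) *
        pderiv a (fun z => χ ((R.c j).symm z)) y := fun a => by
    refine (congrArg (fun L : EE n →L[ℝ] ℝ => L (EuclideanSpace.single a 1)) e2).trans ?_
    simp only [pderiv, _root_.add_apply, _root_.smul_apply, smul_eq_mul]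
    field_simp
  simp only [h2, hh, Matrix.add_apply, Matrix.vecMulVec_apply, ww, f1, f2]
  have := Real.sin_sq_add_cos_sq (l ((R.c j).symm y) * ν⁻¹)
  linear_combination (χ ((R.c j).symm y) ^ 2 * pderiv a (fun z => l ((R.c j).symm z)) y *
    pderiv b (fun z => l ((R.c j).symm z)) y + ν ^ 2 * pderiv a (fun z => χ ((R.c j).symm z)) y *
    pderiv b (fun z => χ ((R.c j).symm z)) y) * this

theorem gs_ev2 (hχ : Sm n R.M χ) (hl : Sm n R.M l) {ν : ℝ} (hν : ν ≠ 0) (j : R.ι) {q : R.M}
    (hq : q ∈ (R.c j).source) (h0 : q ∉ tsupport χ) (s : ℝ) :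
    gs (R.G j) (h2 R (tw1 χ l ν) (tw2 χ l ν) j) s =ᶠ[𝓝 (R.c j q)] R.G j := by
  filter_upwards [((tendsto_symm R j hq).eventually
    (notMem_tsupport_iff_eventuallyEq.1 h0)).eventually_nhds,
    (R.c j).open_target.mem_nhds ((R.c j).map_source hq)] with z hz hz'
  have e0 : (fun z => χ ((R.c j).symm z)) =ᶠ[𝓝 z] fun _ => 0 := hz
  have : χ ((R.c j).symm z) = 0 := e0.self_of_nhds
  ext a b
  simp [gs_apply, h2_tw hχ hl hν j hz', hh, Matrix.vecMulVec_apply, ww, this, pderiv, e0.fderiv_eq]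

theorem JC.zero {U : Set (EE n)} {F : ℝ → EE n → ℝ} (hF : JC U F) : ContinuousOn (F 0) U :=
  ContinuousOn.comp (f := fun y : EE n => ((0 : ℝ), y)) hF (by fun_prop)
    fun _ hy => ⟨mem_Ici.2 le_rfl, hy⟩

end Pt

open Pt in
theorem pertG {n : ℕ} {N : Type} [TopologicalSpace N] [T2Space N] [CompactSpace N]
    [ConnectedSpace N] (R : RAtl n N) (hS : ∀ p, 0 ≤ mScal n R.M p)
    (hR : ¬ HasRicciLowerBound n R.M 0) : ∃ (u₁ u₂ : R.M → ℝ) (h₁ : Sm n R.M u₁) (h₂ : Sm n R.M u₂)
      (s : ℝ) (hs : 0 ≤ s), Pos n (pertB h₁ h₂ hs).M := by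
  have hP := pal
  have hD := divNeg
  have : CompactSpace R.M := inferInstanceAs (CompactSpace N)
  obtain ⟨p, v, hv⟩ : ∃ (p : R.M) (v : EE n),
      ∑ i, ∑ j, ricci (R.G (R.idx p)) (R.c (R.idx p) p) i j * v i * v j < 0 := by
    by_contra hc
    push Not at hc
    refine hR fun x v => ?_
    have := fun a b => ricci_congr (chartMetric_ev R x (R.mem_target x)) a b
    have h2 := hc x v
    simp only [← this] at h2
    rw [zero_mul]
    exact h2
  have hg := riemR R (R.idx p)
  set c := R.c (R.idx p) with hc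
  set g := R.G (R.idx p) with hgd
  set ξ : Fin n → ℝ := fun a => ∑ b, v b * g (c p) b a with hξ
  obtain ⟨η⟩ : Nonempty (SmoothBumpFunction (𝓡 n) p) := inferInstance
  have hS1 : ∀ᶠ q in 𝓝 p, η =ᶠ[𝓝 q] 1 ∧ FF g ξ (c q) < 0 := by
    refine η.eventuallyEq_one.eventually_nhds.and ?_
    have h1 : ContinuousAt (fun q : R.M => FF g ξ (c q)) p :=
      ContinuousAt.comp (f := fun q : R.M => c q) ((continuousOn_FF hg ξ).continuousAt
        (c.open_target.mem_nhds (R.mem_target p))) (c.continuousAt (R.idx_mem p))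
    exact h1.eventually (gt_mem_nhds ((FF_lower hg (R.mem_target p) v).trans_lt hv))
  obtain ⟨χ, -, hχS⟩ := (SmoothBumpFunction.nhds_basis_tsupport (I := 𝓡 n) p).mem_iff.1 hS1
  have hχs : tsupport χ ⊆ c.source := χ.tsupport_subset_chartAt_source
  obtain ⟨ι, _, φ, ψ, hφ, hψ, hdv⟩ := hD n R.M (support χ) χ.isOpen_support χ.nonempty_support
  have hχ : Sm n R.M χ := χ.contMDiff
  set l := psh η fun z => ∑ b, ξ b * z b with hl
  have hls : Sm n R.M l := sm_psh η (ContDiffOn.sum fun b _ =>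
    contDiffOn_const.mul (contDiff_coord b).contDiffOn)
  set dv : R.M → ℝ := fun q => ∑ k, (mGam n (φ k) (ψ k) q + φ k q * mLap n (ψ k) q) with hdvd
  have hdvc : Continuous dv := DN.Dv.continuous ⟨ι, inferInstance, φ, ψ, hφ, hψ, fun _ => rfl⟩
  -- the choice of `t`
  obtain ⟨t, ht, htK⟩ : ∃ t : ℝ, 0 < t ∧
      ∀ q ∈ tsupport χ, 0 < -(χ q ^ 2 * FF g ξ (c q)) - 2 * t * dv q := by
    have hK : IsCompact (tsupport χ ∩ {q | 0 ≤ dv q}) :=
      χ.hasCompactSupport.isCompact.inter_right (isClosed_le continuous_const hdvc)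
    have hf : ContinuousOn (fun q : R.M => -(χ q ^ 2 * FF g ξ (c q)))
        (tsupport χ ∩ {q | 0 ≤ dv q}) :=
      ((χ.continuous.continuousOn.pow 2).mul ((continuousOn_FF hg ξ).comp
        (c.continuousOn.mono fun q hq => hχs hq.1) fun q hq => c.map_source (hχs hq.1))).neg
    have hpos : ∀ q ∈ tsupport χ ∩ {q | 0 ≤ dv q}, 0 < -(χ q ^ 2 * FF g ξ (c q)) := by
      intro q hq
      have h0 : χ q ≠ 0 := fun h0 => (hdv q (by simpa using h0)).not_ge hq.2
      have := mul_neg_of_pos_of_neg (sq_pos_of_ne_zero h0) (hχS hq.1).2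
      linarith
    obtain ⟨a, ha⟩ := hK.bddAbove_image (hdvc.continuousOn.div hf fun q hq => (hpos q hq).ne')
    refine ⟨1 / (2 * (|a| + 1)), by positivity, fun q hq => ?_⟩
    have h2 : 2 * (1 / (2 * (|a| + 1))) * dv q = dv q / (|a| + 1) := by field_simp
    rw [h2, sub_pos, div_lt_iff₀ (by positivity)]
    rcases le_or_gt 0 (dv q) with h0 | h0
    · have h3 : dv q / -(χ q ^ 2 * FF g ξ (c q)) ≤ a := ha (mem_image_of_mem _ ⟨hq, h0⟩)
      have h4 := hpos q ⟨hq, h0⟩
      rw [div_le_iff₀ h4] at h3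
      nlinarith [le_abs_self a]
    · have := mul_nonpos_of_nonneg_of_nonpos (sq_nonneg (χ q)) (hχS hq).2.le
      nlinarith [abs_nonneg a]
  have hKc : IsCompact (c '' tsupport χ) :=
    χ.hasCompactSupport.isCompact.image_of_continuousOn (c.continuousOn.mono hχs)
  have hKU : c '' tsupport χ ⊆ c.target := by rintro _ ⟨q, hq, rfl⟩; exact c.map_source (hχs hq)
  obtain ⟨H₁, hH₁, hH₁0, -⟩ := cE_pert hP (dat hχ hls (R.idx p))
    (fun k => contDiffOn_ch (hφ k) (R.idx p)) (fun k => contDiffOn_ch (hψ k) (R.idx p)) t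
  set B : EE n → ℝ := fun y => ∑ i, ∑ j, mid g (hh R (fun _ => 1) χ (R.idx p)) 0 y i j *
    ricci g y i j with hBd
  have hBc : ContinuousOn B c.target := (JC.sum fun i => JC.sum fun j =>
    ((dat contMDiff_const hχ (R.idx p)).jc_mid i j).mul (JC.of (continuousOn_ricci hg i j))).zero
  obtain ⟨ν, hνK, hν⟩ := ((((JC.of hH₁.zero).sub ((JC.fst.mul JC.fst).mul
    (JC.of hBc))).eventually_pos c.open_target hKc hKU (by
      rintro _ ⟨q, hq, rfl⟩
      rw [hH₁0, ← mdv_chartR R (hχs hq) φ hψ, mid_hh χ ξ (hχs hq) (hχS hq).1]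
      simpa using htK q hq)).and self_mem_nhdsWithin).exists
  have hν0 : ν ≠ 0 := ne_of_gt hν
  have h₁ := sm_tw1 hχ hls ν
  have h₂ := sm_tw2 hχ hls ν
  have D := dat2 h₁ h₂ (R.idx p)
  set h := h2 R (tw1 χ l ν) (tw2 χ l ν) (R.idx p) with hh0
  obtain ⟨H, hH, hH0, hHs⟩ := cE_pert hP D (fun k => contDiffOn_ch (hφ k) (R.idx p))
    (fun k => contDiffOn_ch (hψ k) (R.idx p)) t
  have hA := hH.eventually_pos c.open_target hKc hKU fun y hy => by
    refine (hνK y hy).trans_eq ?_
    rw [hH0, hH₁0]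
    have : ∑ i, ∑ j, mid g h 0 y i j * ricci g y i j =
        ∑ i, ∑ j, mid g (hh R χ l (R.idx p)) 0 y i j * ricci g y i j + ν * ν * B y := by
      simp only [hBd, mid, gs_zero, hh0, h2_tw hχ hls hν0 _ (hKU hy), Finset.mul_sum,
        Finset.sum_mul, ← Finset.sum_add_distrib]
      exact Finset.sum_congr rfl fun i _ => Finset.sum_congr rfl fun j _ =>
        Finset.sum_congr rfl fun a _ => Finset.sum_congr rfl fun b _ => by ring
    rw [this]; ring
  obtain ⟨a, ha⟩ := DN.exists_lt_mul (K := (support χ)ᶜ) χ.isOpen_support.isClosed_compl.isCompact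
    hdvc.neg (g := fun q => ∑ k, ∑ l, φ k q * φ l q * mGam n (ψ k) (ψ l) q)
    (continuous_finsetSum _ fun k _ => continuous_finsetSum _ fun l _ =>
      ((hφ k).continuous.mul (hφ l).continuous).mul (DN.continuous_mGam (hψ k) (hψ l)))
    fun q hq => neg_pos.2 (hdv q hq)
  have hB : ∀ᶠ s in 𝓝[>] (0 : ℝ), t * s * a < 2 :=
    nhdsWithin_le_nhds (ContinuousAt.eventually_lt (f := fun s : ℝ => t * s * a) (by fun_prop)
      continuousAt_const (by simp))
  obtain ⟨s, ⟨hsA, hsB⟩, hs⟩ := ((hA.and hB).and self_mem_nhdsWithin).exists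
  have hs0 : 0 < s := hs
  set V : Fin n → R.M → ℝ := fun k => psh η
    fun z => (1 / 2) * ∑ l, gs g h s z k l * palV g (gs g h s) z l with hV
  set X : Fin n → R.M → ℝ := fun k => psh η fun z => z k with hX
  have hVs : ∀ k, Sm n R.M (V k) := fun k => sm_psh η (contDiffOn_const.mul (ContDiffOn.sum
    fun l _ => ((D.gs_riem hs0.le).contDiffOn k l).mul (contDiffOn_palV hg (D.gs_riem hs0.le) l)))
  have hΨ : ∀ k, Sm n R.M (Sum.elim X ψ k) :=
    Sum.forall.2 ⟨fun k => sm_psh η (contDiff_coord k).contDiffOn, hψ⟩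
  refine ⟨_, _, h₁, h₂, s, hs0.le, Fin n ⊕ ι, inferInstance, Sum.elim V fun k q => t * s * φ k q,
    Sum.elim X ψ, Sum.forall.2 ⟨hVs, fun k => contMDiff_const.mul (hφ k)⟩, hΨ, fun q => ?_⟩
  by_cases hq : (q : R.M) ∈ tsupport χ
  · have hqs := hχs hq
    refine lt_of_lt_of_eq ?_ (mE_chartR (pertB h₁ h₂ hs0.le) (p := p) hqs _ hΨ).symm
    refine lt_of_lt_of_eq ?_ ((hHs s hs0.le _ (c.map_source hqs)).symm.trans
      (cE_congr EventuallyEq.rfl (Sum.forall.2 ⟨fun k => (psh_ev _ hqs (hχS hq).1).symm,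
        fun k => EventuallyEq.rfl⟩) (Sum.forall.2 ⟨fun k => (psh_ev _ hqs (hχS hq).1).symm,
          fun k => EventuallyEq.rfl⟩)))
    rw [← mScal_chartR R hqs]
    exact add_pos_of_nonneg_of_pos (hS q) (mul_pos hs0 (hsA _ (mem_image_of_mem _ hq)))
  · have hV0 : ∀ k, ∀ q' : R.M, q' ∉ tsupport χ → V k q' = 0 := by
      intro k q' hq'
      by_cases hqs : q' ∈ c.source
      · have h0 : ∀ l, palV g (gs g h s) (R.c (R.idx p) q') l = 0 :=
          palV_eq_zero (gs_ev2 hχ hls hν0 (R.idx p) hqs hq' s)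
        simp [hV, psh, h0]
      · have : η q' = 0 := notMem_support.1 fun h => hqs (η.support_subset_source h)
        simp only [hV, psh, this, zero_smul]
    have hqq := R.idx_mem q
    refine lt_of_lt_of_eq ?_ (mE_chartR (pertB h₁ h₂ hs0.le) (p := q) hqq _ hΨ).symm
    refine lt_of_lt_of_eq ?_ ((mE_chartR R (p := q) hqq
      (Sum.elim (fun _ _ => 0) fun k q => t * s * φ k q) hΨ).trans
      (cE_congr (gs_ev2 hχ hls hν0 (R.idx q) hqq hq s).symm (Sum.forall.2 ⟨fun k => ?_,
        fun k => EventuallyEq.rfl⟩) fun k => EventuallyEq.rfl))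
    · rw [mE_zero_sum ψ hφ]
      have h1 : (q : R.M) ∉ support χ := fun h => hq (subset_tsupport _ h)
      have h2 := ha q h1
      have h3 := hdv q h1
      have h4 := hS q
      have h5 := mul_pos ht hs0
      have h6 := mul_lt_mul_of_pos_left h2 (pow_pos h5 2)
      have h7 := mul_pos (mul_pos h5 (neg_pos.2 h3)) (sub_pos.2 hsB)
      simp only [hdvd, Pi.neg_apply] at h6
      nlinarith
    · filter_upwards [tendsto_symm R _ hqq ((isClosed_tsupport χ).isOpen_compl.mem_nhds hq)]
        with z hz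
      exact (hV0 k _ hz).symm

end Crest.Agent.N222.D
end
end

-- ▼ part N222/T/Main

/-!
# Row 222, top level (helper55): the two statements from `NoPosImm` and part C
-/

set_option autoImplicit false
set_option linter.unusedSectionVars false

open Set Filter Topology Function
open scoped ContDiff Manifold InnerProductSpace
open Crest.GeometryTopology Crest.GeometryTopology.CoordMetric Crest.GeometryTopology.PointedLimit
open Crest.Agent.R202.Tens Crest.Agent.R247 Crest.Agent.R273.RMan_798 Crest.Agent.N222.D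
open Submanifold

noncomputable section

namespace Crest.Agent.N222.T

variable {n N : ℕ} {X : Type} [TopologicalSpace X]

/-- an atlas whose metric is induced by `x` -/
def immOf (R : RAtl n X) (x : X → EE N)
    (h1 : ∀ i, ContDiffOn ℝ ∞ (x ∘ (R.c i).symm) (R.c i).target)
    (h2 : ∀ i, ∀ y ∈ (R.c i).target, R.G i y = metricMat (x ∘ (R.c i).symm) y) :
    Imm n (Fin N) X where
  x := x
  ch p := R.c (R.idx p)
  mem p := R.idx_mem p
  isChart p := ⟨h1 _, fun y hy => by
    rw [injective_iff_map_eq_zero]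
    intro v hv
    by_contra h0
    have h3 := R.bil_pos _ hy v h0
    rw [R.bil_apply, h2 _ y hy, egr_sum, hv] at h3
    simp at h3⟩

/-- positive states of an induced metric -/
theorem not_pos (h : NoPosImm) [T2Space X] [SecondCountableTopology X] [CompactSpace X]
    [ConnectedSpace X] (R : RAtl n X) (x : X → EE N) (hx : Injective x) (hn : 1 ≤ n)
    (h1 : ∀ i, ContDiffOn ℝ ∞ (x ∘ (R.c i).symm) (R.c i).target)
    (h2 : ∀ i, ∀ y ∈ (R.c i).target, R.G i y = metricMat (x ∘ (R.c i).symm) y)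
    (U : C.Cov X) (c : C.Cls U n) : ¬ Pos n R.M := by
  rintro ⟨κ, _, φ, ψ, hφ, hψ, hE⟩
  have hφ' : ∀ k, (immOf R x h1 h2).Sm (φ k) := fun k p => contDiffOn_ch (hφ k) _
  have hψ' : ∀ k, (immOf R x h1 h2).Sm (ψ k) := fun k p => contDiffOn_ch (hψ k) _
  refine h n (Fin N) X (immOf R x h1 h2) (drift _ φ ψ) hn hx (sm_drift hφ' hψ') tan_drift
    (fun p => ?_) U c
  rw [Eb_chart hφ' hψ']
  refine ((hE p).trans_eq (mE_chartR R (R.idx_mem p) φ hψ)).trans_eq
    (Pt.cE_congr ?_ (fun _ => EventuallyEq.rfl) fun _ => EventuallyEq.rfl)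
  filter_upwards [(R.c (R.idx p)).open_target.mem_nhds (R.mem_target p)] with y hy
  exact h2 _ y hy

section Sub

variable {S : Set (EE N)} {R : RAtl n S}
  (hR : ∀ i, ∃ p f V, IsLocalParam n N S p f V ∧ (R.c i).target = V ∧
    R.G i = metricMat f ∧ ∀ y ∈ V, (((R.c i).symm y : S) : EE N) = f y)
include hR

theorem sub_sm (i : R.ι) : ContDiffOn ℝ ∞ (Subtype.val ∘ (R.c i).symm) (R.c i).target := by
  obtain ⟨p, f, V, h, hV, -, hf⟩ := hR i
  rw [hV]
  exact h.contDiffOn.congr hf

theorem sub_G (i : R.ι) (y : EE n) (hy : y ∈ (R.c i).target) :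
    R.G i y = metricMat (Subtype.val ∘ (R.c i).symm) y := by
  obtain ⟨p, f, V, h, hV, hG, hf⟩ := hR i
  have e : (Subtype.val ∘ (R.c i).symm) =ᶠ[𝓝 y] f := by
    filter_upwards [h.isOpen.mem_nhds (hV ▸ hy)] with z hz using hf z hz
  rw [hG]
  ext a b
  simp only [metricMat, pd, e.fderiv_eq]

end Sub

/-- two more coordinates -/
def cons2 (a b : ℝ) (x : EE N) : EE (N + 2) := WithLp.toLp 2 (Fin.cons a (Fin.cons b x.ofLp))

theorem contDiffOn_cons2 {a b : EE n → ℝ} {x : EE n → EE N} {V : Set (EE n)}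
    (ha : ContDiffOn ℝ ∞ a V) (hb : ContDiffOn ℝ ∞ b V) (hx : ContDiffOn ℝ ∞ x V) :
    ContDiffOn ℝ ∞ (fun y => cons2 (a y) (b y) (x y)) V :=
  contDiffOn_euclidean.2 (Fin.cases ha (Fin.cases hb fun c => contDiffOn_euclidean.1 hx c))

theorem metricMat_cons2 {a b : EE n → ℝ} {x : EE n → EE N} {y : EE n}
    (ha : DifferentiableAt ℝ a y) (hb : DifferentiableAt ℝ b y) (hx : DifferentiableAt ℝ x y)
    (i j : Fin n) : metricMat (fun y => cons2 (a y) (b y) (x y)) y i j =
      metricMat x y i j + (pderiv i a y * pderiv j a y + pderiv i b y * pderiv j b y) := by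
  have hc : ∀ {m : ℕ} {f : EE n → EE m}, DifferentiableAt ℝ f y → ∀ v c,
      fderiv ℝ f y v c = fderiv ℝ (fun z => f z c) y v := fun {m f} hf v c =>
    (congrArg (fun L : EE n →L[ℝ] ℝ => L v)
      ((EuclideanSpace.proj c : EE m →L[ℝ] ℝ).hasFDerivAt.comp y hf.hasFDerivAt).fderiv).symm
  have hd : DifferentiableAt ℝ (fun y => cons2 (a y) (b y) (x y)) y :=
    differentiableAt_euclidean.2 (Fin.cases ha (Fin.cases hb fun c =>
      differentiableAt_euclidean.1 hx c))
  simp only [metricMat, pd, Matrix.of_apply, PiLp.inner_apply, RCLike.inner_apply, conj_trivial,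
    hc hd, hc hx, Fin.sum_univ_succ]
  simp only [cons2, Fin.cons_zero, Fin.cons_succ, pderiv, stdVec]
  ring

theorem s0343 (h0 : NoPosImm) (h1 : C.CovStmt) (h2 : C.AsphStmt) (h3 : C.CoreStmt)
    (n N : ℕ) (S : Set (EuclideanSpace ℝ (Fin N))) (hS : IsSubmanifold n N S)
    (hcpt : IsCompact S) (hconn : IsConnected S)
    (hasph : ∀ k : ℕ, 2 ≤ k → ∀ x : S, Subsingleton (HomotopyGroup (Fin k) S x))
    (hscal : ∀ p ∈ S, ∀ (f : EuclideanSpace ℝ (Fin n) → EuclideanSpace ℝ (Fin N))
      (V : Set (EuclideanSpace ℝ (Fin n))), IsLocalParam n N S p f V → 0 ≤ scalar f 0) :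
    ∀ p ∈ S, ∀ (f : EuclideanSpace ℝ (Fin n) → EuclideanSpace ℝ (Fin N))
      (V : Set (EuclideanSpace ℝ (Fin n))), IsLocalParam n N S p f V →
      ∀ i j k l : Fin n, riem f 0 i j k l = 0 := by
  have := isCompact_iff_compactSpace.1 hcpt
  have := isConnected_iff_connectedSpace.1 hconn
  obtain ⟨R, hR, hR'⟩ := sub n N S hS
  intro p _ f V h i j k l
  have hn : 1 ≤ n := i.pos
  have hF : Flat n R.M := by
    by_cases hric : HasRicciLowerBound n R.M 0
    · obtain ⟨C, hC⟩ := ess h1 h2 h3 n S R hasph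
      exact flat_of_ric R C hric hC
    exfalso
    obtain ⟨u₁, u₂, e₁, e₂, s, hs, hP⟩ := pertG R (fun q => by
      obtain ⟨p, hp, f, V, h, e⟩ := mScal_sub R hR q
      rw [e]; exact hscal p hp f V h) hric
    have : CompactSpace R.M := inferInstanceAs (CompactSpace S)
    obtain ⟨U⟩ := h1 n R.M
    obtain ⟨c⟩ := h2 n R.M U hn hasph
    refine not_pos h0 (Pt.pertB e₁ e₂ hs) (fun q => cons2 (√s * u₁ q) (√s * u₂ q) q.1)
      (fun q q' e => Subtype.ext ?_) hn (fun i => contDiffOn_cons2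
        (contDiffOn_const.mul (contDiffOn_ch e₁ i)) (contDiffOn_const.mul (contDiffOn_ch e₂ i))
        (sub_sm hR i)) (fun i y hy => ?_) U c hP
    · ext c
      exact congrArg (fun z : EE (N + 2) => z c.succ.succ) e
    · have hn := (R.c i).open_target.mem_nhds hy
      have d₁ := ((contDiffOn_ch e₁ i).contDiffAt hn).differentiableAt (by simp)
      have d₂ := ((contDiffOn_ch e₂ i).contDiffAt hn).differentiableAt (by simp)
      ext a b
      refine Eq.trans ?_ (metricMat_cons2 (d₁.const_mul √s) (d₂.const_mul √s)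
        (((sub_sm hR i).contDiffAt hn).differentiableAt (by simp)) a b).symm
      rw [← sub_G hR i y hy]
      simp only [pderiv, fderiv_const_mul d₁, fderiv_const_mul d₂, _root_.smul_apply, smul_eq_mul]
      change R.G i y a b + s * (1 * _ * (1 * _) + 1 * _ * (1 * _)) = _
      have := Real.mul_self_sqrt hs
      simp only [pderiv]
      linear_combination (-(fderiv ℝ (fun z => u₁ ((R.c i).symm z)) y (EuclideanSpace.single a 1) *
        fderiv ℝ (fun z => u₁ ((R.c i).symm z)) y (EuclideanSpace.single b 1)) -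
        fderiv ℝ (fun z => u₂ ((R.c i).symm z)) y (EuclideanSpace.single a 1) *
        fderiv ℝ (fun z => u₂ ((R.c i).symm z)) y (EuclideanSpace.single b 1)) * this
  obtain ⟨a, ha, hG⟩ := hR' p f V h
  rw [((egr n N f V h.isOpen h.contDiffOn h.injective_fderiv).2 _ h.zero_mem).1, ← hG,
    hF.chart R a (ha ▸ h.zero_mem)]
  simp

theorem s0344 (h0 : NoPosImm) (h1 : C.CovStmt) (h2 : C.SingStmt)
    (n N : ℕ) (hn : 2 ≤ n) (S : Set (EuclideanSpace ℝ (Fin N))) (hS : IsSubmanifold n N S)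
    (hcpt : IsCompact S) (hconn : IsConnected S)
    (hscal : ∀ p ∈ S, ∀ (f : EuclideanSpace ℝ (Fin n) → EuclideanSpace ℝ (Fin N))
      (V : Set (EuclideanSpace ℝ (Fin n))), IsLocalParam n N S p f V → 0 < scalar f 0)
    (X : Type) [TopologicalSpace X] (hX : Crest.Topology.HasContractibleCover X)
    (c : C(S, X)) :
    (((AlgebraicTopology.singularHomologyFunctor (ModuleCat.{0} ℚ) n).obj (ModuleCat.of ℚ ℚ)).map
        (TopCat.ofHom c) :
      Crest.Topology.RationalHomology.rationalHomology S n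
        ⟶ Crest.Topology.RationalHomology.rationalHomology X n) = 0 := by
  have := isCompact_iff_compactSpace.1 hcpt
  have := isConnected_iff_connectedSpace.1 hconn
  obtain ⟨R, hR, -⟩ := sub n N S hS
  by_contra hc
  have : CompactSpace R.M := inferInstanceAs (CompactSpace S)
  obtain ⟨U⟩ := h1 n R.M
  obtain ⟨a⟩ := h2 n R.M U X hX c (by omega) hc
  refine not_pos h0 R Subtype.val Subtype.val_injective (by omega) (sub_sm hR) (sub_G hR) U a
    ⟨Empty, inferInstance, fun _ _ => 0, fun _ _ => 0, fun k => k.elim, fun k => k.elim, fun q => ?_⟩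
  obtain ⟨p, hp, f, V, h, e⟩ := mScal_sub R hR q
  simpa [mE, e] using hscal p hp f V h

end Crest.Agent.N222.T
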